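import Crest.Agent.X212.Lns95.Sw
import Crest.Agent.X212.Lns4.Neck

/-!
# X212 / LENS (helper95), part As0: the inside of a face solution
-/

set_option autoImplicit false
set_option linter.unusedSectionVars false
noncomputable section
open scoped Manifold ContDiff Topology Real
open Set Function Filter MeasureTheory
open Crest.Agent.R208.F (Ext)

namespace Crest.Agent.X212.Lns95
open An Nd18 Num57 Cyf70 Qab60
open M (Mf)
open Abel74 (fm)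
open Pj41 (Iso0 ad)
open Tmp64 (AdmOn Eq0 admOn_univ)
open Eqv71 (Ad0 ad0 KG KT CR0 PRel0 PcRel0)
open Dfl49 (PI)
open Wz78 (fL)

section cyl
variable {Y : Mf 3} [CompactSpace Y.M] {κ : Type} [Fintype κ] {lam : Type} [Fintype lam]
  {D D' : YD Y.I Y.M κ lam}
  {E : Type} [NormedAddCommGroup E] [NormedSpace ℝ E] [FiniteDimensional ℝ E]
  [MeasurableSpace E] [BorelSpace E]
  {HM : Type} [TopologicalSpace HM] {I : ModelWithCorners ℝ E HM} [I.Boundaryless]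
  {M : Type} [TopologicalSpace M] [ChartedSpace HM M] [IsManifold I ∞ M] [T2Space M]
  [MeasurableSpace M] [BorelSpace M] [SecondCountableTopology M]
  {B B' : Base M (Option κ) lam} {G G' : Geo I M (Option κ) lam} {K L : Nk D B G} {K' L' : Nk D' B' G'}
  {Ω O : Set M} {w : M → Ext E} {r n : ℕ} {c c' : Cfg M (Option κ) lam r} {ξ : M → c.m.A}
  {k v : M → En lam} {β β₁ : YC Y.M κ lam} {ζ ζ₁ : Circle} {τ τ' : Pt M (Option κ) lam r n}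

/-- the limit at an end where the lines agree -/
theorem Same.out (s : Same K K') (hB' : B'.OK I) (hk : Cj 1 B G B' G' O k)
    (hO : K.ψ.target ⊆ O) (hv : ∀ z ∈ K.ψ.target, k z = B.l z) (a : c.Adm B G) (a' : c'.Adm B' G')
    {u : M → CL c.m.V c'.m.V} (e : Eq0 G'.F (twC 1 c k) c' O u) (hβ : D.Adm β) {l : Filter ℝ}
    (H : K.Lim c β ζ l) : K'.Lim c' β ζ l := by
  have a₁ := hk.admOn (.inl rfl) hB' ((admOn_univ.2 a).mono (subset_univ O))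
  have a₂ := (admOn_univ.2 a').mono (subset_univ O)
  have i := (e.iso.symm a₁.ok a₂.ok).mono hO
  have p := (e.par.symm e.iso.su a₁.conn.sk a₂.conn.sk).mono hO
  obtain ⟨S, h1, h2, -⟩ := H.choose_spec 0 1 one_pos
  have o : IsOpen K.J := by
    have : K.J = {s | (∀ a ∈ K.p, a < s)} ∩ {s | ∀ b ∈ K.q, s < b} := rfl
    rw [this]
    refine .inter ?_ ?_
    · cases K.p
      · simp
      · simpa using isOpen_lt continuous_const continuous_id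
    · cases K.q
      · simp
      · simpa using isOpen_lt continuous_id continuous_const
  rw [K.tgt] at i p hO hv
  refine s.lim hβ (ad0 a) (ad0 a') o (mem_of_superset h1 h2) (g := fun x => ad (u x))
    ⟨i.su, i.iso, fun x hx => ?_, i.ρ, fun x hx t => ?_⟩ (hk.F ▸ p) (fun x hx => ?_) H
  · simpa only [one_smul] using i.J x hx
  · refine Eq.trans ?_ (i.j x hx t)
    show _ = c.m.j x (k x t) ∘L _
    rw [hv x hx, a.ok.jl]
  · rw [e.Φ x (hO hx), ← ContinuousLinearMap.comp_apply, (e.iso.iso x (hO hx)).src]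
    exact (Eqv71.p_Φ (ad0 a) x).symm

/-- **a solution with the inside swapped** -/
theorem swap_sol (hx : CjxStmt I M (Option κ) lam) (hu : CjuStmt I M (Option κ) lam)
    (hl : LimaStmt D I M) (hc : ClsStmt D I M) (s : Same K K') (s₁ : Same L L') (hP : B'.P = B.P)
    (ho : B'.o = B.o) (hF : G'.F = G.F) (i : Ins K Ω w)
    (fl : ∀ x ∈ Ω, ∀ s, fL B' G' x s = -fL B G x s)
    (g : KT B G B' G' Ωᶜ Ωᶜ id id (fun x b a => B.P b a x) v)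
    (p : PRel0 B G B' G' Ωᶜ Ωᶜ id (fun x b a => B.P b a x) v τ τ')
    (z : ∀ x, ∀ y ∈ Ω, τ'.D x y = 0 ∧ τ'.C x y = 0) (hO : L.ψ.target ⊆ Ωᶜ)
    (hv : ∀ z ∈ L.ψ.target, v z = B.l z) (h : c.Sol B G τ) (A : Ab B G Ω c ξ)
    (S : Sl B G Ω (fm G.F c.m c.W ξ)) (hβ : D.Adm β) (hβ₁ : D.Adm β₁) (H : K.Lim c β ζ atTop)
    (H₁ : L.Lim c β₁ ζ₁ atBot) :
    ∃ (x : Cfg M (Option κ) lam r) (ξ' : M → x.m.A) (u : M → CL c.m.V x.m.V), x.Sol B' G' τ' ∧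
      Ab B' G' Ω x ξ' ∧ Sl B' G' Ω (fm G'.F x.m x.W ξ') ∧
      CR0 B G B' G' Ωᶜ Ωᶜ id (fun x b a => B.P b a x) v c x u 1 ∧
      x.m.kd B' G'.F x.W = c.m.kd B G.F c.W ∧ K'.Lim x β ζ atTop ∧ L'.Lim x β₁ ζ₁ atBot := by
  have k := cj_of_lg g.toLG hP ho hF
  obtain ⟨x, η, u, N, e, f, H'⟩ := swap hx hu hl hc s hP ho hF i g.hB' g.hG' fl A S hβ H
    (k.admOn (.inl rfl) g.hB' ((admOn_univ.2 A.adm).mono (subset_univ _)))
  have R : CR0 B G B' G' Ωᶜ Ωᶜ id (fun x b a => B.P b a x) v c x u 1 :=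
    ⟨ad0 A.adm, ad0 N.adm, fun y hy => A.z y (not_not.1 hy), fun y hy => N.z y (not_not.1 hy),
      ceq_tw g.toLG hP (ad0 A.adm) (ad0 N.adm) (hF ▸ e)⟩
  have S' : Sl B' G' Ω (fm G'.F x.m x.W η) := by
    rw [f]; exact ⟨S.cz, by rw [hF, ho]; exact S.asd, hF ▸ S.sq, by rw [hF, ho]; exact S.lev⟩
  have q := fun y hy => sol_in g.hB' g.hG' i.cl N S' (x := y) hy
  refine ⟨x, η, u, ⟨N.adm, fun y => ?_, fun y => ?_, fun j => by rw [p.S R, h.S, mul_zero]⟩, N, S', R,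
    funext fun y => ?_, H', s₁.out g.hB' k hO (fun y hy => ?_) A.adm N.adm e hβ₁ H₁⟩
  · by_cases hy : y ∈ Ω
    · rw [Cfg.eD, (q y hy).2, (z x y hy).1, sub_zero]
    · exact (p.eD g.toLG R hy).trans (by simp [h.D, cs])
  · by_cases hy : y ∈ Ω
    · rw [Cfg.eC, (q y hy).1, (z x y hy).2, sub_zero]
    · exact (p.eC g.toLG R hy).trans (by rw [h.C, map_zero])
  · by_cases hy : y ∈ Ω
    · rw [kd_ab g.hB' g.hG' N hy, kd_ab g.hB g.hG A hy, f, hF, ho]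
    · exact (R.lm g.toKC).kd hy
  · rw [hv y hy, Eqv71.trn_of_sym (g.hB.lsym y)]

variable {Wi : Type} {lam : Type} [Fintype lam] [DecidableEq lam] {Z Z' : Xs Wi κ lam}
  {B B' : Base M (Option κ) (lam ⊕ lam)} {G G' : Geo I M (Option κ) (lam ⊕ lam)}

/-- necks with the same coordinates -/
def Sm (K : Nk Z.D B G) (K' : Nk Z'.D B' G') : Prop :=
  K'.p = K.p ∧ K'.q = K.q ∧ HEq K'.ψ K.ψ ∧ K'.tm = K.tm

theorem Sm.same {K : Nk Z.D B G} {K' : Nk Z.D B' G'} (s : Sm K K') : Same K K' :=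
  ⟨rfl, s.1, s.2.1, eq_of_heq s.2.2.1, s.2.2.2⟩

/-- `swap_sol` with the limits -/
theorem swap_xs (e : Z' = Z) {K L : Nk Z.D B G} {K' L' : Nk Z'.D B' G'}
    {c : Cfg M (Option κ) (lam ⊕ lam) r} {ξ : M → c.m.A} {v : M → En (lam ⊕ lam)}
    {τ τ' : Pt M (Option κ) (lam ⊕ lam) r n}
    (hx : CjxStmt I M (Option κ) (lam ⊕ lam)) (hu : CjuStmt I M (Option κ) (lam ⊕ lam))
    (hl : LimaStmt Z.D I M) (hc : ClsStmt Z.D I M) (s : Sm K K') (s₁ : Sm L L') (hP : B'.P = B.P)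
    (ho : B'.o = B.o) (hF : G'.F = G.F) (i : Ins K Ω w)
    (fl : ∀ x ∈ Ω, ∀ s, fL B' G' x s = -fL B G x s)
    (g : KT B G B' G' Ωᶜ Ωᶜ id id (fun x b a => B.P b a x) v)
    (p : PRel0 B G B' G' Ωᶜ Ωᶜ id (fun x b a => B.P b a x) v τ τ')
    (z : ∀ x, ∀ y ∈ Ω, τ'.D x y = 0 ∧ τ'.C x y = 0) (hO : L.ψ.target ⊆ Ωᶜ)
    (hv : ∀ z ∈ L.ψ.target, v z = B.l z) (h : c.Sol B G τ) (A : Ab B G Ω c ξ)
    (S : Sl B G Ω (fm G.F c.m c.W ξ)) {β : Bool → YC Z.Y.M κ (lam ⊕ lam)} {ζ : Bool → Circle}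
    (cr : ∀ b, Z.N.Crit Z.D (β b)) {q : Wi →₀ ℝ} {a : ℝ} {j : ℕ}
    (bk : Z.N.Brk Z.D (Z.q q) (β false) (ζ false) (β true) (ζ true) a j)
    (H : K.Lim c (β false) (ζ false) atTop) (H₁ : L.Lim c (β true) (ζ true) atBot) :
    ∃ (x : Cfg M (Option κ) (lam ⊕ lam) r) (ξ' : M → x.m.A) (u : M → CL c.m.V x.m.V)
      (β' : Bool → YC Z'.Y.M κ (lam ⊕ lam)), x.Sol B' G' τ' ∧
      Ab B' G' Ω x ξ' ∧ Sl B' G' Ω (fm G'.F x.m x.W ξ') ∧
      CR0 B G B' G' Ωᶜ Ωᶜ id (fun x b a => B.P b a x) v c x u 1 ∧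
      x.m.kd B' G'.F x.W = c.m.kd B G.F c.W ∧ K'.Lim x (β' false) (ζ false) atTop ∧
      L'.Lim x (β' true) (ζ true) atBot ∧ (∀ b, Z'.N.Crit Z'.D (β' b)) ∧
      Z'.N.Brk Z'.D (Z'.q q) (β' false) (ζ false) (β' true) (ζ true) a j := by
  subst e
  obtain ⟨x, η, u, h1, h2, h3, h4, h5, h6, h7⟩ := swap_sol hx hu hl hc s.same s₁.same hP ho hF i fl g p z hO
    hv h A S ⟨(cr false).sol.toAdm, (cr false).tmp⟩ ⟨(cr true).sol.toAdm, (cr true).tmp⟩ H H₁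
  exact ⟨x, η, u, β, h1, h2, h3, h4, h5, h6, h7, cr, bk⟩

end cyl

section scene
open M G75 Ins26
variable {κ lam : Type} [Fintype κ] [Fintype lam] [DecidableEq lam] {Lm : LM κ lam}

variable (Lm) in
/-- the leaves of the pairs of jobs -/
structure Lv0 : Prop where
  cjx : ∀ X : Mf 4, CjxStmt X.I X.M (Option κ) (lam ⊕ lam)
  cju : ∀ X : Mf 4, CjuStmt X.I X.M (Option κ) (lam ⊕ lam)
  lima : ∀ (Y : Mf 3) [CompactSpace Y.M] (D : YD Y.I Y.M κ (lam ⊕ lam)) (X : Mf 4), LimaStmt D X.I X.M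
  cls : ∀ (Y : Mf 3) [CompactSpace Y.M] (D : YD Y.I Y.M κ (lam ⊕ lam)) (X : Mf 4), ClsStmt D X.I X.M
  uni : ∀ (Y : Mf 3) [CompactSpace Y.M] (D : YD Y.I Y.M κ (lam ⊕ lam)) (X : Mf 4), UniStmt D X.I X.M
  geo : GeoStmt Lm
  lok : ∃ K : LOK Lm 4, ∀ σ, |K.k σ| ≤ 4

variable (Lm) in
/-- the leaves -/
structure Lvs : Prop extends Lv0 Lm where
  onat : OnatStmt Lm
  type : TypeStmt Lm

theorem exists_side {X A : Type} [TopologicalSpace X] [PreconnectedSpace X] [Finite A] {S : Sys X A}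
    {l : A} (b : Bool) : ∃ ρ, S.Piece {l} ρ ∧ ρ l = some b := by
  obtain ⟨x, hx⟩ := (S.w l).ne b
  obtain ⟨ρ, h1, h2⟩ := S.exists_piece (σ := {l}) (pairwise_singleton _ _) (x := x)
    (by simpa [Sys.cores] using fun h => h b hx.2)
  exact ⟨ρ, h1, h1.eq_some (pairwise_singleton _ _) rfl h2 hx⟩

variable {S : Scene Lm} {D : S.Dat} {i i' : S.L} {Wi : Type} {r n : ℕ}
  (J : Job Wi (D.Λ i) (S.A ⊕ Unit) S.ls r n) (J' : Job Wi (D.Λ i') (S.A ⊕ Unit) S.ls r n) (l : S.ls)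
  (σ : Cel (S.A ⊕ Unit)) (c : S.M.Cl) (q : Wi →₀ ℝ)

/-- the type of the inside -/
def Ty : Prop := ∀ y : J.Obc c, Job.Sol σ q y → y.Tight → ∀ ρ, S.M.sys.Piece c.1 ρ →
  ρ l = some false → y.TA ρ ∧ y.kap (D.W.pc _ ρ) = 1 / 4

/-- the row of the cut inside -/
def Un : Prop := ∀ s ∈ Job.cl σ, J.Ov σ c s → ∀ x ξ, Ab (J.B c) (J.G c s) (Om D c l) x ξ →
  Sl (J.B c) (J.G c s) (Om D c l) (fm (J.G c s).F x.m x.W ξ) →
  (∃ ψ, (J.cut c l).Sol (J.B c) (J.G c s).F (J.σc c q s l) x ψ) ∧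
  ∀ x' ξ' u, Ab (J.B c) (J.G c s) (Om D c l) x' ξ' → PI (J.G c s).F x x' (Om D c l) u → ∀ ψ ψ',
    (J.cut c l).Sol (J.B c) (J.G c s).F (J.σc c q s l) x ψ →
    (J.cut c l).Sol (J.B c) (J.G c s).F (J.σc c q s l) x' ψ' →
    (J.cut c l).Eqv (J.cut c l) (J.B c) (J.B c) u ψ ψ'

/-- a job at the face of the lens wall `l` -/
structure Sg : Prop where
  sc : S.OK
  ok : J.OK
  mem : σ ∈ J.𝒦
  c1 : c.1 = {l.1}
  hd : J.hd (.inl l) = some l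
  ct : J.ct l = S.ct i l
  nb : J.nb l = S.nb l
  tr : (J.xs l).Triv
  van : ∀ s ∈ Job.cl σ, s (.inl l) = 1 → ∀ w, J.co w s ≠ 0 →
    Wrd81.TmIn S.X.I ((S.M.sys.w l).sd true) (J.tw w)

/-- **twins**: the same problem outside the lens wall `l` -/
structure Tw : Prop where
  fl : i' = S.fl l i
  m : J'.m = J.m
  hd : J'.hd = J.hd
  Θ : J'.Θ = J.Θ
  k : J'.k = J.k
  nb : J'.nb = J.nb
  xs : J'.xs l = J.xs l
  nk : ∀ b p ha ha', Sm (J.K c l (some b) p ha) (J'.K c l (some b) p ha')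
  nat : ∃ v, ∀ s ∈ Job.cl σ, J.Ov σ c s →
    KT (J.B c) (J.G c s) (J'.B c) (J'.G c s) (Om D c l)ᶜ (Om D c l)ᶜ id id (fun x b a => (J.B c).P b a x) v ∧
    (∀ q, PRel0 (J.B c) (J.G c s) (J'.B c) (J'.G c s) (Om D c l)ᶜ (Om D c l)ᶜ id
      (fun x b a => (J.B c).P b a x) v (J.τ c q s) (J'.τ c q s)) ∧
    (∀ l' ∈ J.unc c, l' ≠ l → (J.cut c l').Rel (J'.cut c l') (Om D c l)ᶜ id v ∧
      ∀ q, PcRel0 (J.B c) (J.G c s) (J'.B c) (J'.G c s) (Om D c l)ᶜ (Om D c l)ᶜ id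
        (fun x b a => (J.B c).P b a x) v (J.σc c q s l') (J'.σc c q s l')) ∧
    ∀ ha : Act J.m c l.1 (some true) (J.Θ s), ∀ z ∈ (J.K c l.1 _ _ ha).ψ.target, v z = (J.B c).l z

namespace Sg
variable {J l σ c q} (H : Lv0 Lm) (g : Sg J l σ c) {s : S.A ⊕ Unit → ℝ}
include g

theorem act (hs : J.Ov σ c s) (b : Bool) : Act J.m c l.1 (some b) (J.Θ s) :=
  ⟨g.sc.lsp l l.2, g.ok.memBr g.mem hs, g.ok.memO g.mem hs, g.c1.ge rfl⟩

theorem side (b : Bool) : ∃ ρ, S.M.sys.Piece c.1 ρ ∧ ρ l = some b :=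
  have := S.M.con
  g.c1 ▸ exists_side b

theorem pin : ∃ ρ, S.M.sys.Piece c.1 ρ ∧ ρ l = some false ∧ D.W.pc c ρ = Om D c l :=
  let ⟨ρ, h1, h2⟩ := g.side false
  ⟨ρ, h1, h2, pc_in g.sc l.2 h2 h1.toIsReg _ c⟩

theorem qt (h1 : s ∈ Job.cl σ) (hs : J.Ov σ c s) {ρ : Reg S.A} (hρ : S.M.sys.Piece c.1 ρ)
    (e : ρ l = some false) : J.Qt c s ρ := by
  obtain ⟨a, h2, h3⟩ := g.ok.inf σ g.mem s hs.1 l (hs.2.ge (g.c1.ge rfl))
  obtain rfl := g.ok.inj _ _ _ h2 g.hd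
  refine qt_in g.sc l.2 e g.ok g.mem hρ hs g.tr fun w => (em _).imp id fun k =>
    ⟨_, fun x hx => ?_, g.van s h1 h3 w k, (S.M.sys.w l).dj⟩
  simpa [Sys.cores, g.c1] using fun h => h true hx

theorem cut_in : l ∈ J.unc c ∧ (J.cut c l).supp ⊆ Om D c l := by
  obtain ⟨ρ, h1, h2, h3⟩ := g.pin
  have k : J.nb l ⊆ ⋃ ρ' ∈ ({ρ} : Set _), S.M.sys.U ρ' := by
    rw [biUnion_singleton, U_in g.sc l.2 h2 h1.toIsReg, g.nb]; exact subset_rfl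
  exact ⟨Job.unc_of (fun _ h => h ▸ h1) k, (g.ok.cut_sub k).trans (by
    rw [Caps.un, biUnion_singleton, h3])⟩

include H

theorem geo (hs : J.Ov σ c s) :
    (∃ w, Ins (J.K c l.1 _ _ (g.act hs false)) (Om D c l) w ∧
      |Hol14.flux (D.W.Z c).I (J.cut c l) w| = 4 * π) ∧
    (∀ x ∈ Om D c l, ∀ t, fL ((D.Λ (S.fl l i)).B J.m c) ((D.Λ (S.fl l i)).G J.m c (J.Θ s)) x t =
      -fL (J.B c) (J.G c s) x t) ∧ ∀ s', J.Ov σ c s' → Cht98.Agr (J.G c s) (J.G c s') (Om D c l) :=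
  let h := H.geo S D i l J.m c _ _ _ _ _ g.sc g.c1 (g.act hs false) (g.ok.xs l).1 (g.ok.nk _ _ _ _ _)
  ⟨by rw [Job.cut, g.ct]; exact h.1, h.2.1, fun _ k => h.2.2 _ (g.act k false)⟩

theorem gv_un : GV (Un J l σ c) := by
  have hJ := g.ok
  obtain ⟨C, h0, hC⟩ := H.uni _ (J.xs l).D (D.W.Z c) _ _ Wi
    {s | s ∈ Job.cl σ ∧ J.Ov σ c s} _ (J.G c) _ (J.cut c l) (fun w => (J.tp c).tc (J.tc l w)) (fun s hs =>
      let h := g.geo H hs.2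
      ⟨hJ.ct σ g.mem s hs.2.1 c hs.2.2 l g.cut_in.1, fun _ k => h.2.2 _ k.2, _, h.1⟩) g.cut_in.2
  choose b hb using fun w => (isCompact_Icc (a := (0 : S.A ⊕ Unit → ℝ)) (b := 1)).exists_bound_of_continuousOn
    (hJ.cc l w).continuous.continuousOn
  refine .of_ball (b := fun w => |b w| * C w) (fun w => mul_nonneg (abs_nonneg _) (h0 w))
    ((Gen.adm (isOp_ball _ 0)).mono fun q _ hq s h1 h2 => hC s ⟨h1, h2⟩ q.support
      (fun w => q w * J.cc l w s) (fun w _ k => hJ.tc_in g.mem h2 (right_ne_zero_of_mul k))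
      (lt_of_le_of_lt ?_ hq) _ fun _ => rfl)
  rw [sub_zero]
  refine Finset.sum_le_sum fun w _ => ?_
  rw [abs_mul, mul_assoc]
  exact mul_le_mul_of_nonneg_left (mul_le_mul_of_nonneg_right
    ((hb w s ⟨fun a => (h1.2 a).1, fun a => (h1.2 a).2⟩).trans (le_abs_self _)) (h0 w)) (abs_nonneg _)

/-- the inside of a tight solution -/
theorem ab_in (ty : Ty J l σ c q) {y : J.Obc c} (h : Job.Sol σ q y) (t : y.Tight) :
    ∃ ξ, Ab (J.B c) (J.G c y.s) (Om D c l) y.x ξ ∧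
      Sl (J.B c) (J.G c y.s) (Om D c l) (fm (J.G c y.s).F y.x.m y.x.W ξ) := by
  obtain ⟨ρ, h1, h2, h3⟩ := g.pin
  obtain ⟨⟨w, I, -⟩, -⟩ := g.geo H h.ov
  obtain ⟨h4, h5⟩ := ty y h t ρ h1 h2
  have k := g.qt h.cell h.ov h1 h2
  obtain ⟨K, hK⟩ := H.lok
  have v := LOK.van g.sc l.2 h2 g.ok g.mem h1 K Lns4.neck hK h k
  obtain ⟨x, hx⟩ := (S.M.sys.w l).ne false
  rw [Job.Obc.TA, h3] at h4
  obtain ⟨ξ, R⟩ := Loc8.exists_rd I.hB I.hG h.sol.toAdm I.cl.isOpen ⟨x, hx.2, rfl⟩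
    (I.sc.2 _ ⟨x, hx.2, rfl⟩) h4
  have A : Ab _ _ _ y.x ξ := ⟨h.sol.toAdm, R, fun z hz => by_contra fun e => v ⟨z, h3 ▸ hz, e⟩⟩
  exact ⟨ξ, A, sl_of I.hB I.hG I.cl A I.tam.ok (fun z hz => by
    simpa [Cfg.eC, (k q _ z (h3 ▸ hz)).2] using h.sol.C z) h.int (h3 ▸ h5)⟩

end Sg

end scene

end Crest.Agent.X212.Lns95
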