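import Crest.Agent.X212.Lns95.Car
import Crest.Agent.X212.Wz78.Gw
import Crest.Agent.X212.Mp86.OY
import Crest.Agent.X212.Abel74.Defs

/-!
# X212 / LENS (helper95), part Pos: pointwise positivity and its consequences

`sdn` (norm of the self-dual part), the sharp Clifford bound `abs_rp`, the reversed background `rev`,
the conditions `Pos`, `PosW`; vanishing of spinors `vanish`; lower bounds `low`, `low_asd`, `low_ab`.
-/

open scoped Manifold ContDiff Topology InnerProductSpace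
open Finset Filter MeasureTheory

set_option autoImplicit false
set_option linter.unusedSectionVars false

noncomputable section
namespace Crest.Agent.X212.Lns95
open Sob92 Wz78 An

section alg
variable {ι : Type*} [Fintype ι] {P : ι → ι → ℝ} {U : Fin 4 → ι → ℝ}

/-- the basis of self-dual forms -/
def sdb (U : Fin 4 → ι → ℝ) : Fin 3 → ι × ι → ℝ :=
  ![fun s => wq U 0 1 s.1 s.2 + wq U 2 3 s.1 s.2, fun s => wq U 0 2 s.1 s.2 + wq U 3 1 s.1 s.2,
    fun s => wq U 0 3 s.1 s.2 + wq U 1 2 s.1 s.2]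

theorem wq_wq (h : On0 P U) (i j k l : Fin 4) : ∑ s : ι × ι, wq U i j s.1 s.2 * wq U k l s.1 s.2
    = 2 * ((if i = k then 1 else 0) * (if j = l then 1 else 0)
      - (if i = l then 1 else 0) * if j = k then 1 else 0) := by
  simp only [← h.on, sum_mul_sum, Fintype.sum_prod_type, wq]
  rw [mul_sub, two_mul, two_mul]
  nth_rewrite 2 [sum_comm]
  nth_rewrite 4 [sum_comm]
  simp only [← sum_add_distrib, ← sum_sub_distrib]
  exact sum_congr rfl fun a _ => sum_congr rfl fun b _ => by ring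

theorem sdb_sdb (h : On0 P U) (k l : Fin 3) :
    ∑ s, sdb U k s * sdb U l s = if k = l then 4 else 0 := by
  fin_cases k <;> fin_cases l <;>
    simp [sdb, add_mul, mul_add, sum_add_distrib, wq_wq h] <;> norm_num

theorem sq_sdb (h : On0 P U) (c : Fin 3 → ℝ) :
    ∑ s, (∑ k, c k * sdb U k s) ^ 2 = 4 * ∑ k, c k ^ 2 := by
  have : ∀ s, (∑ k, c k * sdb U k s) ^ 2 = ∑ k, ∑ l, c k * c l * (sdb U k s * sdb U l s) := fun s => by
    rw [sq, sum_mul_sum]; exact sum_congr rfl fun _ _ => sum_congr rfl fun _ _ => by ring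
  simp only [this]
  rw [sum_comm, mul_sum]
  refine sum_congr rfl fun k _ => ?_
  rw [sum_comm]
  simp [← mul_sum, sdb_sdb h]; ring

variable {𝔸 : Type*} [Ring 𝔸] [Algebra ℝ 𝔸] {ρ : ι → 𝔸}

theorem wq_rho (i j : Fin 4) : ∑ s : ι × ι, wq U i j s.1 s.2 • (ρ s.1 * ρ s.2)
    = rr U ρ i * rr U ρ j - rr U ρ j * rr U ρ i := by
  simp only [rr, rr_mul, Fintype.sum_prod_type, wq, sub_smul, sum_sub_distrib, mul_comm (U i _)]

end alg

variable {E : Type} [NormedAddCommGroup E] [NormedSpace ℝ E] [FiniteDimensional ℝ E]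
  [MeasurableSpace E] [BorelSpace E]
  {HM : Type} [TopologicalSpace HM] {I : ModelWithCorners ℝ E HM}
  {M : Type} [TopologicalSpace M] [ChartedSpace HM M] [IsManifold I ∞ M]
  [MeasurableSpace M] {ι : Type} [Fintype ι] {lam : Type} [Fintype lam]
  {m : Md M ι lam} {B : Base M ι lam} {G : Geo I M ι lam} {W : m.Cn} {x : M}
  {U : Fin 4 → ι → ℝ}

variable (B x U) in
/-- an oriented orthonormal coframe at `x` -/
abbrev Ox : Prop := On (fun a b => B.P a b x) (fun a b c d => B.o a b c d x) U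

theorem sd_eq (h : Ox B x U) (s t : ι × ι) : B.sd x s t = (∑ k, sdb U k s * sdb U k t) / 4 := by
  have h1 := h.pr
  have h2 := h.vol
  simp only [Base.sd, Base.a2, Base.st, ← h1, h2, vol, Ind95.E4_eq, Fin.sum_univ_four,
    Fin.sum_univ_three, sdb, wq, Matrix.cons_val]
  ring

theorem sd_sum (h : Ox B x U) (k : ι × ι → ℝ) (s : ι × ι) :
    ∑ t, B.sd x s t * k t = ∑ j, (∑ t, sdb U j t * k t) / 4 * sdb U j s := by
  simp only [sd_eq h, sum_div, sum_mul]
  rw [sum_comm]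
  exact sum_congr rfl fun _ _ => sum_congr rfl fun _ _ => by ring

variable (B x) in
/-- the norm of the self-dual part of a two-form -/
def sdn (k : ι × ι → ℝ) : ℝ := √(∑ s, (∑ t, B.sd x s t * k t) ^ 2)

theorem sdn_eq (h : Ox B x U) (k : ι × ι → ℝ) :
    sdn B x k = √(∑ j, (∑ t, sdb U j t * k t) ^ 2) / 2 := by
  simp only [sdn, sd_sum h, sq_sdb h.toOn0, div_pow, ← sum_div]
  rw [show ∀ r : ℝ, 4 * (r / 4 ^ 2) = r / 2 ^ 2 from fun r => by ring, Real.sqrt_div' _ (by norm_num),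
    Real.sqrt_sq (by norm_num)]

theorem sdn_two (h : Ox B x U) {k : ι × ι → ℝ} {a b : ℝ}
    (hk : ∀ s, k s = a * wq U 0 1 s.1 s.2 + b * wq U 2 3 s.1 s.2) : sdn B x k = |a + b| := by
  rw [sdn_eq h, ← Real.sqrt_sq_eq_abs, div_eq_iff two_ne_zero, ← Real.sqrt_sq zero_le_two,
    ← Real.sqrt_mul (sq_nonneg _)]
  congr 1
  simp [hk, Fin.sum_univ_three, sdb, add_mul, mul_add, sum_add_distrib, mul_left_comm _ a,
    mul_left_comm _ b, ← mul_sum, wq_wq h.toOn0]
  ring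

theorem norm_cl (H : m.OK I B) (h : Ox B x U) (c : Fin 4 → ℝ) (v : m.V) :
    ‖(∑ i, c i • rr U (fun a => m.ρ a x) i) v‖ ≤ √(∑ i, c i ^ 2) * ‖v‖ := by
  have D := h.toOn0.cl4 (H.cl x)
  set γ := rr U fun a => m.ρ a x
  have sk : ∀ v w, ⟪(∑ i, c i • γ i) v, w⟫_ℝ = -⟪v, (∑ i, c i • γ i) w⟫_ℝ := fun v w => by
    simp only [γ, rr, _root_.sum_apply, smul_apply, sum_inner, inner_sum, real_inner_smul_left,
      real_inner_smul_right, H.ρsk _ x v w, mul_neg, sum_neg_distrib]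
  have sq : (∑ i, c i • γ i) * ∑ i, c i • γ i = -(∑ i, c i ^ 2) • m.p x := by
    simp only [Fin.sum_univ_four, mul_add, add_mul, smul_mul_smul_comm, D.sq,
      D.anti 1 0 (by decide), D.anti 2 0 (by decide), D.anti 3 0 (by decide), D.anti 2 1 (by decide),
      D.anti 3 1 (by decide), D.anti 3 2 (by decide)]
    module
  have hp : ⟪v, m.p x v⟫_ℝ ≤ ‖v‖ ^ 2 := by
    have := real_inner_self_nonneg (x := v - m.p x v)
    rw [inner_sub_left, inner_sub_right, inner_sub_right, H.psym x v (m.p x v), H.psym x v v,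
      ← mul_apply_eq_comp (m.p x) (m.p x), H.pidem, real_inner_self_eq_norm_sq] at this
    linarith
  refine abs_le_of_sq_le_sq' ?_ (by positivity) |>.2
  rw [← real_inner_self_eq_norm_sq, sk, ← mul_apply_eq_comp, sq, mul_pow,
    Real.sq_sqrt (by positivity), smul_apply, real_inner_smul_right, neg_mul, neg_neg]
  exact mul_le_mul_of_nonneg_left hp (by positivity)

theorem sdb_rp (hB : B.OK I) (H : m.OK I B) (h : Ox B x U) (j : Fin 3) :
    ∑ s, sdb U j s • rp m B x s = (4 : ℝ) •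
      (rr U (fun a => m.ρ a x) 0 * rr U (fun a => m.ρ a x) j.succ * m.pp B x) := by
  have D := h.toOn0.cl4 (H.cl x)
  have e1 : ∑ s, sdb U j s • rp m B x s = (∑ s, sdb U j s • (m.ρ s.1 x * m.ρ s.2 x)) * m.pp B x := by
    have : ∑ s, sdb U j s * B.P s.1 s.2 x = 0 := by
      have : ∀ i k, ∑ s : ι × ι, wq U i k s.1 s.2 * B.P s.1 s.2 x = 0 := fun i k => by
        simp only [Fintype.sum_prod_type, wq, sub_mul, sum_sub_distrib]
        rw [sum_comm, sub_eq_zero]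
        exact sum_congr rfl fun a _ => sum_congr rfl fun b _ => by rw [(hB.pr x).symm a b]
      fin_cases j <;> simp [sdb, add_mul, sum_add_distrib, this]
    simp only [rp, rb_eq H, ← smul_mul_assoc, ← sum_mul, smul_add, sum_add_distrib, smul_smul,
      ← sum_smul, this, zero_smul, add_zero]
  have e2 := om_pp hB H x
  rw [show m.om B x = _ from h.om_eq (H.cl x), D.om_mul] at e2
  set γ := rr U fun a => m.ρ a x
  set q := m.pp B x
  have pq : m.p x * q = q := p_pp H x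
  have k23 : γ 2 * (γ 3 * q) = γ 0 * (γ 1 * q) := by
    have := congrArg (fun T => γ 1 * (γ 0 * T)) e2
    simpa [D.sq', D.Pγ', D.s10] using this
  have k13 : γ 1 * (γ 3 * q) = -(γ 0 * (γ 2 * q)) := by
    have := congrArg (fun T => γ 1 * (γ 2 * T)) k23
    simpa [D.sq', D.Pγ', D.s10, D.s20, D.s21, pq, neg_eq_iff_eq_neg] using this
  have k12 : γ 1 * (γ 2 * q) = γ 0 * (γ 3 * q) := by
    have := congrArg (fun T => γ 1 * (γ 3 * T)) k23
    simpa [D.sq', D.Pγ', D.s10, D.s30, D.s31, D.s32, pq] using this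
  rw [e1]
  fin_cases j <;>
    simp [sdb, add_smul, sum_add_distrib, wq_rho (ρ := fun a => m.ρ a x), γ, add_mul, sub_mul,
      mul_assoc] <;>
    simp only [← show γ = rr U fun a => m.ρ a x from rfl, D.s10, D.s20, D.s30, D.s21, D.s31, D.s32,
      k23, k13, k12] <;> module

/-- the sharp bound for Clifford multiplication by two-forms -/
theorem abs_rp (hB : B.OK I) (H : m.OK I B) (k : ι × ι → ℝ) (u v : m.V) :
    |∑ s, k s * ⟪rp m B x s u, v⟫_ℝ| ≤ 2 * sdn B x k * ‖u‖ * ‖v‖ := by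
  obtain ⟨U, h⟩ := b_on hB x
  set c : Fin 3 → ℝ := fun j => ∑ t, sdb U j t * k t with hc
  have e1 : ∑ s, k s • rp m B x s = rr U (fun a => m.ρ a x) 0 *
      (∑ i, (Fin.cons 0 c : Fin 4 → ℝ) i • rr U (fun a => m.ρ a x) i) * m.pp B x := by
    have : ∑ s, k s • rp m B x s = ∑ s, (∑ t, B.sd x s t * k t) • rp m B x s := by
      simp only [sum_smul]
      rw [sum_comm]
      simp only [fun s t => sd_symm hB x s t, mul_comm (B.sd x _ _), mul_smul, ← smul_sum, sd_rp hB H]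
    rw [this]
    simp only [sd_sum h, sum_smul, mul_smul]
    rw [sum_comm, Fin.sum_univ_succ (n := 3)]
    simp only [← smul_sum, sdb_rp hB H h, Fin.cons_zero, Fin.cons_succ, zero_smul, zero_add]
    simp only [mul_sum, sum_mul, mul_smul_comm, smul_mul_assoc, smul_smul,
      div_mul_cancel₀ _ (four_ne_zero' ℝ), hc]
  have e2 := congrArg (fun T : En (Fin m.N) => ⟪T u, v⟫_ℝ) e1
  simp only [_root_.sum_apply, smul_apply, sum_inner, real_inner_smul_left, mul_apply_eq_comp] at e2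
  have n1 := norm_cl H h (Pi.single 0 1)
  simp only [Fin.sum_univ_four, Pi.single_apply] at n1
  simp at n1
  have n2 := norm_cl H h (Fin.cons 0 c) (m.pp B x u)
  rw [Fin.sum_univ_succ (fun i => (Fin.cons 0 c : Fin 4 → ℝ) i ^ 2)] at n2
  simp only [Fin.cons_zero, Fin.cons_succ, _root_.sum_apply, smul_apply] at n2
  rw [e2, sdn_eq h, mul_div_cancel₀ _ two_ne_zero]
  refine (abs_real_inner_le_norm _ _).trans (mul_le_mul_of_nonneg_right ((n1 _).trans (n2.trans ?_))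
    (norm_nonneg _))
  rw [zero_pow two_ne_zero, zero_add]
  exact mul_le_mul_of_nonneg_left (norm_pp hB H u) (by positivity)

/-! ### the reversed orientation -/

/-- the background with the reversed orientation -/
def rev (B : Base M ι lam) : Base M ι lam := ⟨B.P, fun a b c d x => -B.o a b c d x, B.l, B.il⟩

theorem rev_ok (hB : B.OK I) : (rev B).OK I :=
  { hB with
    so := fun a b c d => (hB.so a b c d).neg
    o12 := fun a b c d x => congrArg Neg.neg (hB.o12 a b c d x)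
    o23 := fun a b c d x => congrArg Neg.neg (hB.o23 a b c d x)
    o34 := fun a b c d x => congrArg Neg.neg (hB.o34 a b c d x)
    oP := fun a b c d x => by simp only [rev, mul_neg, sum_neg_distrib, hB.oP]
    onm := fun x => by simp only [rev, neg_sq, hB.onm] }

theorem rev_md (H : m.OK I B) : m.OK I (rev B) := { H with }
theorem rev_geo (hG : G.OK B) : G.OK (rev B) := { hG with }
theorem rev_conn (C : m.IsConn B G W) : m.IsConn (rev B) G W := { C with }

theorem om_rev (x : M) : m.om (rev B) x = -m.om B x := by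
  simp only [Md.om, rev, neg_smul, sum_neg_distrib, smul_neg]

theorem pp_rev (x : M) : m.pp (rev B) x = m.pm B x := by
  rw [Md.pp, om_rev, sub_neg_eq_add, Md.pm]

theorem pm_rev (x : M) : m.pm (rev B) x = m.pp B x := by
  rw [Md.pm, om_rev, ← sub_eq_add_neg, Md.pp]

/-- the frame with the last vector reversed -/
def flp (U : Fin 4 → ι → ℝ) : Fin 4 → ι → ℝ := ![U 0, U 1, U 2, -U 3]

theorem Ox.rev (h : Ox B x U) : Ox (rev B) x (flp U) := by
  refine ⟨⟨fun i j => ?_, fun a b => ?_⟩, fun a b c d => ?_⟩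
  · fin_cases i <;> fin_cases j <;> simp [flp, h.on]
  · have := h.pr a b
    simpa [flp, Fin.sum_univ_four, Lns95.rev] using this
  · have := h.vol a b c d
    simp only [Lns95.rev, this, vol, Ind95.E4_eq, flp, Matrix.cons_val, Pi.neg_apply]
    ring

theorem sdn_rev (h : Ox B x U) {k : ι × ι → ℝ} {a b : ℝ}
    (hk : ∀ s, k s = a * wq U 0 1 s.1 s.2 + b * wq U 2 3 s.1 s.2) : sdn (rev B) x k = |a - b| := by
  rw [sdn_two h.rev (a := a) (b := -b) fun s => by simp [hk, wq, flp]; ring, sub_eq_add_neg]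

/-! ### positivity -/

variable (B G) in
/-- positivity of the Weitzenboeck term on `V⁺` for the twisting curvature `k / 2` -/
def Pos (k : ι × ι → ℝ) (d : ℝ) (x : M) : Prop := d + sdn B x k / 2 ≤ sc G x / 4

variable (B G) in
/-- positivity for connections with anti-self-dual `g`-part -/
def PosP (d : ℝ) (x : M) : Prop := Pos B G (fL B G x) d x

variable (B G) in
/-- positivity of `s / 3 - 2 W⁺` -/
def PosW (d : ℝ) (x : M) : Prop := ∀ η : ι × ι → ℝ, (∀ s, ∑ t, B.sd x s t * η t = η s) →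
  d * ∑ s, η s ^ 2 ≤ sc G x / 2 * ∑ s, η s ^ 2
    + ∑ s, ∑ t, Rm I G.F.e G.F.c G.F.Gam s.1 s.2 t.1 t.2 x * (η s * η t)

theorem norm_J (H : m.OK I B) (u : m.V) : ‖m.J u‖ = ‖u‖ := by
  rw [← sq_eq_sq₀ (norm_nonneg _) (norm_nonneg _), ← real_inner_self_eq_norm_sq, H.Jsk,
    ← mul_apply_eq_comp, H.Jsq]
  simp

theorem Pos.le (hB : B.OK I) (H : m.OK I B) {k : ι × ι → ℝ} {d : ℝ} (h : Pos B G k d x) (u : m.V) :
    d * ‖u‖ ^ 2 ≤ sc G x / 4 * ‖u‖ ^ 2 + 1 / 4 * ∑ s, k s * ⟪rp m B x s (m.J u), u⟫_ℝ := by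
  have h1 := neg_le_of_abs_le (abs_rp hB H (x := x) k (m.J u) u)
  rw [norm_J H] at h1
  nlinarith [mul_le_mul_of_nonneg_right (show d + sdn B x k / 2 ≤ sc G x / 4 from h) (sq_nonneg ‖u‖)]

theorem sdn_fP (hB : B.OK I) : sdn B x (fP B G x) = sdn B x (fL B G x) := by
  simp only [sdn, fP, mul_sum, ← mul_assoc]
  congr 2
  ext s
  rw [sum_comm]
  simp only [← sum_mul, sd_sd hB]

theorem PosP.fP (hB : B.OK I) {d : ℝ} (h : PosP B G d x) : Pos B G (fP B G x) d x := by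
  rw [Pos, sdn_fP hB]; exact h

section sol
variable [I.Boundaryless] [T2Space M] [BorelSpace M] {r n : ℕ} {c : Cfg M ι lam r}
  (hB : B.OK I) (hG : G.OK B) {N : Set M} {d : ℝ}
include hB hG

/-- (V): no spinors on a positive component -/
theorem vanish (hb : Mp86.Bumps I G.F.e G.F.dv) (hN : IsClopen N) (A : c.Adm B G)
    (hp : ∀ x ∈ N, PosP B G 0 x) (hD : ∀ x ∈ N, dir I G.F.e c.m.ρ c.W c.Φ x = 0)
    (hC : ∀ x ∈ N, c.m.p2 B x (c.m.Fg G.F c.W x) = c.m.mu B x (c.Φ x) (c.Φ x))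
    {C : ℝ} (hΦ : ∀ x ∈ N, ‖c.Φ x‖ ≤ C) : ∀ x ∈ N, c.Φ x = 0 := by
  classical
  set f : M → ℝ := N.indicator fun x => ‖c.Φ x‖ ^ 2 with hf
  have e1 : ∀ x ∈ N, f =ᶠ[𝓝 x] fun x => ‖c.Φ x‖ ^ 2 := fun x hx =>
    eventually_of_mem (hN.isOpen.mem_nhds hx) fun y hy => Set.indicator_of_mem hy _
  have e2 : ∀ x ∉ N, f =ᶠ[𝓝 x] fun _ => 0 := fun x hx =>
    eventually_of_mem (hN.isClosed.isOpen_compl.mem_nhds hx) fun y hy => Set.indicator_of_notMem hy _
  have key := Mp86.maxp_bdd hb (S := ∅) Set.finite_empty (by simp) (f := f) (m := 0) (C := C ^ 2)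
    (Mp86.vf G.F.toPre) (by simp) (by simp) (fun x _ => ?_) (fun x _ => ?_) fun δ hδ =>
      ⟨δ ^ 2 / 144, by positivity, fun x _ hx => ?_⟩
  · intro x hx
    have := key x (by simp)
    rw [(e1 x hx).self_of_nhds] at this
    exact norm_eq_zero.1 (pow_eq_zero_iff two_ne_zero |>.1 (le_antisymm this (sq_nonneg _)))
  · by_cases hx : x ∈ N
    · exact (Mp86.cm_normSq (Mp86.cm2 A.sm x)).congr_of_eventuallyEq (e1 x hx)
    · exact contMDiffAt_const.congr_of_eventuallyEq (e2 x hx)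
  · by_cases hx : x ∈ N
    · rw [(e1 x hx).self_of_nhds]
      exact pow_le_pow_left₀ (norm_nonneg _) (hΦ x hx) 2
    · rw [(e2 x hx).self_of_nhds]; positivity
  · by_cases hN' : x ∈ N
    swap
    · rw [(e2 x hN').self_of_nhds] at hx; linarith
    rw [(e1 x hN').self_of_nhds, zero_add] at hx
    have w := adm_weitz hB hG A x (c.Φ x)
    have z : dir I G.F.e c.m.ρ c.W (dir I G.F.e c.m.ρ c.W c.Φ) x = 0 := by
      have : dir I G.F.e c.m.ρ c.W c.Φ =ᶠ[𝓝 x] fun _ => 0 :=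
        eventually_of_mem (hN.isOpen.mem_nhds hN') hD
      refine sum_eq_zero fun a _ => ?_
      rw [nab_congr a this]
      simp [nab]
    rw [z, inner_zero_left, ← p2_mu hB, ← inner_p2 hB, hC x hN', real_inner_self_eq_norm_sq,
      real_inner_self_eq_norm_sq] at w
    have h1 := ((hp x hN').fP hB).le hB A.ok (c.Φ x)
    have h4 := pow_le_pow_left₀ (sq_nonneg _) (mu_proper hB A.ok (A.pos x)) 2
    have h5 := pow_le_pow_left₀ hδ.le hx 2
    rw [Mp86.Lop_congr (e1 x hN'), Mp86.Lop_normSq (A := c.W) (Mp86.vf G.F.toPre x)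
      (fun a => Mp86.cm1 (A.conn.cc.sm a) x) (fun a => Eventually.of_forall (A.conn.sk a))
      (Mp86.cm2 A.sm x)]
    have h6 : Mp86.LA I G.F.e G.F.dv c.W c.Φ x = -lap I G.F.e G.F.dv c.W c.Φ x := by
      rw [lap, neg_neg]; rfl
    have h7 : 0 ≤ ∑ a, ‖Mp86.cd I (G.F.e a) (c.W a) c.Φ x‖ ^ 2 := sum_nonneg fun _ _ => sq_nonneg _
    rw [h6, inner_neg_left]
    simp only at h5
    linarith [mul_pow (12 : ℝ) ‖c.m.mu B x (c.Φ x) (c.Φ x)‖ 2]

/-- the integrated Weitzenboeck inequality -/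
theorem low (H : m.OK I B) (C : CC I G.F.e B.P G.F.Gam m.p m.ρ W) (hW : ∀ a x, Skw (W a x))
    {u : M → m.V} (hu : Sm I u) (hc : HasCompactSupport u) (hp : ∀ x, m.p x (u x) = u x)
    (h : ∀ x, d * ‖u x‖ ^ 2 ≤ ⟪wK I G.F.e G.F.c m.ρ W x (u x), u x⟫_ℝ) :
    ∫ x, ∑ a, ‖nab I G.F.e W a u x‖ ^ 2 ∂G.F.μ + d * ∫ x, ‖u x‖ ^ 2 ∂G.F.μ
      ≤ ∫ x, ‖dir I G.F.e m.ρ W u x‖ ^ 2 ∂G.F.μ := by
  have := integral_weitz (F := G.F) (hG.P ▸ C) (lc_gam G.F) (riem_of_vol hG.vol) hW H.ρsk hu hu hp hc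
  simp only [real_inner_self_eq_norm_sq] at this
  rw [this, ← integral_const_mul]
  refine add_le_add le_rfl (integral_mono ?_ ?_ h)
  · simp only [← real_inner_self_eq_norm_sq]
    exact (integ (fun x => SA.inner (hu x) (hu x)) (hcs_inner u hc)).const_mul d
  · exact integ (fun x => SA.inner (SA.app (sm_wK C.sm H.sρ x) (hu x)) (hu x)) (hcs_inner _ hc)

/-- (LOW+): the Dirac operator of an anti-self-dual connection -/
theorem low_asd (H : m.OK I B) (C : m.IsConn B G W) (hp : ∀ x ∈ N, PosP B G d x)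
    (hA : ∀ x ∈ N, m.p2 B x (m.Fg G.F W x) = 0) {u : M → m.V} (hu : Sm I u)
    (hc : HasCompactSupport u) (hN : ∀ x ∉ N, u x = 0) (hpp : ∀ x, m.pp B x (u x) = u x) :
    ∫ x, ∑ a, ‖nab I G.F.e W a u x‖ ^ 2 ∂G.F.μ + d * ∫ x, ‖u x‖ ^ 2 ∂G.F.μ
      ≤ ∫ x, ‖dir I G.F.e m.ρ W u x‖ ^ 2 ∂G.F.μ := by
  refine low hB hG H C.cc C.sk hu hc (fun x => by rw [← hpp x, ← mul_apply_eq_comp, p_pp H])
    fun x => ?_
  by_cases hx : x ∈ N
  · rw [inner_wK hB hG H C (hpp x), ← p2_mu hB, ← inner_p2 hB, hA x hx, inner_zero_left,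
      real_inner_self_eq_norm_sq, mul_zero, add_zero]
    exact ((hp x hx).fP hB).le hB H _
  · simp [hN x hx]

omit [I.Boundaryless] [T2Space M] [BorelSpace M] in
/-- the Weitzenboeck term for an abelian twisting curvature `(k / 2) J + l ξ` -/
theorem wK_ab (H : m.OK I B) (C : CC I G.F.e B.P G.F.Gam m.p m.ρ W) {ξ : m.A} (hξ : ξ ∈ m.gS x)
    (h2 : opL ξ * opL ξ = -m.p x) {k l : ι × ι → ℝ} (hk : ∀ s, k s.swap = -k s)
    (hl : ∀ s, l s.swap = -l s) (ht : ∀ a b, tw I G.F.e G.F.c G.F.Gam m.p m.ρ W a b x =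
      (k (a, b) / 2) • (m.J * m.p x) + l (a, b) • opL ξ)
    (h1 : Pos B G (fun s => k s + 2 * l s) d x) (h1' : Pos B G (fun s => k s - 2 * l s) d x)
    {u : m.V} (hu : m.pp B x u = u) : d * ‖u‖ ^ 2 ≤ ⟪wK I G.F.e G.F.c m.ρ W x u, u⟫_ℝ := by
  have pu : m.p x u = u := by rw [← hu, ← mul_apply_eq_comp, p_pp H]
  have h : ∀ X : ι × ι → En (Fin m.N), (∀ s, X s.swap = -X s) →
      ∑ a, ∑ b, m.ρ a x * m.ρ b x * X (a, b) = ∑ s, rb m x s * X s := fun X hX => by
    have : ∑ a, ∑ b, m.ρ b x * m.ρ a x * X (a, b) = -∑ a, ∑ b, m.ρ a x * m.ρ b x * X (a, b) := by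
      rw [sum_comm]
      simp only [← sum_neg_distrib, ← mul_neg, ← hX, Prod.swap_prod_mk]
    simp only [rb, Fintype.sum_prod_type, smul_mul_assoc, sub_mul, ← smul_sum, sum_sub_distrib, this]
    module
  have hξ' : -ξ ∈ m.gS x := neg_mem hξ
  have h2' : opL (-ξ) * opL (-ξ) = -m.p x := by rw [map_neg, neg_mul_neg, h2]
  set v := Abel74.hf m x ξ u
  set w := Abel74.hf m x (-ξ) u
  have uvw : u = v + w := by
    rw [← pu]; simp only [v, w, Abel74.hf, map_neg, mul_neg, smul_apply, sub_apply, neg_apply]; module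
  have xv : opL ξ v = m.J v := by
    rw [← mul_apply_eq_comp, Abel74.xi_hf H hξ h2, mul_apply_eq_comp]
  have xw : opL ξ w = -m.J w := by
    have := congrArg (fun T : En (Fin m.N) => T u) (Abel74.xi_hf H hξ' h2')
    simp only [mul_apply_eq_comp, map_neg, neg_apply] at this
    exact neg_eq_iff_eq_neg.1 this
  have o : ∀ T : En (Fin m.N), T * opL ξ = opL ξ * T → T * m.J = m.J * T → ∀ a b, opL ξ a = m.J a →
      opL ξ b = -m.J b → ⟪T a, b⟫_ℝ = 0 ∧ ⟪T b, a⟫_ℝ = 0 := fun T t1 t2 a b ha hb => by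
    have jj : ∀ y z, ⟪m.J y, m.J z⟫_ℝ = ⟪y, z⟫_ℝ := fun y z => by
      rw [H.Jsk, ← mul_apply_eq_comp, H.Jsq]; simp
    have q : ∀ y z (ε : ℝ), opL ξ y = ε • m.J y → opL ξ z = -ε • m.J z → ε ≠ 0 → ⟪T y, z⟫_ℝ = 0 :=
      fun y z ε hy hz hε => by
        have s1 := g_skw hξ (T y) (m.J z)
        rw [← mul_apply_eq_comp, ← t1, mul_apply_eq_comp, hy, map_smul, ← mul_apply_eq_comp T, t2,
          mul_apply_eq_comp, real_inner_smul_left, jj, ← mul_apply_eq_comp (opL ξ), ← g_J hξ,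
          mul_apply_eq_comp, hz, map_smul, ← mul_apply_eq_comp m.J, H.Jsq] at s1
        simp only [neg_apply, one_apply_eq_self, real_inner_smul_right, inner_neg_right] at s1
        exact (mul_eq_zero.1 (by linarith : ε * ⟪T y, z⟫_ℝ = 0)).resolve_left hε
    exact ⟨q a b 1 (by simpa) (by simpa) one_ne_zero, q b a (-1) (by simpa) (by simpa) (by simp)⟩
  have o1 := o 1 (by simp) (by simp) v w xv xw
  have o2 := fun s => o (rp m B x s * m.J)
    (by rw [mul_assoc, g_J hξ, ← mul_assoc, ← g_rp H hξ, mul_assoc]) (by rw [← mul_assoc, J_rp H])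
    v w xv xw
  have r1 : ∀ s (T : En (Fin m.N)), T * m.pp B x = m.pp B x * T → rb m x s (T u) = rp m B x s (T u) :=
    fun s T hT => by rw [rp, mul_apply_eq_comp, ← mul_apply_eq_comp (m.pp B x), ← hT,
      mul_apply_eq_comp, hu]
  have k1 := h1.le hB H v
  have k2 := h1'.le hB H w
  rw [C.lich (glc hG) (gfrm hG) (gsep hG)]
  simp only [ht]
  rw [h (fun s => (k s / 2) • (m.J * m.p x) + l s • opL ξ) fun s => by
    rw [hk, hl, neg_div, neg_smul, neg_smul, neg_add]]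
  simp only [add_apply, smul_apply, _root_.sum_apply, mul_apply_eq_comp, pu, map_add, map_smul,
    r1 _ _ (J_pp H x), r1 _ _ (g_pp H hξ), inner_add_left, real_inner_smul_left, sum_inner]
  simp only [one_apply_eq_self, mul_apply_eq_comp] at o1 o2
  rw [← real_inner_self_eq_norm_sq] at k1 k2 ⊢
  rw [uvw]
  simp only [map_add, xv, xw, map_neg, inner_add_left, inner_add_right, inner_neg_left, o1.1, o1.2,
    fun s => (o2 s).1, fun s => (o2 s).2, add_mul, sub_mul, mul_add, sum_add_distrib,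
    sum_sub_distrib, neg_zero, add_zero, zero_add, mul_neg, sum_neg_distrib, mul_assoc, ← mul_sum,
    div_eq_inv_mul] at k1 k2 ⊢
  linarith

end sol

/-! ### the model -/

section model
variable {O : Set M} {V : Fin 4 → ι → M → ℝ} {κ : ι → M → ℝ} {f f1 f2 : M → ℝ} (hG : G.OK B)
  (h : Cz I G.F.e B.P G.F.c O V κ f f1 f2) (hx : x ∈ O)
include hG h hx

theorem Cz.sc_eq : sc G x = 8 - 2 * f x ^ 2 + 2 * (-f2 x / f x) := by
  have e := wq_wq (h.on x hx)
  simp only [Fintype.sum_prod_type] at e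
  have : ∀ a b, Rm I G.F.e G.F.c G.F.Gam a b b a x = (-f2 x / f x * wq (V · · x) 0 1 a b
      - 2 * f1 x * wq (V · · x) 2 3 a b) * wq (V · · x) 0 1 a b
      + f1 x * wq (V · · x) 3 1 a b * wq (V · · x) 0 2 a b
      + f1 x * wq (V · · x) 1 2 a b * wq (V · · x) 0 3 a b
      + ((4 - 3 * f x ^ 2) * wq (V · · x) 2 3 a b - 2 * f1 x * wq (V · · x) 0 1 a b)
        * wq (V · · x) 2 3 a b
      + (f1 x * wq (V · · x) 0 2 a b + f x ^ 2 * wq (V · · x) 3 1 a b) * wq (V · · x) 3 1 a b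
      + (f1 x * wq (V · · x) 0 3 a b + f x ^ 2 * wq (V · · x) 1 2 a b) * wq (V · · x) 1 2 a b :=
    fun a b => by rw [h.rm hx (glc hG) (gfrm hG) (gsep hG)]; simp only [rmL, wq]; ring
  simp only [sc, scal, this, add_mul, sub_mul, sum_add_distrib, sum_sub_distrib, mul_assoc, ← mul_sum, e]
  simp; ring

theorem Cz.posW (ho : Ox B x (V · · x)) {d : ℝ} (h1 : d ≤ 4 * f1 x + 2 * f x ^ 2)
    (h2 : d ≤ 4 - 2 * f x ^ 2 - 2 * f1 x + -f2 x / f x) : PosW B G d x := fun η hη => by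
  obtain ⟨c, hc⟩ : ∃ c : Fin 3 → ℝ, η = fun s => ∑ j, c j * sdb (V · · x) j s :=
    ⟨_, funext fun s => (hη s).symm.trans (sd_sum ho η s)⟩
  have e : ∀ i j, ∑ s : ι × ι, wq (V · · x) i j s.1 s.2 * η s = c 0 * (∑ s : ι × ι,
      wq (V · · x) i j s.1 s.2 * wq (V · · x) 0 1 s.1 s.2 + ∑ s : ι × ι,
      wq (V · · x) i j s.1 s.2 * wq (V · · x) 2 3 s.1 s.2) + c 1 * (∑ s : ι × ι,
      wq (V · · x) i j s.1 s.2 * wq (V · · x) 0 2 s.1 s.2 + ∑ s : ι × ι,
      wq (V · · x) i j s.1 s.2 * wq (V · · x) 3 1 s.1 s.2) + c 2 * (∑ s : ι × ι,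
      wq (V · · x) i j s.1 s.2 * wq (V · · x) 0 3 s.1 s.2 + ∑ s : ι × ι,
      wq (V · · x) i j s.1 s.2 * wq (V · · x) 1 2 s.1 s.2) := fun i j => by
    simp only [hc, Fin.sum_univ_three, sdb, Matrix.cons_val, mul_sum, mul_add, ← sum_add_distrib]
    exact sum_congr rfl fun _ _ => by ring
  simp only [wq_wq ho.toOn0] at e
  have e2 : ∀ (X Y : ι × ι → ℝ), ∑ s, ∑ t, X s * Y t * (η s * η t) = (∑ s, X s * η s) * ∑ t, Y t * η t :=
    fun X Y => by
      rw [sum_mul_sum]; exact sum_congr rfl fun _ _ => sum_congr rfl fun _ _ => by ring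
  have n : ∑ s, η s ^ 2 = 4 * ∑ j, c j ^ 2 := by rw [hc]; exact sq_sdb ho.toOn0 c
  simp only [h.rm hx (glc hG) (gfrm hG) (gsep hG), rmL, neg_mul, add_mul, sum_neg_distrib,
    sum_add_distrib]
  rw [e2 (fun s => -f2 x / f x * wq (V · · x) 0 1 s.1 s.2 - 2 * f1 x * wq (V · · x) 2 3 s.1 s.2)
    (fun s => wq (V · · x) 0 1 s.1 s.2), e2 (fun s => f1 x * wq (V · · x) 3 1 s.1 s.2)
    (fun s => wq (V · · x) 0 2 s.1 s.2), e2 (fun s => f1 x * wq (V · · x) 1 2 s.1 s.2)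
    (fun s => wq (V · · x) 0 3 s.1 s.2), e2 (fun s => (4 - 3 * f x ^ 2) * wq (V · · x) 2 3 s.1 s.2
      - 2 * f1 x * wq (V · · x) 0 1 s.1 s.2) (fun s => wq (V · · x) 2 3 s.1 s.2),
    e2 (fun s => f1 x * wq (V · · x) 0 2 s.1 s.2) (fun s => wq (V · · x) 3 1 s.1 s.2),
    e2 (fun s => f x ^ 2 * wq (V · · x) 3 1 s.1 s.2) (fun s => wq (V · · x) 3 1 s.1 s.2),
    e2 (fun s => f1 x * wq (V · · x) 0 3 s.1 s.2) (fun s => wq (V · · x) 1 2 s.1 s.2),
    e2 (fun s => f x ^ 2 * wq (V · · x) 1 2 s.1 s.2) (fun s => wq (V · · x) 1 2 s.1 s.2), n,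
    h.sc_eq hG hx]
  simp only [sub_mul, sum_sub_distrib, mul_assoc, ← mul_sum, e, Fin.sum_univ_three]
  simp
  nlinarith [mul_le_mul_of_nonneg_right h1 (sq_nonneg (c 0)),
    mul_le_mul_of_nonneg_right h2 (sq_nonneg (c 1)), mul_le_mul_of_nonneg_right h2 (sq_nonneg (c 2))]

theorem Cz.pos (ho : Ox B x (V · · x)) {k : ι × ι → ℝ} {a b d : ℝ}
    (hk : ∀ s, k s = a * wq (V · · x) 0 1 s.1 s.2 + b * wq (V · · x) 2 3 s.1 s.2)
    (hd : d + |a + b| / 2 ≤ 2 - f x ^ 2 / 2 + -f2 x / f x / 2) : Pos B G k d x := by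
  rw [Pos, sdn_two ho hk, h.sc_eq hG hx]; linarith

theorem Cz.neg (ho : Ox B x (V · · x)) {k : ι × ι → ℝ} {a b d : ℝ}
    (hk : ∀ s, k s = a * wq (V · · x) 0 1 s.1 s.2 + b * wq (V · · x) 2 3 s.1 s.2)
    (hd : d + |a - b| / 2 ≤ 2 - f x ^ 2 / 2 + -f2 x / f x / 2) : Pos (rev B) G k d x := by
  rw [Pos, sdn_rev ho hk, h.sc_eq hG hx]; linarith

end model

end Crest.Agent.X212.Lns95
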