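import Crest.Agent.X212.Lns95.Van
import Crest.Agent.X212.Ins26.Defs
import Crest.Agent.X212.Qab60.Props
import Crest.Agent.X212.Qab60.As
import Crest.Agent.X212.Hol14.Den
import Crest.Agent.X212.Dfl49.Pc
import Crest.Agent.X212.Eqv71.Job
import Crest.Agent.X212.Cut54.Deg

/-!
# X212 / LENS (helper95), part Lf: the leaves of `Ins26.LensStmt`
-/

set_option autoImplicit false
set_option linter.unusedSectionVars false
noncomputable section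
open scoped Manifold ContDiff Topology Real
open Set Function Filter
open Crest.Agent.R208.F (Ext)

namespace Crest.Agent.X212.Lns95
open An Nd18 Num57 Cyf70 Qab60 Hol14
open M (Mf)
open Dr59 (dM Ex Cl Cs HZ Lat ip)
open Int54 (integ)
open Abel74 (fm fF RedOn)
open Dfl49 (PI One)
open Rf65 (SC)
open Pj41 (FSm)
open Wz78 (fL)
open Eqv71 (cj KT PRel0 PcRel0)
open Cht98 (Agr)

/-- **LEAF COB** (Coburn): symbols of winding number one -/
def CobStmt : Prop := ∀ (κ : Type) [Fintype κ] [DecidableEq κ] (J q : En κ) (g : Sy κ) (φ : ℝ → ℝ),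
  CP J q → rk q = 2 → Continuous φ → φ 1 = φ 0 + 2 * π →
  (∀ t : ℝ, g t * q = (Real.cos (φ t) • 1 + Real.sin (φ t) • J) * q) → Injective (tpzL J q g)

section gauge
variable {E : Type} [NormedAddCommGroup E] [NormedSpace ℝ E] [FiniteDimensional ℝ E]
  [MeasurableSpace E] [BorelSpace E]
  {HM : Type} [TopologicalSpace HM] (I : ModelWithCorners ℝ E HM) [I.Boundaryless]
  (M : Type) [TopologicalSpace M] [ChartedSpace HM M] [IsManifold I ∞ M] [T2Space M]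
  [MeasurableSpace M] [BorelSpace M] [SecondCountableTopology M]
  (ι : Type) [Fintype ι] (lam : Type) [Fintype lam]

variable {I M ι lam} in
/-- one metric, two lines; `k : Λ' → Λ` is a parallel isometry over `Ω`, linear (`ε = 1`) or
antilinear (`ε = -1`) -/
structure Cj (ε : ℝ) (B : Base M ι lam) (G : Geo I M ι lam) (B' : Base M ι lam)
    (G' : Geo I M ι lam) (Ω : Set M) (k : M → En lam) : Prop where
  P : B'.P = B.P
  o : B'.o = B.o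
  F : G'.F = G.F
  sm : ∀ x ∈ Ω, FSm I k x
  kk : ∀ x ∈ Ω, trn (k x) * k x = B'.l x
  kk' : ∀ x ∈ Ω, k x * trn (k x) = B.l x
  il : ∀ x ∈ Ω, k x * B'.il = ε • (B.il * k x)
  par : ∀ a, ∀ x ∈ Ω, G.F.D a k x + (G.a a x * k x - k x * G'.a a x) = 0

variable {M ι lam} in
/-- the module with the line changed along `k` -/
abbrev twM (ε : ℝ) (m : Md M ι lam) (k : M → En lam) : Md M ι lam :=
  ⟨m.N, ε • m.J, m.p, m.ρ, fun x => m.j x ∘L k x⟩

variable {M ι lam} in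
/-- the configuration with the line changed along `k` -/
abbrev twC {r : ℕ} (ε : ℝ) (c : Cfg M ι lam r) (k : M → En lam) : Cfg M ι lam r :=
  ⟨twM ε c.m k, c.W, c.Φ, c.z⟩

variable {I M ι lam} in
/-- anti-self-dual forms of level `1/4` on `Ω` -/
structure Sl (B : Base M ι lam) (G : Geo I M ι lam) (Ω : Set M) (f : M → Ext E) : Prop where
  cz : Qab60.Cz I Ω f
  asd : ∀ x ∈ Ω, hs G.F B.o x (c2 G.F f x) = 0
  sq : Sq G.F f
  lev : integ I (vol G.F B.o) (f * f) = -π ^ 2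

/-- **LEAF CJX**: lines with opposite curvature on a simply connected set are conjugate -/
def CjxStmt : Prop := ∀ (B B' : Base M ι lam) (G G' : Geo I M ι lam) (Ω : Set M), B.OK I → G.OK B →
  B'.OK I → G'.OK B' → B'.P = B.P → B'.o = B.o → G'.F = G.F → IsOpen Ω → SC Ω →
  (∀ x ∈ Ω, ∀ s, fL B' G' x s = -fL B G x s) → ∃ k, Cj (-1) B G B' G' Ω k

/-- **LEAF CJU**: where the lines agree, a reduction `Λ ⊕ ℂ` is isomorphic to its conjugate -/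
def CjuStmt : Prop := ∀ (r : ℕ) (B B' : Base M ι lam) (G G' : Geo I M ι lam) (Ω O : Set M)
  (c : Cfg M ι lam r) (ξ : M → c.m.A) (k : M → En lam), B.OK I → G.OK B → B'.OK I → G'.OK B' →
  Ab B G Ω c ξ → SC Ω → Cj (-1) B G B' G' Ω k → IsOpen O → O ⊆ Ω → B'.il = B.il →
  (∀ x ∈ O, B'.l x = B.l x ∧ ∀ a, G'.a a x = G.a a x) →
  (∀ x ∈ Ω, ∀ a b, 2 * fF G.F c.m c.W ξ a b x = fL B G x (a, b)) →
  ∃ u, PI G.F (twC (-1) c k) c O u ∧ ∀ x ∈ O, cj (u x) (ξ x) = -ξ x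

/-- **LEAF TOE** (from COB): the row of a cut at a reduction of flux `± 2π` -/
def ToeStmt : Prop := ∀ (B : Base M ι lam) (G : Geo I M ι lam) (m : Md M ι lam) (W : m.Cn)
  (k : Cut M lam) (ξ : M → m.A), B.OK I → G.OK B → m.OK I B → m.IsConn B G W → k.OK B G.F →
  RedOn G.F m W k.supp ξ → |flux I k (fm G.F m W ξ)| = 2 * π → ∃ ε > 0,
  ∀ σ : CL (k.H B m) (k.H B m), ‖σ‖ ≤ ε → Commute σ (JH m.J (m.pp B k.x0)) →
    Commute σ (cH m B k (ph B k G.F (ξ k.x0))) → (∃ ψ, ‖ψ‖ = 1 ∧ k.T B G.F m W ψ = σ ψ) ∧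
    ∀ ψ ψ', ‖ψ‖ = 1 → k.T B G.F m W ψ = σ ψ → ‖ψ'‖ = 1 → k.T B G.F m W ψ' = σ ψ' →
      ∃ η : Circle, ψ' = cH m B k (csE m.J η) ψ

/-- **LEAF XI**: the terms of a cut at an abelian point respect the splitting -/
def XiStmt : Prop := ∀ (r : ℕ) (B : Base M ι lam) (G : Geo I M ι lam) (Ω Ω' : Set M)
  (c : Cfg M ι lam r) (ξ : M → c.m.A) (k : Cut M lam) (t : Tc M lam r), B.OK I → G.OK B →
  (∃ C, G.F.Tame C) → IsClopen Ω → Ab B G Ω c ξ → k.OK B G.F → k.x0 ∈ Ω → XiIn I Ω' t.ξ →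
  Commute (c.tc B G.F k t) (JH c.m.J (c.m.pp B k.x0)) ∧
    Commute (c.tc B G.F k t) (cH c.m B k (ph B k G.F (ξ k.x0)))

end gauge

section cyl
variable {Y : Mf 3} [CompactSpace Y.M] {κ : Type} [Fintype κ] {lam : Type} [Fintype lam]
  (D : YD Y.I Y.M κ lam)
  {E : Type} [NormedAddCommGroup E] [NormedSpace ℝ E] [FiniteDimensional ℝ E]
  [MeasurableSpace E] [BorelSpace E]
  {HM : Type} [TopologicalSpace HM] (I : ModelWithCorners ℝ E HM) [I.Boundaryless]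
  (M : Type) [TopologicalSpace M] [ChartedSpace HM M] [IsManifold I ∞ M] [T2Space M]
  [MeasurableSpace M] [BorelSpace M] [SecondCountableTopology M]

variable {D I M} in
/-- the inside `Ω` of a lens wall; `w` is the curvature of the line -/
structure Ins {B : Base M (Option κ) lam} {G : Geo I M (Option κ) lam} (K : Nk D B G) (Ω : Set M)
    (w : M → Ext E) : Prop where
  hD : D.OK
  hB : B.OK I
  hG : G.OK B
  cl : IsClopen Ω
  one : One K 1 0 Ω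
  sc : SC Ω
  tam : Tam G.F B.o
  cs : Cs I 2 Ω w
  fl : ∀ x ∈ Ω, ∀ s, c2 G.F w x s = fL B G x s
  off : ∀ x, 0 < K.tm x → w x = 0
  span : ∀ f, Cl I 2 Ω f → ∃ t : ℝ, Ex I Ω (f - t • w)
  sq : integ I (vol G.F B.o) (w * w) = -(4 * π ^ 2)
  hz : HZ Y.I 1 (univ : Set Y.M)

/-- **LEAF LIMA**: a decaying one-form does not change the limit -/
def LimaStmt : Prop := ∀ (r : ℕ) (B : Base M (Option κ) lam) (G : Geo I M (Option κ) lam)
  (K : Nk D B G) (c : Cfg M (Option κ) lam r) (ξ : M → c.m.A) β ζ T d a, D.OK → B.OK I → G.OK B →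
  c.Adm B G → D.Adm β → Ioi T ⊆ K.J → RedOn G.F c.m c.W (K.tm ⁻¹' Ioi T) ξ → 0 < d → Fo I 1 a →
  Dc D.F T d (c1 D.Z (Dr59.pm (IC Y.I) I K.ψ a)) → K.Lim c β ζ atTop →
  K.Lim (ada G.F c ξ a) β ζ atTop

/-- **LEAF CLS** (from `Qab60.DecStmt`, `TailStmt`): the forms of level `1/4` -/
def ClsStmt : Prop := ∀ (B : Base M (Option κ) lam) (G : Geo I M (Option κ) lam) (K : Nk D B G)
  (Ω : Set M) (w f : M → Ext E), Ins K Ω w → Sl B G Ω f →
  (∃ (ε T d : ℝ) (a : M → Ext E), (ε = 1 ∨ ε = -1) ∧ 0 ≤ T ∧ 0 < d ∧ Fo I 1 a ∧ Off Ω a ∧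
    f = (ε / 2) • w + dM I a ∧ Dc D.F T d (c1 D.Z (Dr59.pm (IC Y.I) I K.ψ a))) ∧
  ∀ f', Sl B G Ω f' → f' = f ∨ f' = -f

/-- **LEAF UNI** (from CLS, TOE, XI, `Qab60.UqStmt`, `TrnStmt`): uniformly small terms; the row of
the cut has exactly one solution up to the phase -/
def UniStmt : Prop := ∀ (r : ℕ) (T Wi : Type) (Q : Set T) (B : Base M (Option κ) lam)
  (G : T → Geo I M (Option κ) lam) (Ω : Set M) (k : Cut M lam) (τ : Wi → Tc M lam r),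
  (∀ t ∈ Q, k.OK B (G t).F ∧ (∀ t' ∈ Q, Agr (G t) (G t') Ω) ∧
    ∃ (K : Nk D B (G t)) (w : M → Ext E), Ins K Ω w ∧ |flux I k w| = 4 * π) → k.supp ⊆ Ω →
  ∃ C : Wi → ℝ, (∀ w, 0 ≤ C w) ∧ ∀ t ∈ Q, ∀ (S : Finset Wi) (a : Wi → ℝ),
    (∀ w ∈ S, a w ≠ 0 → ∃ Ω', XiIn I Ω' (τ w).ξ) → ∑ w ∈ S, |a w| * C w < 1 →
    ∀ σ : Pc r B k, (∀ x, σ x = ∑ w ∈ S, a w • x.tc B (G t).F k (τ w)) →
    ∀ c ξ, Ab B (G t) Ω c ξ → Sl B (G t) Ω (fm (G t).F c.m c.W ξ) →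
      (∃ ψ, k.Sol B (G t).F σ c ψ) ∧ ∀ c' ξ' u, Ab B (G t) Ω c' ξ' → PI (G t).F c c' Ω u →
        ∀ ψ ψ', k.Sol B (G t).F σ c ψ → k.Sol B (G t).F σ c' ψ' → k.Eqv k B B u ψ ψ'

end cyl

/-! ### scenes -/

section scene
open M G75 Ins26
open Line51 (Ln rl)
variable {κ lam : Type} [Fintype κ] [Fintype lam] [DecidableEq lam] (Lm : LM κ lam)

/-- **LEAF LX**: the topology of the model -/
structure LX : Prop where
  sc : SC ((Lm.M.sys.w ()).sd false)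
  hz : HZ (Lm.M.bn ()).Y.I 1 (univ : Set (Lm.M.bn ()).Y.M)
  lat : ∃ (e : Unit → Lm.X.M → Ext Lm.X.E) (d : Unit → ℝ), Lat Lm.X.I Lm.M.o
    ((Lm.M.sys.w ()).sd false) ((Lm.M.sys.w ()).sd false) e (Matrix.diagonal d) ∧ ∀ σ,
    (ip Lm.X.I Lm.M.o (Ln.F Lm.X.I ⟨(Lm.N σ).p, 0⟩) (e ()) / (2 * π)) ^ 2 / d () = -1

/-- the hypotheses on the model -/
structure LH : Prop where
  cut : CutOK Lm
  deg : ∀ s, Csm97.Dat Lm.X.I (Lm.cut s) ∧ Cut54.Deg (fun θ r => (Lm.N s).p ((Lm.cut s).γ θ r)) 2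
  lok : ∃ K : LOK Lm 4, ∀ σ, K.k σ = cond σ (-2) 2 ∧ |K.k σ| = 2
  lx : LX Lm

variable {Lm} in
/-- the inside of the lens wall `l` in `Z c` -/
abbrev Om {S : Scene Lm} (D : S.Dat) (c : S.M.Cl) (l : S.ls) : Set (D.W.Z c).M :=
  D.W.φ c '' (S.M.sys.w l).sd false

/-- **LEAF GEO**: the inside of a broken lens wall -/
def GeoStmt : Prop := ∀ (S : Scene Lm) (D : S.Dat) (i : S.L) (l : S.ls) (m c : S.M.Cl) (p : Prm S.A)
  (Wi : Type) (Y : Xs Wi κ lam) (g : Y.Y.M ≃ₘ^∞⟮Y.Y.I, (S.M.bn l).Y.I⟯ (S.M.bn l).Y.M)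
  (K : Nk Y.D ((D.Λ i).B m c) ((D.Λ i).G m c p)), S.OK → c.1 = {l.1} → Act m c l.1 (some false) p →
  Y.C.OK → IsNk l.1 (some false) g K →
  (∃ w, Ins K (Om D c l) w ∧ |flux (D.W.Z c).I ((Tp.of (D.W.φ c).toPartialEquiv fun x =>
    rl ((D.Λ i).v m c x)).cut (S.ct i l)) w| = 4 * π) ∧
  (∀ x ∈ Om D c l, ∀ s, fL ((D.Λ (S.fl l i)).B m c) ((D.Λ (S.fl l i)).G m c p) x s =
    -fL ((D.Λ i).B m c) ((D.Λ i).G m c p) x s) ∧
  ∀ p', Act m c l.1 (some false) p' → Agr ((D.Λ i).G m c p) ((D.Λ i).G m c p') (Om D c l)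

/-- **LEAF ONAT**: outside the broken lens wall the two jobs carry the same problem -/
def OnatStmt : Prop := ∀ (S : Scene Lm) (j N : ℕ) (F : Fam S j N) (T : ℝ) (i : S.L) (l : S.ls)
  (σ : Cel (S.A ⊕ Unit)) (c : S.M.Cl), S.OK → F.OK T → σ ∈ F.𝒦 i → σ ∈ F.𝒦 (S.fl l i) →
  c.1 = {l.1} → (S.N (S.fl l i)).cy l = (S.N i).cy l ∧ kz S (S.fl l i) j F.n₀ = kz S i j F.n₀ ∧
  ∃ v, ∀ s ∈ Job.cl σ, (F.job i).Ov σ c s →
    KT ((F.job i).B c) ((F.job i).G c s) ((F.job (S.fl l i)).B c) ((F.job (S.fl l i)).G c s)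
      (Om F.D c l)ᶜ (Om F.D c l)ᶜ id id (fun x b a => ((F.job i).B c).P b a x) v ∧
    (∀ q, PRel0 ((F.job i).B c) ((F.job i).G c s) ((F.job (S.fl l i)).B c)
      ((F.job (S.fl l i)).G c s) (Om F.D c l)ᶜ (Om F.D c l)ᶜ id
      (fun x b a => ((F.job i).B c).P b a x) v ((F.job i).τ c q s) ((F.job (S.fl l i)).τ c q s)) ∧
    (∀ l' ∈ (F.job i).unc c, l' ≠ l →
      ((F.job i).cut c l').Rel ((F.job (S.fl l i)).cut c l') (Om F.D c l)ᶜ id v ∧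
      ∀ q, PcRel0 ((F.job i).B c) ((F.job i).G c s) ((F.job (S.fl l i)).B c)
        ((F.job (S.fl l i)).G c s) (Om F.D c l)ᶜ (Om F.D c l)ᶜ id
        (fun x b a => ((F.job i).B c).P b a x) v ((F.job i).σc c q s l')
        ((F.job (S.fl l i)).σc c q s l')) ∧
    ∀ ha : Act F.m c l.1 (some true) ((F.job i).Θ s),
      ∀ z ∈ ((F.job i).K c l.1 _ _ ha).ψ.target, v z = ((F.job i).B c).l z

/-- **LEAF TYPE** (export of KIT): the inside of a face solution is abelian of level `1/4` -/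
def TypeStmt : Prop := ∀ (S : Scene Lm) j N, S.OK → ∀ᶠ T in 𝓝[<] (1 : ℝ), ∀ F : Fam S j N,
  F.OK T → F.X = ∅ → ∀ i (l : S.ls) τ o, cel τ o ∈ F.𝒦 i → l.1 ∈ τ → F.n₀ + τ.card + sf o = 1 →
  GV fun q => ∀ y : (F.job i).Obc ((F.job i).cf (.inl l)), Job.Sol (cel τ o) q y → y.Tight →
    ∀ ρ, S.M.sys.Piece ((F.job i).cf (.inl l)).1 ρ → ρ l = some false →
      y.TA ρ ∧ y.kap (F.D.W.pc _ ρ) = 1 / 4

end scene

end Crest.Agent.X212.Lns95
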