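import Crest.Agent.X212.Lns95.Lf
import Crest.Agent.X212.Cay24.Qa
import Crest.Agent.X212.Eqv71.Cyl

/-!
# X212 / LENS (helper95), part Cj: change of the line of a module; transfer of limits
-/

set_option autoImplicit false
set_option linter.unusedSectionVars false
noncomputable section
open scoped Manifold ContDiff Topology Real InnerProductSpace
open Set Function Filter MeasureTheory
open Crest.Agent.R208.F (Ext)

namespace Crest.Agent.X212.Lns95
open An Nd18 Num57 Cyf70 Qab60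
open Abel74 (fm fF RedOn)
open Pj41 (FSm OKOn ConnOn Iso0 Par0)
open Tmp64 (AdmOn Eq0 admOn_univ)
open Eqv71 (cj LG Ad0 trn_of_sym trn_of_skw trn_comp trn_trn comp_proj)

section gauge
variable {E : Type} [NormedAddCommGroup E] [NormedSpace ℝ E] [FiniteDimensional ℝ E]
  [MeasurableSpace E] [BorelSpace E]
  {HM : Type} [TopologicalSpace HM] {I : ModelWithCorners ℝ E HM} [I.Boundaryless]
  {M : Type} [TopologicalSpace M] [ChartedSpace HM M] [IsManifold I ∞ M] [T2Space M]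
  [MeasurableSpace M] [BorelSpace M] [SecondCountableTopology M]
  {ι : Type} [Fintype ι] {lam : Type} [Fintype lam] {B B' : Base M ι lam} {G G' : Geo I M ι lam}
  {Ω O : Set M} {k v : M → En lam} {ε : ℝ} {m : Md M ι lam} {W : m.Cn} {x : M} {r : ℕ}

namespace Cj
variable (h : Cj ε B G B' G' Ω k)
include h

theorem mono (hO : O ⊆ Ω) : Cj ε B G B' G' O k :=
  ⟨h.P, h.o, h.F, fun x hx => h.sm x (hO hx), fun x hx => h.kk x (hO hx), fun x hx => h.kk' x (hO hx),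
    fun x hx => h.il x (hO hx), fun a x hx => h.par a x (hO hx)⟩

theorem kl (hB' : B'.OK I) (hx : x ∈ Ω) : k x * B'.l x = k x := comp_proj (h.kk x hx) (hB'.lidem x)

theorem lk (hB' : B'.OK I) (hx : x ∈ Ω) : B.l x * k x = k x := by
  rw [← h.kk' x hx, mul_assoc, h.kk x hx, h.kl hB' hx]

theorem nrm (hB' : B'.OK I) (hx : x ∈ Ω) (s : Eu lam) :
    ‖B.l x (k x s)‖ ^ 2 = ‖B'.l x s‖ ^ 2 := by
  rw [← mul_apply_eq_comp, h.lk hB' hx, ← real_inner_self_eq_norm_sq, ← real_inner_self_eq_norm_sq,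
    ← Eqv71.inner_trn', ← mul_apply_eq_comp, h.kk x hx, hB'.lsym, ← mul_apply_eq_comp, hB'.lidem]

variable (hε : ε = 1 ∨ ε = -1) (hB' : B'.OK I)
include hε hB'

theorem okOn (hm : OKOn I B m Ω) : OKOn I B' (twM ε m k) Ω := by
  have e : ε * ε = 1 := by rcases hε with rfl | rfl <;> norm_num
  have c : ∀ {T : En (Fin m.N)}, m.J * T = T * m.J → (ε • m.J) * T = T * (ε • m.J) := fun h => by
    rw [smul_mul_assoc, mul_smul_comm, h]
  refine ⟨?_, fun a b => ?_, hm.sp, hm.sρ, fun x hx => (hm.sj x hx).clm_comp (h.sm x hx), hm.psym,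
    hm.pidem, hm.prk, fun x hx => c (hm.Jp x hx), h.P ▸ hm.cl, hm.ρsk, fun a x hx => c (hm.Jρ a x hx),
    fun x hx s => hm.jsym x hx _, fun x hx s => ?_, fun x hx s => ?_, fun x hx s => ?_,
    fun x hx s => ?_, fun x hx s => hm.pj x hx _, fun a x hx s => hm.jρ a x hx _⟩
  · show (ε • m.J) * (ε • m.J) = -1
    rw [smul_mul_smul_comm, e, one_smul, hm.Jsq]
  · show ⟪(ε • m.J) a, b⟫_ℝ = -⟪a, (ε • m.J) b⟫_ℝ
    simp only [smul_apply, real_inner_smul_left, real_inner_smul_right, hm.Jsk a b]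
    ring
  · show m.j x (k x s) * (ε • m.J) = -((ε • m.J) * m.j x (k x s))
    rw [mul_smul_comm, smul_mul_assoc, hm.jJ x hx, smul_neg]
  · show m.j x (k x (B'.il s)) = (ε • m.J) * m.j x (k x s)
    rw [← mul_apply_eq_comp, h.il x hx, smul_apply, map_smul, mul_apply_eq_comp,
      hm.jil x hx, smul_mul_assoc]
  · show m.j x (k x (B'.l x s)) = m.j x (k x s)
    rw [← mul_apply_eq_comp, h.kl hB' hx]
  · show m.j x (k x s) * m.j x (k x s) = ‖B'.l x s‖ ^ 2 • m.p x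
    rw [hm.jsq x hx, h.nrm hB' hx]

omit hε hB' in
theorem connOn (hm : OKOn I B m Ω) (hW : ConnOn B G m W Ω) : ConnOn B' G' (twM ε m k) W Ω := by
  refine ⟨hW.sm, h.P ▸ hW.proj, h.F ▸ hW.par, h.F ▸ hW.comp, hW.sk, fun a x hx => ?_,
    fun a x hx s => ?_⟩
  · show (ε • m.J) * W a x = W a x * (ε • m.J)
    rw [smul_mul_assoc, mul_smul_comm, hW.J a x hx]
  · have e := Eqv71.dv_ccomp (e := G.F.e a) (hm.sj x hx) (h.sm x hx)
    have p := congrArg (fun T : En lam => m.j x (T s)) (h.par a x hx)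
    have q := hW.j a x hx (k x s)
    rw [h.F]
    show Sob92.dv I (G.F.e a) (fun y => m.j y ∘L k y) x s + (W a x * m.j x (k x s) -
      m.j x (k x s) * W a x) = m.j x (k x (G'.a a x s))
    rw [e]
    simp only [add_apply, sub_apply, map_add, map_sub,
      ContinuousLinearMap.comp_apply, mul_apply_eq_comp, zero_apply, map_zero] at p ⊢
    rw [← q] at p
    rw [← sub_eq_zero, ← p]
    simp only [Pre.D]
    abel

omit hε hB' in
theorem mem {ξ : m.A} (hξ : ξ ∈ m.gS x) : ξ ∈ (twM ε m k).gS x :=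
  ⟨hξ.1, hξ.2.1, by
    show (ε • m.J) * opL ξ = opL ξ * (ε • m.J)
    rw [smul_mul_assoc, mul_smul_comm, hξ.2.2.1], hξ.2.2.2.1, fun s => hξ.2.2.2.2 _⟩

omit hε hB' in
theorem redOn {ξ : M → m.A} (R : RedOn G.F m W O ξ) : RedOn G'.F (twM ε m k) W O ξ :=
  h.F ▸ ⟨R.sm, fun x hx => h.mem (R.mem x hx), R.sq, R.par⟩

omit hε hB' in
theorem fm_eq {ξ : M → m.A} (hξ : ξ x ∈ m.gS x) : fm G'.F (twM ε m k) W ξ x = fm G.F m W ξ x := by
  rw [h.F, fm, fm, fm2_apply, fm2_apply]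
  simp only [Abel74.fF_tr hξ, Abel74.fF_tr (h.mem hξ)]

theorem admOn {c : Cfg M ι lam r} (a : AdmOn c B G Ω) : AdmOn (twC ε c k) B' G' Ω :=
  ⟨h.okOn hε hB' a.ok, h.connOn a.ok a.conn, a.sm, fun x hx => by
    have : (twM ε c.m k).pp B' x = c.m.pp B x := by simp only [Md.pp, Md.om, h.o]
    exact (congrArg (fun T : En _ => T (c.Φ x)) this).trans (a.pos x hx), a.z⟩

end Cj

theorem cj_of_lg (g : LG B G B' G' O id (fun x b a => B.P b a x) v) (hP : B'.P = B.P)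
    (ho : B'.o = B.o) (hF : G'.F = G.F) : Cj 1 B G B' G' O fun x => trn (v x) := by
  refine ⟨hP, ho, hF, fun x hx => Eqv71.sa_trn (g.sv x hx), fun x hx => ?_,
    fun x hx => ?_, fun x hx => ?_, fun a x hx => ?_⟩
  · rw [trn_trn]; exact (g.be x hx).vv'
  · rw [trn_trn]; exact (g.be x hx).vv
  · rw [one_smul]; exact ((g.be x hx).symm g.hB g.hB').il
  · have e : Eqv71.pb id (fun b a x => B.P b a x) G'.a = G'.a := funext₂ fun a x => by
      rw [Eqv71.pb, ← g.hG'.con.proj a x, hP]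
      exact Finset.sum_congr rfl fun b _ => by rw [(g.hB.pr x).symm b a]; rfl
    have := (e ▸ g.par x hx).trn (g.sv x hx) (g.hG.sk · x) (g.hG'.sk · x) a
    rw [← add_sub_assoc, sub_eq_zero]
    exact this

/-- an isomorphism from the module with the changed line -/
theorem ceq_tw (g : LG B G B' G' O id (fun x b a => B.P b a x) v) (hP : B'.P = B.P)
    {c c' : Cfg M ι lam r} (a : Ad0 c B G) (a' : Ad0 c' B' G') {u : M → CL c.m.V c'.m.V}
    (e : Eq0 G.F (twC 1 c fun x => trn (v x)) c' O u) :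
    CEq G.F c c' O id (fun x b a => B.P b a x) v u 1 := by
  refine ⟨⟨fun x hx => (e.iso.su x hx).contMDiffWithinAt, fun x hx => (e.iso.iso x hx).src,
    fun x hx => (e.iso.iso x hx).tgt, fun x hx => ?_, fun x hx b => ?_, fun x hx s => ?_⟩,
    (Pj41.par0_iff (hP ▸ (Pj41.IsConn.on a'.conn O).proj' g.hB')).1 e.par, fun x hx => ?_, ?_⟩
  · have := e.iso.J x hx
    simp only [one_smul] at this
    exact this.symm
  · rw [show ∑ a, B.P b a x • c.m.ρ a x = c.m.ρ b x from (a.ok.cl x).proj b]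
    exact e.iso.ρ x hx b
  · refine (e.iso.j x hx (v x s)).trans ?_
    show u x ∘L c.m.j x ((trn (v x) ∘L v x) s) = _
    rw [(g.be x hx).vv, a.ok.jl]
  · exact (e.Φ x hx).trans (by simp [cs])
  · rw [e.z]; simp

variable {Ω : Set M} {c : Cfg M ι lam r} {ξ : M → c.m.A}

theorem ab_neg (h : Ab B G Ω c ξ) : Ab B G Ω c fun x => -ξ x :=
  ⟨h.adm, ⟨Hol14.redOn_neg h.rd.toRedOn, h.rd.op, fun x hx => by rw [h.rd.off x hx, neg_zero]⟩, h.z⟩

theorem sl_neg {f : M → Ext E} (h : Sl B G Ω f) : Sl B G Ω (-f) :=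
  ⟨by simpa using h.cz.smul (-1), fun x hx => by rw [c2_neg, Pi.neg_apply, map_neg, h.asd x hx, neg_zero],
    by rw [Sq, c2_neg]; exact h.sq.neg, by rw [neg_mul_neg]; exact h.lev⟩

/-- the density of the level at an abelian point -/
theorem kd_ab (hB : B.OK I) (hG : G.OK B) (h : Ab B G Ω c ξ) (hx : x ∈ Ω) :
    c.m.kd B G.F c.W x = -(8 * π ^ 2)⁻¹ * ⟪Qab60.c2 G.F (fm G.F c.m c.W ξ) x,
      Qab60.st B.o x (Qab60.c2 G.F (fm G.F c.m c.W ξ) x)⟫_ℝ := by
  have n : ⟪ξ x, ξ x⟫_ℝ = 16 := by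
    rw [real_inner_self_eq_norm_sq, Abel74.norm_sq h.adm.ok (h.rd.mem x hx) (h.rd.sq x hx)]
  rw [Md.kd, PiLp.inner_apply, PiLp.inner_apply, Finset.mul_sum, Finset.mul_sum]
  refine Finset.sum_congr rfl fun s _ => ?_
  rw [Eqv71.idx_apply, Qab60.st, Eqv71.idx_apply, inner_sum, inner_sum, Finset.mul_sum, Finset.mul_sum]
  refine Finset.sum_congr rfl fun t _ => ?_
  simp only [h.rd.Fg_eq hB hG h.adm.ok h.adm.conn hx, Qab60.c2, Abel74.k2_fm hG h.adm.conn,
    ContinuousLinearMap.id_apply, real_inner_smul_left, real_inner_smul_right, n, Base.st]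
  simp only [RCLike.inner_apply, conj_trivial]
  ring

end gauge

section lim
variable {E3 : Type} [NormedAddCommGroup E3] [NormedSpace ℝ E3] [FiniteDimensional ℝ E3]
  [MeasurableSpace E3] [BorelSpace E3]
  {H3 : Type} [TopologicalSpace H3] {I3 : ModelWithCorners ℝ E3 H3} [I3.Boundaryless]
  {Y : Type} [TopologicalSpace Y] [ChartedSpace H3 Y] [IsManifold I3 ∞ Y] [T2Space Y]
  [MeasurableSpace Y] [BorelSpace Y] [SecondCountableTopology Y] [CompactSpace Y]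
  {κ : Type} [Fintype κ] {lam : Type} [Fintype lam] {D : YD I3 Y κ lam} {r : ℕ}
  {E : Type} [NormedAddCommGroup E] [NormedSpace ℝ E] [FiniteDimensional ℝ E]
  [MeasurableSpace E] [BorelSpace E]
  {HM : Type} [TopologicalSpace HM] {I : ModelWithCorners ℝ E HM} [I.Boundaryless]
  {M : Type} [TopologicalSpace M] [ChartedSpace HM M] [IsManifold I ∞ M]
  [MeasurableSpace M] [BorelSpace M] [T2Space M] [SecondCountableTopology M]
  {B B' : Base M (Option κ) lam} {G G' : Geo I M (Option κ) lam}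

/-- two necks with the same coordinates -/
structure Same {D' : YD I3 Y κ lam} (K : Nk D B G) (K' : Nk D' B' G') : Prop where
  D : D' = D
  p : K'.p = K.p
  q : K'.q = K.q
  ψ : K'.ψ = K.ψ
  tm : K'.tm = K.tm

variable {D' : YD I3 Y κ lam} {K : Nk D B G} {K' : Nk D' B' G'}

theorem Same.line (s : Same K K') : B'.il = B.il ∧ ∀ x ∈ K.ψ.target,
    B'.l x = B.l x ∧ ∀ a, G'.a a x = G.a a x := by
  obtain rfl := s.D
  refine ⟨K'.il.trans K.il.symm, fun x hx => ?_⟩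
  have h := K.ψ.map_target hx
  have h' : K.ψ.symm x ∈ K'.ψ.source := s.ψ ▸ h
  rw [← K.ψ.right_inv hx]
  exact ⟨by rw [K.l _ h, ← K'.l _ h', s.ψ], fun a => by rw [K.a a _ h, ← K'.a a _ h', s.ψ]⟩

/-- **transfer of limits** along an isomorphism over the end `T` -/
theorem Same.lim (s : Same K K') {c c₀ : Cfg M (Option κ) lam r} {β : YC Y κ lam} (hβ : D.Adm β)
    (h : Ad0 c B G) (h₀ : Ad0 c₀ B' G') {l : Filter ℝ} {T : Set ℝ} (hT : IsOpen T) (hl : T ∈ l)
    {g : M → CL c₀.m.V c.m.V} (hi : Iso0 I c₀.m c.m (K.tm ⁻¹' T) g)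
    (hp : Par0 G.F c₀.W c.W (K.tm ⁻¹' T) g) (hΦ : ∀ x ∈ K.tm ⁻¹' T, c.Φ x = g x (c₀.Φ x))
    {ζ : Circle} (H : K.Lim c β ζ l) : K'.Lim c₀ β ζ l := by
  obtain rfl := s.D
  obtain ⟨u, H⟩ := H
  have a₀ := fun S => Eqv71.admOn_pb (S := S) K' h₀
  obtain ⟨p, q, ψ, tm, _⟩ := K'
  obtain ⟨-, rfl, rfl, rfl, rfl⟩ := s
  refine ⟨fun x => u x ∘L g (K.ψ x), fun k η hη => ?_⟩
  obtain ⟨S, a, b, d⟩ := H k η hη
  have o := d.op.inter hT
  have b' : S ∩ T ⊆ K.J := inter_subset_left.trans b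
  refine ⟨S ∩ T, inter_mem a hl, b', ?_⟩
  have z : univ ×ˢ (S ∩ T) ⊆ K.ψ.source := fun _ hz => K.mem_src.2 (b' hz.2)
  have m : MapsTo K.ψ (univ ×ˢ (S ∩ T)) (K.tm ⁻¹' T) := fun x hx => by
    rw [mem_preimage, K.tm_ψ x (z hx)]; exact hx.2.2
  have f := K.rel.mono (isOpen_univ.prod o) z
  have k1 := (Bki64.cl_of_cls (c := K.pb (noz c)) hβ (Eqv71.admOn_pb K h b) ⟨d.op, d.m, d.A, d.P⟩).mono
    (isOpen_univ.prod o) (prod_mono_right inter_subset_left) le_rfl le_rfl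
  have k2 := (Eqv71.cl_pre (c₀ := K.pb (noz c₀)) (ξ := 1) k1 hβ.adm.ok.Jsq (Pj41.cm_iso0
    (fun x hx => (f.ld x hx).contMDiffAt) m hi) (f.par0 m hp)
    fun x hx => (hΦ _ (m hx)).trans (by simp [cs]; rfl)).cls hβ o (a₀ _ b')
  rw [mul_one] at k2
  exact ⟨k2.op, k2.m, k2.A, k2.P⟩

end lim

end Crest.Agent.X212.Lns95
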