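import Crest.Agent.X212.Lns95.Asm
import Crest.Agent.X212.Sm25.Uni
import Crest.Agent.X212.Sep15.Cls
import Crest.Agent.X212.Cqn41.Cj
import Crest.Agent.X212.Cob34.Toe
import Crest.Agent.X212.Cob34.Xi
import Crest.Agent.X212.Dgr80.Lima
import Crest.Agent.X212.Ins26.On
import Crest.Agent.X212.Ins26.Geo

/-!
# X212 / LENS (helper95), part Fin: the leaves plugged
-/

set_option autoImplicit false

namespace Crest.Agent.X212.Lns95
open G75

variable {κ lam : Type} [Fintype κ] [Fintype lam] [DecidableEq lam] {Lm : LM κ lam}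

theorem lv0 (h : LH Lm) : Lv0 Lm where
  cjx _ := Cqn41.cjx _ _ _ _
  cju _ := Cqn41.cju _ _ _ _
  lima _ _ _ _ := Dgr80.lima _ _ _
  cls _ _ _ _ := Sep15.Cls.cls
  uni _ _ _ _ := Sm25.uniStmt _ _ _ Sep15.Cls.cls (Cob34.toe _ _ _ _) (Cob34.xi _ _ _ _)
    (Uq54.uq _ _ _ _) Cay24.trnStmt
  geo := Ins26.On.geo h
  lok := h.lok.imp fun _ k σ => (k σ).2.trans_le (by norm_num)

/-- **LENS-CANCEL** from the type of the face solutions -/
theorem lens (h : LH Lm) (t : TypeStmt Lm) : Ins26.LensStmt Lm := lens_of ⟨lv0 h, Ins26.On.onat, t⟩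

end Crest.Agent.X212.Lns95
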