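import Crest.Agent.X212.Lns95.As0
import Crest.Agent.X212.Wrd81.Trf

/-!
# X212 / LENS (helper95), part Asm: `Ins26.LensStmt` from its leaves
-/

set_option autoImplicit false
set_option linter.unusedSectionVars false
noncomputable section
open scoped Manifold ContDiff Topology Real
open Set Function Filter MeasureTheory

namespace Crest.Agent.X212.Lns95
open An Nd18 M G75 Ins26
open Eqv71 (ad0 KG)

variable {κ lam : Type} [Fintype κ] [Fintype lam] [DecidableEq lam] {Lm : LM κ lam}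

theorem eqv_congr {M ι lam : Type} [Fintype ι] [Fintype lam] {B : Base M ι lam} {k : Cut M lam}
    {m m' : Md M ι lam} {u u' : M → CL m.V m'.V} {a : k.H B m} {a' : k.H B m'} (e : u' k.x0 = u k.x0)
    (h : k.Eqv k B B u a a') : k.Eqv k B B u' a a' := h.imp fun _ h => e ▸ h

section nk
variable {Wi : Type} {X : Mf 4} {A : Type} [Fintype A] {M : Mark X A κ} {W : World M} {N N' : ML M lam}
  {m c : M.Cl} {a : A} {b : Option Bool} {p : Prm A} (h : Act m c a b p)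

theorem nk_eq (Λ : Lns W N) (T : Ink3.XG1 Wi N a) : let K := Ink3.nk Λ T.ok.1 T.iso h
    (K.p, K.q, K.ψ, K.tm) = (Cht98.np (Mark.tv c.1 p.2 a) (b.getD false),
      Cht98.nq (Mark.tv c.1 p.2 a) (b.getD false), (Ink3.act_ok h).ψ T.g W.toCaps (b.getD false),
      fun z => Cht98.tmf (Mark.tv c.1 p.2 a) (b.getD false) (Cht98.hZ W.toCaps c a z)) := rfl

/-- the necks of default cross-sections -/
theorem sm_xg (Λ : Lns W N) (Λ' : Lns W N') {T : Ink3.XG Wi N} {T' : Ink3.XG Wi N'}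
    (e : T.at a = (Ink3.xg0 Wi N).at a) (e' : T'.at a = (Ink3.xg0 Wi N').at a) :
    Sm (T.K Λ m c a b p h) (T'.K Λ' m c a b p h) := by
  have k : ∀ (U : Ink3.XG1 Wi N a) (U' : Ink3.XG1 Wi N' a), U = (Ink3.xg0 Wi N).at a →
      U' = (Ink3.xg0 Wi N').at a → Sm (Ink3.nk Λ U.ok.1 U.iso h) (Ink3.nk Λ' U'.ok.1 U'.iso h) := by
    rintro _ _ rfl rfl
    have := (nk_eq h Λ' ((Ink3.xg0 Wi N').at a)).trans (nk_eq h Λ ((Ink3.xg0 Wi N).at a)).symm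
    simp only [Prod.mk.injEq] at this
    exact ⟨this.1, this.2.1, heq_of_eq this.2.2.1, this.2.2.2⟩
  exact k _ _ e e'

end nk

section pair
variable {S : Scene Lm} {D : S.Dat} {i i' : S.L} {Wi : Type} {r n : ℕ}
  {J : Job Wi (D.Λ i) (S.A ⊕ Unit) S.ls r n} {J' : Job Wi (D.Λ i') (S.A ⊕ Unit) S.ls r n} {l : S.ls}
  {σ : Cel (S.A ⊕ Unit)} {c : S.M.Cl} {q : Wi →₀ ℝ} (H : Lv0 Lm) (g : Sg J l σ c)
include H g

/-- **a tight solution of the twin with the same outside** -/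
theorem ex (g' : Sg J' l σ c) (tw : Tw J J' l σ c) (ty : Ty J l σ c q) (un : Un J' l σ c q) :
    ∃ v, ∀ y : J.TS σ q c, (KG (J.B c) (J.G c y.1.s) (J'.B c) (J'.G c y.1.s) (Om D c l)ᶜ (Om D c l)ᶜ id id
      (fun x b a => (J.B c).P b a x) v ∧ ∀ l', l' ∈ J.unc c ∧ l' ≠ l →
        (J.cut c l').x0 ∈ (Om D c l)ᶜ ∧ (J'.cut c l').x0 = (J.cut c l').x0) ∧
      ∃ y' : J'.TS σ q c, y'.1.s = y.1.s ∧ Out (J.G c y.1.s).F (Om D c l)ᶜ (fun x b a => (J.B c).P b a x) v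
        (fun l' => l' ∈ J.unc c ∧ l' ≠ l) ⟨y.1.x, y.1.ψ⟩ ⟨y'.1.x, y'.1.ψ⟩ := by
  obtain ⟨v, hv⟩ := tw.nat
  refine ⟨v, fun ⟨y, h, t⟩ => ?_⟩
  obtain rfl := tw.fl
  obtain ⟨m', 𝒦', hd', Θ', k', tw', co', ct', nb', tc', cc', xs', g'', ν', K'⟩ := J'
  obtain rfl : m' = _ := tw.m
  obtain rfl : hd' = _ := tw.hd
  obtain rfl : Θ' = _ := tw.Θ
  obtain rfl : k' = _ := tw.k
  obtain rfl : nb' = _ := tw.nb
  have o := h.ov
  obtain ⟨k, p, R, hl⟩ := hv y.s h.cell o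
  obtain ⟨⟨w, I, -⟩, fl, -⟩ := g.geo H o
  obtain ⟨ξ, A, Sl⟩ := g.ab_in H ty h t
  obtain ⟨ρ, h1, h2, h3⟩ := g.pin
  obtain ⟨ρ', k1, k2⟩ := g.side true
  have hO := (g.ok.end_sub (g.act o true) (P := {ρ'}) (fun _ e => e ▸ k1) ⟨_, rfl, k2⟩).trans
    (show _ ⊆ (Om D c l)ᶜ by
      rw [Caps.un, biUnion_singleton, ← h3]
      exact (Cyl58.disjoint_pc _ k1 h1 fun e => by simp [e, h2] at k2).subset_compl_right)
  have cw : l.1 ∈ cylW c := ⟨g.c1.ge rfl, g.sc.lsp l l.2⟩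
  obtain ⟨x, η, u, β, h₁, A', S', R₀, kd, L₀, L₁, cr, bk⟩ := swap_xs tw.xs (H.cjx _) (H.cju _) (H.lima _ _ _)
    (H.cls _ _ _) (tw.nk false _ _ (g'.act o false)) (tw.nk true _ _ (g'.act o true)) rfl rfl rfl I fl k (p q)
    (fun x z hz => g'.qt h.cell o h1 h2 q x z (h3 ▸ hz)) hO (hl _) h.sol A Sl (h.crit _ cw) (h.brk _ cw)
    (h.lim _ false _) (h.lim _ true _)
  let J' : Job Wi (D.Λ (S.fl l i)) (S.A ⊕ Unit) S.ls r n :=
    ⟨J.m, 𝒦', J.hd, J.Θ, J.k, tw', co', ct', J.nb, tc', cc', xs', g'', ν', K'⟩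
  have kψ : ∀ l', ∃ ψ, l' ∈ J.unc c → (J'.cut c l').Sol (J'.B c) (J'.G c y.s).F (J'.σc c q y.s l') x ψ ∧
      (l' ≠ l → (J.cut c l').Eqv (J'.cut c l') _ _ u (y.ψ l') ψ) := fun l' => by
    by_cases e : l' = l
    · subst e
      exact (un y.s h.cell o x η A' S').1.imp fun ψ hψ _ => ⟨hψ, fun k => (k rfl).elim⟩
    · refine ⟨Cnt93.Rh _ _ _ _ u 1 (y.ψ l'), fun hu => ?_⟩
      have k' := R l' hu e
      have E := (Cnt93.eqv_iff (k.toLG.of_ceq R₀.adm R₀.adm' R₀.e) k'.1).2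
        ⟨1, rfl (a := Cnt93.Rh _ _ _ _ u 1 (y.ψ l'))⟩
      exact ⟨(Eqv71.PcRel0.sol (k'.2 q) k.toLG (g.ok.ct σ g.mem _ o.1 c o.2 l' hu)
        (g'.ok.ct σ g'.mem _ o.1 c o.2 l' hu) k'.1 R₀ E).2 (h.cut l' (h.H_eq t.1 ▸ hu)), fun _ => E⟩
  choose ψ hψ using kψ
  let β' : ∀ a, Bool → YC (xs' a).Y.M κ (lam ⊕ lam) :=
    update (fun _ _ => ⟨⟨0, 0, 0, 0, 0⟩, 0, 0, 0⟩) l.1 β
  have eβ : β' l.1 = β := update_self ..
  refine ⟨⟨k.toKG, fun l' e => ⟨(R l' e.1 e.2).1.sub ⟨(0, 0), rfl⟩, (R l' e.1 e.2).1.γ 0 0⟩⟩,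
    ⟨⟨y.s, x, y.H, ψ, β', y.ζ, y.k, y.j, y.l⟩, ⟨h.cell, h.inf, h₁, h.sub, fun l' e => (hψ l' (h.sub e)).1,
      h.drop, fun a b ha => ?_, fun a ha b => ?_, fun a ha => ?_, ?_, ?_⟩, t⟩, rfl, u, 1, R₀.e,
    fun l' e => (hψ l' e.1).2 e.2⟩
  · obtain rfl : a = l.1 := g.c1.le ha.2.2.2
    rw [← eβ] at L₀ L₁
    cases b
    exacts [L₀, L₁]
  · obtain rfl : a = l.1 := g.c1.le ha.1
    rw [← eβ] at cr
    exact cr b
  · obtain rfl : a = l.1 := g.c1.le ha.1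
    rw [← eβ] at bk
    exact bk
  · exact (congrArg (Integrable · _) kd).mpr h.int
  · exact (congrArg (fun f => ∫ z, f z ∂_ + _ + _) kd).trans h.lev

open Classical in
/-- isomorphic outside, isomorphic -/
theorem iso_of (ty : Ty J l σ c q) (un : Un J l σ c q) {y z : J.TS σ q c} (e : y.1.s = z.1.s)
    (hk : ∀ l', l' ∈ J.unc c ∧ l' ≠ l → (J.cut c l').x0 ∈ (Om D c l)ᶜ)
    (k : Out (J.G c y.1.s).F (Om D c l)ᶜ (fun x b a => (J.B c).P b a x) (J.B c).l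
      (fun l' => l' ∈ J.unc c ∧ l' ≠ l) ⟨y.1.x, y.1.ψ⟩ ⟨z.1.x, z.1.ψ⟩) : Job.Iso y.1 z.1 := by
  obtain ⟨y, h, t⟩ := y
  obtain ⟨⟨_, x, Hz, ψ, β, ζ, k', j', l'⟩, h', t'⟩ := z
  obtain rfl : y.s = _ := e
  obtain ⟨u', ζ', e', f⟩ := k
  obtain ⟨⟨w, I, -⟩, -⟩ := g.geo H h.ov
  obtain ⟨ξ, A, Sl⟩ := g.ab_in H ty h t
  obtain ⟨ξ', A', Sl'⟩ := g.ab_in H ty h' t'
  obtain ⟨u, p⟩ := uniq_in (H.cls _ _ _) I A A' Sl Sl'
  refine ⟨rfl, _, _, ceq_glue I.hB I.cl (ad0 A.adm) (ad0 A'.adm) A.z A'.z p e', fun ⟨a, ha⟩ => ?_⟩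
  by_cases hl : a = l
  · subst hl
    exact eqv_congr (piecewise_eq_of_mem _ _ _ (g.cut_in.2 ⟨(0, 0), rfl⟩)) ((un y.s h.cell h.ov _ ξ A Sl).2 _
      ξ' u A' p _ _ (h.cut _ (h.H_eq t.1 ▸ ha)) (h'.cut _ (h'.H_eq t'.1 ▸ ha)))
  · exact eqv_congr (piecewise_eq_of_notMem _ _ _ (hk a ⟨ha, hl⟩)) (f a ⟨ha, hl⟩)

theorem emb (g' : Sg J' l σ c) (tw : Tw J J' l σ c) (ty : Ty J l σ c q) (un : Un J l σ c q)
    (un' : Un J' l σ c q) : Nonempty ((Quot fun y y' : J.TS σ q c => Job.Iso y.1 y'.1) ↪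
      Quot fun y y' : J'.TS σ q c => Job.Iso y.1 y'.1) := by
  obtain ⟨v, hv⟩ := ex H g g' tw ty un'
  choose k f e₁ e₂ using hv
  refine ⟨⟨fun a => Quot.mk _ (f a.out), fun a b e => ?_⟩⟩
  rw [← a.out_eq, ← b.out_eq]
  beta_reduce at e
  generalize a.out = y, b.out = z at e
  obtain ⟨e, u, ζ, h, h'⟩ := ((Job.equiv_TS g'.ok g'.mem).quot_mk_eq_iff _ _).1 e
  have s : y.1.s = z.1.s := (e₁ y).symm.trans (e.trans (e₁ z))
  refine Quot.sound (iso_of H g ty un s (fun a h => ((k y).2 a h).1) ?_)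
  exact Out.of (k y).1 (k y).2 (ad0 y.2.1.sol.toAdm) (e₁ y ▸ ad0 (f y).2.1.sol.toAdm)
    (s ▸ ad0 z.2.1.sol.toAdm) (s ▸ e₁ z ▸ ad0 (f z).2.1.sol.toAdm) (e₂ y) (s ▸ e₂ z)
    ⟨u, ζ, Wrd81.ceq_mono (e₁ y ▸ h) (subset_univ _), fun a ha =>
      h' ⟨a, by rw [Job.unc, tw.nb]; exact ha.1⟩⟩

/-- **twins have the same face count** -/
theorem pair (g' : Sg J' l σ c) (tw : Tw J J' l σ c) (tw' : Tw J' J l σ c) (ty : GV (Ty J l σ c))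
    (ty' : GV (Ty J' l σ c)) : GV fun q => J.zc q σ c = J'.zc q σ c :=
  ((ty.and ty').and ((g.gv_un H).and (g'.gv_un H))).mono fun _ ⟨⟨t, t'⟩, u, u'⟩ =>
    let ⟨e⟩ := emb H g g' tw t u u'
    let ⟨e'⟩ := emb H g' g tw' t' u' u
    let ⟨k⟩ := e.antisymm e'
    Nat.card_congr k

end pair

/-- the faces of one family -/
theorem lensAt (H : Lv0 Lm) (ho : OnatStmt Lm) {S : Scene Lm} {j N : ℕ} {F : Fam S j N} {T : ℝ} (ok : S.OK)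
    (hF : F.OK T) (ht : ∀ i (l : S.ls) τ o, cel τ o ∈ F.𝒦 i → l.1 ∈ τ → F.n₀ + τ.card + sf o = 1 →
      GV (Ty (F.job i) l (cel τ o) ((F.job i).cf (.inl l)))) : F.LensAt := fun i l τ o hσ hσ' hl hn => by
  have hd : ∀ i, (F.job i).hd (.inl l) = some l.1 := fun _ => if_pos (.inr (.inl l.2))
  have hc : ((F.job i).cf (.inl l.1)).1 = {l.1} := Set.ext fun a =>
    ⟨fun h => (Option.some.inj ((hd i).symm.trans h)).symm, fun h => (hd i).trans (congrArg _ h.symm)⟩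
  have g : ∀ {i}, cel τ o ∈ F.𝒦 i → Sg (F.job i) l (cel τ o) _ := fun h => ⟨ok, hF.ok _ ⟨_, h⟩, h, hc, hd _,
    rfl, rfl, ⟨inferInstanceAs (IsEmpty Empty), inferInstanceAs (IsEmpty Empty), fun _ => rfl⟩,
    fun s h1 h2 w => (hF.van _ _ h s h1 l h2 w).1⟩
  have t : ∀ {a a'}, a' = S.fl l a → cel τ o ∈ F.𝒦 a → cel τ o ∈ F.𝒦 a' →
      Tw (F.job a) (F.job a') l (cel τ o) ((F.job i).cf (.inl l.1)) := by
    rintro a _ rfl h h'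
    obtain ⟨e₁, e₂, k⟩ := ho S j N F T a l _ _ ok hF h h' hc
    exact ⟨rfl, rfl, rfl, rfl, e₂, rfl, congrArg (fun C => Xs.mk _ C _ _) e₁,
      fun _ _ ha _ => sm_xg (Wi := Empty) ha _ _ rfl rfl, k⟩
  exact (pair H (g hσ) (g hσ') (t rfl hσ hσ') (t (ok.inv l l.2 i).symm hσ' hσ)
    (ht i l τ o hσ hl hn) (ht _ l τ o hσ' hl hn)).mono fun _ => congrArg _

/-- **the faces at lens walls cancel** -/
theorem lens_of (H : Lvs Lm) : LensStmt Lm := fun S j N ok => (H.type S j N ok).mono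
  fun _ ht F hF hX => lensAt H.toLv0 H.onat ok hF (ht F hF hX)

end Crest.Agent.X212.Lns95
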