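import Crest.Agent.X212.Lns95.Wld
import Crest.Agent.X212.Eqv71.Nk1
import Crest.Agent.X212.An.Str
import Crest.Agent.X212.Cht98.Wld

/-!
# X212 / LENS (helper95), part Van: bounded spinors, quiet pieces, the vanishing (V)
-/

open scoped Manifold ContDiff Topology
open Set Function Filter

set_option autoImplicit false
set_option linter.unusedSectionVars false

noncomputable section
namespace Crest.Agent.X212.An
open M Nd18 Wrd81 Lns95

variable {Wi : Type} {X : Mf 4} {A κ lam : Type} [Fintype A] [Fintype κ] [Fintype lam]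
  [DecidableEq lam] {M : Mark X A κ} {W : World M} {N : ML M lam} {Λ : Lns W N}

/-- a neck lies in the band -/
theorem IsNk.exists_nj {m c : M.Cl} {p : Prm A} {a : A} {b : Option Bool} {S : Xs Wi κ lam}
    {g : S.Y.M → (M.bn a).Y.M} {K : Nk S.D (Λ.B m c) (Λ.G m c p)} (h : IsNk a b g K)
    (ha : Act m c a b p) {z} (hz : z ∈ K.ψ.target) :
    ∃ q, (M.bn a).j q ∉ M.sys.cores c.1 ∧ z = W.nj c a q := by
  have h1 : p.2 a ≤ 1 := (ha.2.1.1.1 a).2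
  have e : K.J = Jv (Cht98.np (p.2 a) (b.getD false)) (Cht98.nq (p.2 a) (b.getD false)) := by
    rw [Nk.J, h.lo, h.hi]
    rcases b with _ | b
    · simp [Cht98.np, Cht98.nq, ha.2.2.1 a ha.2.2.2.2.1]
    · have e : p.2 a = 1 := ha.2.1.2 ha.2.2.2
      cases b <;> simp [Cht98.np, Cht98.nq, e]
  obtain ⟨s, ⟨h2, h3⟩, h4⟩ := (Cht98.bijOn_len h1 _).surjOn (e ▸ K.mem_src.1 (K.ψ.map_target hz))
  have k : b = none ∨ ∃ b', b = some b' ∧ (if b' then 0 < s else s < 0) := by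
    rcases b with _ | b
    exacts [.inl rfl, .inr ⟨b, rfl, h3.resolve_left (show p.2 a = 1 from ha.2.1.2 ha.2.2.2).ge.not_gt⟩]
  refine ⟨(g (K.ψ.symm z).1, s), ?_, (K.ψ.right_inv hz).symm.trans (.trans ?_ (h.ψ _ s ?_ ?_))⟩
  · rcases k with rfl | ⟨b, rfl, k⟩
    · exact Cyl58.j_not_mem_cores ha.2.2.2.2.1 _
    · refine mt (Cyl58.j_mem_cores ha.2.2.2).1 fun e : s = 0 => ?_
      subst e
      cases b <;> simp at k
  · rw [h4]
  · rcases k with rfl | ⟨_ | _, rfl, k⟩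
    exacts [h2.1, h2.1, k]
  · rcases k with rfl | ⟨_ | _, rfl, k⟩
    exacts [h2.2, k, h2.2]

theorem tendsto_len (b : Bool) :
    Tendsto (fun s => len 1 b (X212.M.pm b * s)) (𝓝[>] 0) (bif b then atBot else atTop) := by
  cases b
  · refine (tendsto_neg_atBot_atTop.comp tendsto_len_one_true).congr fun s => ?_
    simpa [X212.M.pm] using (len_neg 1 true s).symm
  · simpa [X212.M.pm] using tendsto_len_one_true

/-- no neck terms -/
def Xs.Triv (S : Xs Wi κ lam) : Prop := IsEmpty S.N.J0 ∧ IsEmpty S.N.J2 ∧ ∀ w, S.ty w = 0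

namespace Job
variable {A' h : Type} [Fintype A'] [DecidableEq A'] [Fintype h] {r n : ℕ}
  {J : Job Wi Λ A' h r n} {c : M.Cl} {σ : Cel A'} {q : Wi →₀ ℝ} {s : A' → ℝ} {π : Reg A}

/-- **the spinor of a solution is bounded** -/
theorem Sol.bdd (hJ : J.OK) (hσ : σ ∈ J.𝒦) {y : J.Obc c} (h : Sol σ q y) :
    ∃ C, ∀ x, ‖y.x.Φ x‖ ≤ C := by
  have k : ∀ a b, ∃ C, ∀ᶠ ε in 𝓝[>] (0 : ℝ), a ∈ cylW c → ∀ v, ‖y.x.Φ (W.nj c a (v, X212.M.pm b * ε))‖ ≤ C := by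
    intro a b
    by_cases ha : a ∈ cylW c
    swap; · exact ⟨0, .of_forall fun _ k => (ha k).elim⟩
    have hb := (h.crit a ha b).sol.toAdm
    obtain ⟨u, hu⟩ := h.lim a b (h.act hJ hσ ha b)
    obtain ⟨S, h1, -, h2⟩ := hu 0 1 one_pos
    obtain ⟨C, hC⟩ := isCompact_univ.exists_bound_of_continuousOn
      (hb.sm.continuous.comp (Continuous.prodMk_left (0 : ℝ))).continuousOn
    refine ⟨1 + C, (((tendsto_len b).eventually_mem h1).and (Ioo_mem_nhdsGT one_pos)).mono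
      fun ε ⟨h3, h4⟩ _ v => ?_⟩
    have e := (hJ.nk _ _ _ _ (h.act hJ hσ ha b)).ψ ((J.g a).symm v) (X212.M.pm b * ε)
      (by cases b <;> simp [X212.M.pm, h4.1, h4.2]) (by cases b <;> simp [X212.M.pm, h4.1, h4.2])
    rw [Diffeomorph.apply_symm_apply, show (J.Θ y.s).2 a = 1 from h.inf.ge ha.1] at e
    have m : ((J.g a).symm v, len 1 b (X212.M.pm b * ε)) ∈ univ ×ˢ S := ⟨trivial, h3⟩
    have e1 := h2.P [] le_rfl _ m
    have e2 : ‖u _ _‖ = _ := Eqv71.ME.norm ⟨h2.m.uu _ m, h2.m.uu' _ m, h2.m.J _ m, h2.m.ρ _ m, h2.m.j _ m⟩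
      (Eqv71.p_Φ (Eqv71.ad0 h.sol.toAdm) _)
    have e3 := Mp86.norm_cs hb.ok.Jsq hb.ok.Jsk (y.ζ a b) (u ((J.g a).symm v, len 1 b (X212.M.pm b * ε))
      (y.x.Φ ((J.K c a _ _ (h.act hJ hσ ha b)).ψ ((J.g a).symm v, len 1 b (X212.M.pm b * ε)))))
    rw [Circle.norm_coe, one_mul] at e3
    erw [← e, ← e2, ← e3]
    exact (norm_le_norm_sub_add _ _).trans (add_le_add e1 (hC _ trivial))
  choose C hC using k
  obtain ⟨ε, hε, k⟩ := (nhdsGT_basis (0 : ℝ)).eventually_iff.1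
    (eventually_all.2 fun a => eventually_all.2 (hC a))
  obtain ⟨C', hC'⟩ := (Cyl58.isCompact_thick W.toCaps (c := c) hε).exists_bound_of_continuousOn
    h.sol.sm.continuous.continuousOn
  obtain ⟨C'', h''⟩ := Finite.exists_le fun p : A × Bool => C p.1 p.2
  refine ⟨max C' C'', fun x => ?_⟩
  by_cases hx : x ∈ Cyl58.thin W.toCaps c ε
  · obtain ⟨_, hz, rfl⟩ := hx
    obtain ⟨a, ha, ⟨v, s⟩, ⟨-, h1, h2⟩, rfl⟩ := mem_iUnion₂.1 hz
    have := k (x := |s|) ⟨abs_pos.2 h1, h2⟩ a (decide (0 < s)) ha v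
    rw [show X212.M.pm (decide (0 < s)) * |s| = s by
      rcases lt_or_gt_of_ne h1 with k | k <;> simp [X212.M.pm, k, abs_of_pos, abs_of_neg, k.not_gt]] at this
    exact (this.trans (h'' (a, _))).trans (le_max_right _ _)
  · exact (hC' x hx).trans (le_max_left _ _)

variable (J c s π) in
/-- no term acts on the piece -/
def Qt : Prop := ∀ q x, ∀ z ∈ W.pc c π, (J.τ c q s).D x z = 0 ∧ (J.τ c q s).C x z = 0

theorem OK.qt (hJ : J.OK) (hσ : σ ∈ J.𝒦) (hs : J.Ov σ c s) (hπ : M.sys.Piece c.1 π)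
    (h1 : ∀ w, J.co w s = 0 ∨ ∃ Ω ⊆ (M.sys.cores c.1)ᶜ, TmIn X.I Ω (J.tw w) ∧ Disjoint Ω (M.sys.U π))
    (h2 : ∀ a b, J.Ac c s (a, b) → (J.xs a).Triv ∨ Disjoint (M.sys.w a).band (M.sys.U π)) :
    J.Qt c s π := fun q x z hz => by
  have k : ∀ i (hi : J.Ac c s i), (J.xs i.1).Triv ∨ z ∉ (J.K c i.1 i.2 _ hi).ψ.target := fun i hi =>
    (h2 _ _ hi).imp id fun d k => by
      obtain ⟨v, h3, rfl⟩ := (hJ.nk _ _ _ _ hi).exists_nj hi k
      exact disjoint_left.1 d ⟨v, rfl⟩ ((Cyl58.φ_mem_pc W.toCaps hπ h3).1 hz)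
  have k0 : (J.τ0 c s).D x z = 0 ∧ (J.τ0 c s).C x z = 0 := by
    constructor <;> refine Finset.sum_eq_zero fun i _ => ?_ <;> split_ifs with hi <;> try rfl
    · rcases k i hi with ⟨h3, h4, -⟩ | k
      · have : IsEmpty ((J.xs i.1).N.smul (J.ν i.1 s)).J := @instIsEmptySum _ _ h3 (@instIsEmptySum _ _ h4 h4)
        simp [ND.q1, Dgr80.DG.q1, Dgr80.DG.gP, Finset.univ_eq_empty, -Fintype.sum_sum_type]
      · exact (Eqv71.van0_q1 _ _).D _ _ k
    · rcases k i hi with ⟨h3, h4, -⟩ | k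
      · have : IsEmpty ((J.xs i.1).N.smul (J.ν i.1 s)).J := @instIsEmptySum _ _ h3 (@instIsEmptySum _ _ h4 h4)
        simp [ND.q1, Dgr80.DG.q1, Dgr80.DG.gA, Finset.univ_eq_empty, -Fintype.sum_sum_type]
        exact map_zero _
      · exact (Eqv71.van0_q1 _ _).C _ _ k
  have k1 : ∀ w, (J.τw c s w).D x z = 0 ∧ (J.τw c s w).C x z = 0 := fun w => by
    have e : J.co w s = 0 ∨ x.tD (J.B c) (J.G c s).F ((J.tp c).tm (J.tw w)) z = 0 ∧
        x.tC (J.B c) (J.G c s).F ((J.tp c).tm (J.tw w)) z = 0 := (h1 w).imp id fun ⟨Ω, a, b, d⟩ => by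
      obtain ⟨K, -, h3, h4⟩ := ((Tp.in_of (W.φ c) (fun x hx => (Line51.fsm_rl ((Λ.iso J.m c _
        ⟨hJ.par σ hσ s hs.1, hs.2.ge⟩).sm x hx)).contMDiffWithinAt) (W.src c ▸ a)).tm b).supp (ι := Option κ)
      refine h4 _ _ _ _ fun k => ?_
      obtain ⟨v, h5, rfl⟩ := h3 k
      exact disjoint_left.1 d h5 ((Cyl58.φ_mem_pc W.toCaps hπ (a h5)).1 hz)
    constructor <;> refine (congrArg₂ (· + ·) ?_ (Finset.sum_eq_zero fun i _ => ?_)).trans (add_zero 0) <;>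
      (try split_ifs with hi) <;> try rfl
    · rcases e with e | e <;> simp [Pt.smul, tmP, e]
    · rcases k i hi with ⟨-, -, k⟩ | k
      · simp [fsum, k]
      · exact (Eqv71.van0_fsum (fun T => Eqv71.van0_q2 _ _ _) _).D _ _ k
    · rcases e with e | e <;> simp [Pt.smul, tmP, e]
    · rcases k i hi with ⟨-, -, k⟩ | k
      · simp [fsum, k]
      · exact (Eqv71.van0_fsum (fun T => Eqv71.van0_q2 _ _ _) _).C _ _ k
  simp [τ, Pt.add, fsum, Finsupp.sum, k0, k1]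

/-- vanishing on a quiet positive piece -/
theorem Sol.van (hJ : J.OK) (hσ : σ ∈ J.𝒦) {y : J.Obc c} (h : Sol σ q y) (hπ : M.sys.Piece c.1 π)
    (hq : J.Qt c y.s π) (hp : ∀ z ∈ W.pc c π, PosP (J.B c) (J.G c y.s) 0 z) : ¬y.TF π := by
  obtain ⟨C, hC⟩ := h.bdd hJ hσ
  obtain ⟨_, ht⟩ := Cht98.tame_W W J.m (h.ok hJ hσ).2
  rintro ⟨x, h1, h2⟩
  exact h2 (vanish (Λ.B_ok _ _) (Λ.G_ok _ (h.ok hJ hσ).2) (Mp86.bumps_of_tame _ ht) (Cyl58.isClopen_pc _ hπ)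
    h.sol.toAdm hp (fun z hz => by simpa [Cfg.eD, (hq q _ z hz).1] using h.sol.D z)
    (fun z hz => by simpa [Cfg.eC, (hq q _ z hz).2, sub_eq_zero] using h.sol.C z) (fun z _ => hC z) x h1)

end Job
end An

namespace Lns95
open An M G75

variable {κ lam : Type} [Fintype κ] [Fintype lam] [DecidableEq lam] {Lm : LM κ lam} {n : ℕ}
  {S : Scene Lm} (ok : S.OK) {l : S.A} (hl : l ∈ S.ls) {π : Reg S.A} (e : π l = some false)
include ok hl e

theorem bd_in (h : S.M.sys.IsReg π) {a : S.A} (ha : a ∈ Sys.bd π) : a = l := by_contra fun k =>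
  let ⟨_, hx⟩ := (S.M.sys.w a).ne true
  (S.M.sys.w l).not_mem_sd (h.band_subset k e ha hx.1)
    (ok.lsi l hl a k (h.cell ha (Sys.mem_bd_of e) k) hx.1)

theorem U_in (h : S.M.sys.IsReg π) : S.M.sys.U π = (S.M.sys.w l).sd false :=
  subset_antisymm (fun _ k => k l _ e) fun x k a b hb => by
    obtain rfl := bd_in ok hl e h (Sys.mem_bd_of hb)
    exact Option.some.inj (e.symm.trans hb) ▸ k

/-- the piece inside a lens wall -/
theorem pc_in (h : S.M.sys.IsReg π) (C : Caps S.M) (c : S.M.Cl) :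
    C.pc c π = C.φ c '' (S.M.sys.w l).sd false := by
  rw [Caps.pc, U_in ok hl e h]
  refine union_eq_left.2 ?_
  rintro _ ⟨a, b, h1, h2, -⟩
  exact (ok.lsp l hl (bd_in ok hl e h (Sys.mem_bd_of h2) ▸ h1)).elim

variable {D : S.Dat} {i : S.L} {Wi A' h : Type} [Fintype A'] [DecidableEq A'] [Fintype h] {r n' : ℕ}
  {J : Job Wi (D.Λ i) A' h r n'} (hJ : J.OK) {σ : Cel A'} (hσ : σ ∈ J.𝒦) {c : S.M.Cl}
  (hπ : S.M.sys.Piece c.1 π)
include hJ hσ hπ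

/-- the piece inside a broken lens wall is quiet -/
theorem qt_in {s : A' → ℝ} (hs : J.Ov σ c s) (ht : (J.xs l).Triv) (h1 : ∀ w, J.co w s = 0 ∨
    ∃ Ω ⊆ (S.M.sys.cores c.1)ᶜ, Wrd81.TmIn S.X.I Ω (J.tw w) ∧ Disjoint Ω ((S.M.sys.w l).sd false)) :
    J.Qt c s π := hJ.qt hσ hs hπ (U_in ok hl e hπ.toIsReg ▸ h1) fun a b ha => by
  by_cases k : a = l
  · exact .inl (k ▸ ht)
  have h0 : (J.Θ s).2 l = 1 := ha.2.1.2 (hπ.bd_subset (Sys.mem_bd_of e))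
  have h2 : (J.Θ s).2 a ≠ 0 := by
    rcases b with _ | b
    · linarith [ha.2.2.2.2.2]
    · exact (show (J.Θ s).2 a = 1 from ha.2.1.2 ha.2.2.2) ▸ one_ne_zero
  refine .inr (U_in ok hl e hπ.toIsReg ▸ disjoint_left.2 fun x hx k' => (S.M.sys.w l).not_mem_sd k' ?_)
  exact ok.lsi l hl a k (ha.2.1.1.2 h2 (h0 ▸ one_ne_zero : (J.Θ s).2 l ≠ 0) k) hx

/-- **(V)**: no spinor inside a broken lens wall -/
theorem LOK.van (K : LOK Lm n) (hN : NeckStmt) (hk : ∀ σ, |K.k σ| ≤ n) {q : Wi →₀ ℝ} {y : J.Obc c}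
    (h : Job.Sol σ q y) (hq : J.Qt c y.s π) : ¬y.TF π :=
  h.van hJ hσ hπ hq fun _ hz =>
    (add_le_add_left zero_le_one _).trans (K.posP ok D ⟨l, hl⟩ (h.br hJ hσ)
      ((show (J.Θ y.s).2 l = 1 from h.inf.ge (hπ.bd_subset (Sys.mem_bd_of e))) ▸ one_ne_zero) i hN
      (h.ok hJ hσ).2 J.m (pc_in ok hl e hπ.toIsReg _ c ▸ hz) hk)

end Lns95
end Crest.Agent.X212
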