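import Crest.Agent.X212.Lns95.Cj
import Crest.Agent.X212.Qa50.Add
import Crest.Agent.X212.Uq54.Main

/-!
# X212 / LENS (helper95), part Sw: the swap of the inside; uniqueness of the inside
-/

set_option autoImplicit false
set_option linter.unusedSectionVars false
noncomputable section
open scoped Manifold ContDiff Topology Real InnerProductSpace
open Set Function Filter MeasureTheory
open Crest.Agent.R208.F (Ext)

namespace Crest.Agent.X212.Lns95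
open An Nd18 Num57 Cyf70 Qab60
open M (Mf)
open Abel74 (fm fF RedOn)
open Pj41 (FSm OKOn ConnOn Iso0 Par0 ad)
open Tmp64 (AdmOn Eq0 admOn_univ)
open Eqv71 (cj LG KG Ad0 ad0 trn_trn)
open Dfl49 (PI)
open Dr59 (dM)
open Wz78 (fL)

theorem par_aux {κ : Type} [Fintype κ] [DecidableEq κ] {d u W p : En κ} {ξ : HS κ} {a : ℝ}
    (h : d + (W + opL (a • -ξ)) ∘L u - u ∘L (W + opL (a • -ξ)) = 0)
    (h1 : opL (cj u (-ξ)) ∘L u = opL (- -ξ) ∘L u) (h2 : trn u ∘L u = p) (h3 : opL ξ ∘L p = opL ξ) :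
    d + (W + opL (a • -ξ) + opL (a • -ξ)) ∘L u - u ∘L W = 0 := by
  simp only [Eqv71.opL_cj, ContinuousLinearMap.comp_assoc, h2, h3, map_neg, neg_neg,
    ContinuousLinearMap.neg_comp] at h1
  refine Eq.trans ?_ h
  simp only [map_smul, map_neg, ContinuousLinearMap.add_comp, ContinuousLinearMap.comp_add,
    ContinuousLinearMap.smul_comp, ContinuousLinearMap.comp_smul, ContinuousLinearMap.comp_neg,
    ContinuousLinearMap.neg_comp, ← h1]
  module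

section gauge
variable {E : Type} [NormedAddCommGroup E] [NormedSpace ℝ E] [FiniteDimensional ℝ E]
  [MeasurableSpace E] [BorelSpace E]
  {HM : Type} [TopologicalSpace HM] {I : ModelWithCorners ℝ E HM} [I.Boundaryless]
  {M : Type} [TopologicalSpace M] [ChartedSpace HM M] [IsManifold I ∞ M] [T2Space M]
  [MeasurableSpace M] [BorelSpace M] [SecondCountableTopology M]
  {ι : Type} [Fintype ι] {lam : Type} [Fintype lam] {B B' : Base M ι lam} {G G' : Geo I M ι lam}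
  {Ω O : Set M} {v : M → En lam} {U : M → ι → ι → ℝ} {x : M} {r : ℕ} {c c' : Cfg M ι lam r}
  {ξ : M → c.m.A} {ζ : Circle}

section ab
variable (hB : B.OK I) (hG : G.OK B) (hΩ : IsClopen Ω) (A : Ab B G Ω c ξ)
include hB hG hΩ A

/-- an abelian solution of level `1/4` -/
theorem sl_of (ok : OK G.F B.o)
    (e : ∀ x ∈ Ω, c.m.p2 B x (c.m.Fg G.F c.W x) - c.m.mu B x (c.Φ x) (c.Φ x) = 0)
    (i : Integrable (c.m.kd B G.F c.W) G.F.μ) (l : ∫ x in Ω, c.m.kd B G.F c.W x ∂G.F.μ = 1 / 4) :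
    Sl B G Ω (fm G.F c.m c.W ξ) := by
  obtain ⟨-, h2, h3, h4⟩ := Qa50.addStmt I M ι lam r B G Ω c ξ hB hG hΩ A
  have a : ∀ x ∈ Ω, hs G.F B.o x (Qab60.c2 G.F (fm G.F c.m c.W ξ) x) = 0 := fun x hx =>
    PiLp.ext fun s => (smul_eq_zero.1 (congrArg (· s) ((h2 x hx).1.symm.trans (e x hx)) :
      _ • ξ x = 0)).resolve_right (h4 x hx)
  have k : ∀ x, ⟪Qab60.c2 G.F (fm G.F c.m c.W ξ) x, Qab60.st B.o x (Qab60.c2 G.F (fm G.F c.m c.W ξ) x)⟫_ℝ =
      Ω.indicator (fun x => -(8 * π ^ 2) * c.m.kd B G.F c.W x) x := fun x => by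
    by_cases hx : x ∈ Ω
    · rw [indicator_of_mem hx, kd_ab hB hG A hx]; field_simp
    · rw [indicator_of_notMem hx, c2_of_zero (h3.off x hx), inner_zero_left]
  have n : ∀ x, ‖Qab60.c2 G.F (fm G.F c.m c.W ξ) x‖ ^ 2 =
      Ω.indicator (fun x => (8 * π ^ 2) * c.m.kd B G.F c.W x) x := fun x => by
    by_cases hx : x ∈ Ω
    · have := k x
      rw [inner_st ok, a x hx, indicator_of_mem hx] at this
      rw [norm_c2_sq ok, a x hx, indicator_of_mem hx]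
      simp only [norm_zero] at this ⊢
      linarith
    · rw [indicator_of_notMem hx, c2_of_zero (h3.off x hx), norm_zero, sq, mul_zero]
  refine ⟨h3, a, (memLp_two_iff_integrable_sq_norm (sm_c2 h3.fo.sm).continuous.aestronglyMeasurable).2 ?_,
    ?_⟩
  · simp only [n]
    exact (i.const_mul _).indicator hΩ.isOpen.measurableSet
  · rw [Qab60.integ_mul ok h3.fo.dg]
    simp only [k]
    rw [integral_indicator hΩ.isOpen.measurableSet, integral_const_mul, l]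
    ring

theorem sol_in (S : Sl B G Ω (fm G.F c.m c.W ξ)) (hx : x ∈ Ω) :
    c.m.p2 B x (c.m.Fg G.F c.W x) - c.m.mu B x (c.Φ x) (c.Φ x) = 0 ∧
      Wz78.dir I G.F.e c.m.ρ c.W c.Φ x = 0 :=
  let h := (Qa50.addStmt I M ι lam r B G Ω c ξ hB hG hΩ A).2.1 x hx
  ⟨h.1.trans (by rw [S.asd x hx]; exact PiLp.ext fun s => zero_smul _ _), h.2⟩

end ab

theorem ceq_congr {F : Fr I M ι} {U' : M → ι → ι → ℝ} {v' : M → En lam} {u : M → CL c.m.V c'.m.V}
    (e : CEq F c c' O id U v u ζ) (h : ∀ x ∈ O, U' x = U x ∧ v' x = v x) : CEq F c c' O id U' v' u ζ :=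
  ⟨⟨e.m.su, e.m.uu, e.m.uu', e.m.J, fun x hx => (h x hx).1 ▸ e.m.ρ x hx,
    fun x hx => (h x hx).2 ▸ e.m.j x hx⟩, fun x hx => (h x hx).1 ▸ e.W x hx, e.Φ, e.z⟩

open Classical in
/-- gluing isomorphisms -/
theorem ceq_glue (hB : B.OK I) (hΩ : IsClopen Ω) (a : Ad0 c B G) (a' : Ad0 c' B G)
    (z : ∀ x ∈ Ω, c.Φ x = 0) (z' : ∀ x ∈ Ω, c'.Φ x = 0) {u u' : M → CL c.m.V c'.m.V}
    (e : PI G.F c c' Ω u) (e' : CEq G.F c c' Ωᶜ id (fun x b a => B.P b a x) B.l u' ζ) :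
    CEq G.F c c' univ id (fun x b a => B.P b a x) B.l (Ω.piecewise u u') ζ := by
  have f : CEq G.F c c' Ω id (fun x b a => B.P b a x) B.l u ζ :=
    ⟨e.iso.mEq (Pj41.OK.on a.ok _) (Pj41.OK.on a'.ok _),
      (Pj41.par0_iff ((Pj41.IsConn.on a'.conn Ω).proj' hB)).1 e.par,
      fun x hx => by simp [z x hx, z' x hx, cs], e'.z⟩
  have k : ∀ x, ∃ O w, O ∈ 𝓝 x ∧ CEq G.F c c' O id (fun x b a => B.P b a x) B.l w ζ ∧
      Ω.piecewise u u' =ᶠ[𝓝 x] w := fun x => by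
    by_cases hx : x ∈ Ω
    · exact ⟨_, _, hΩ.isOpen.mem_nhds hx, f, eventually_of_mem (hΩ.isOpen.mem_nhds hx)
        fun y hy => piecewise_eq_of_mem _ _ _ hy⟩
    · exact ⟨_, _, hΩ.compl.isOpen.mem_nhds hx, e', eventually_of_mem (hΩ.compl.isOpen.mem_nhds hx)
        fun y hy => piecewise_eq_of_notMem _ _ _ hy⟩
  choose O w h1 h2 h3 using k
  have m := fun x => mem_of_mem_nhds (h1 x)
  have p := fun x => (h3 x).eq_of_nhds
  exact ⟨⟨fun x _ => ((((h2 x).m.su x (m x)).contMDiffAt (h1 x)).congr_of_eventuallyEq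
      (h3 x)).contMDiffWithinAt, fun x _ => p x ▸ (h2 x).m.uu x (m x), fun x _ => p x ▸ (h2 x).m.uu' x (m x),
    fun x _ => p x ▸ (h2 x).m.J x (m x), fun x _ => p x ▸ (h2 x).m.ρ x (m x),
    fun x _ => p x ▸ (h2 x).m.j x (m x)⟩, fun x _ a => by
      rw [Pre.D, Sob92.dv_congr (h3 x), p x]; exact (h2 x).W x (m x) a,
    fun x _ => p x ▸ (h2 x).Φ x (m x), e'.z⟩

variable {h : Type} {k k' : h → Cut M lam} {P : h → Prop}

/-- isomorphism over `O`, with the cuts in `P` -/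
def Out (F : Fr I M ι) (O : Set M) (U : M → ι → ι → ℝ) (v : M → En lam) (P : h → Prop)
    (y : CfgC k B r) (y' : CfgC k' B' r) : Prop :=
  ∃ u ζ, CEq F y.1 y'.1 O id U v u ζ ∧ ∀ i, P i → (k i).Eqv (k' i) B B' u (y.2 i) (y'.2 i)

theorem eqv_symm {m m' : Md M ι lam} {u : M → CL m.V m'.V} {k k' : Cut M lam} (ok : m.OK I B)
    (e : MEq I m m' O id U v u) (hx : k.x0 ∈ O) (h0 : k'.x0 = k.x0) {a : k.H B m} {a' : k'.H B' m'}
    (h : k.Eqv k' B B' u a a') : k'.Eqv k B' B (fun y => trn (u y)) a' a := by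
  obtain ⟨η, h⟩ := h
  have e := Eqv71.me_of_meq e hx
  refine ⟨η⁻¹, ?_⟩
  beta_reduce
  rw [h, h0, Cnt93.LU_LU]
  refine (Cnt93.mem_p ok a).symm.trans (congrArg (fun T => Cnt93.LU T _)
    (ContinuousLinearMap.ext fun b => ?_))
  have h2 : ∀ b, trn (u k.x0) (u k.x0 b) = m.p k.x0 b := fun b =>
    congrArg (fun T : En _ => T b) e.uu
  show _ = cs m.J _ (trn (u k.x0) (cs m'.J _ (u k.x0 b)))
  rw [Eqv71.ME.cs e, h2, ← Eqv71.map_cs (ok.Jp _).symm, Eqv71.cs_mul ok.Jsq]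
  simp

variable (g : KG B G B' G' O O id id U v) (hk : ∀ i, P i → (k i).x0 ∈ O ∧ (k' i).x0 = (k i).x0)
  {y z : CfgC k B r} {y' z' : CfgC k' B' r} (hy : Ad0 y.1 B G) (hy' : Ad0 y'.1 B' G')
include g hk hy hy'

theorem Out.symm (e : Out G.F O U v P y y') :
    Out G'.F O (fun x a b => U x b a) (fun x => trn (v x)) P y' y :=
  let ⟨_, _, e, f⟩ := e
  ⟨_, _, Eqv71.ceq_symm g.toLG g.inv hy hy' e, fun i hi =>
    eqv_symm hy.ok e.m (hk i hi).1 (hk i hi).2 (f i hi)⟩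

theorem Out.of (hz : Ad0 z.1 B G) (hz' : Ad0 z'.1 B' G') (e : Out G.F O U v P y y')
    (f : Out G.F O U v P z z') (H : Out G'.F O (fun x b a => B'.P b a x) B'.l P y' z') :
    Out G.F O (fun x b a => B.P b a x) B.l P y z := by
  obtain ⟨_, _, s, s'⟩ := f.symm g hk hz hz'
  obtain ⟨_, _, e, e'⟩ := e
  obtain ⟨_, _, H, H'⟩ := H
  have l' := Eqv71.lg_refl g.hB' g.hG' g.inv.opn'
  refine ⟨_, _, ceq_congr (Eqv71.ceq_trans (g.toLG.trans l' (mapsTo_id _)) (g.toLG.symm g.inv)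
    (mapsTo_id _) hy hz' hz (Eqv71.ceq_trans g.toLG l' (mapsTo_id _) hy hy' hz' e H) s)
    fun x hx => ⟨funext₂ fun d a => ?_, ?_⟩, fun i hi => ?_⟩
  · have b : Eqv71.BE B x B' x _ _ := g.be x hx
    simp only [comp_apply, id, b.PU g.hB', b.UU]
  · have b : Eqv71.BE B x B' x _ _ := g.be x hx
    simp only [comp_apply, id, b.lv g.hB, b.vv]
  · have x0 := hk i hi
    exact Cnt93.eqv_trans (φ := id) x0.2 (s.m.J _ (x0.2 ▸ x0.1)) hz.ok.Jsq (Cnt93.eqv_trans (φ := id)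
      x0.2 (H.m.J _ (x0.2 ▸ x0.1)) hz'.ok.Jsq (e' i hi) (H' i hi)) (s' i hi)

end gauge

section cyl
variable {Y : Mf 3} [CompactSpace Y.M] {κ : Type} [Fintype κ] {lam : Type} [Fintype lam]
  {D D' : YD Y.I Y.M κ lam}
  {E : Type} [NormedAddCommGroup E] [NormedSpace ℝ E] [FiniteDimensional ℝ E]
  [MeasurableSpace E] [BorelSpace E]
  {HM : Type} [TopologicalSpace HM] {I : ModelWithCorners ℝ E HM} [I.Boundaryless]
  {M : Type} [TopologicalSpace M] [ChartedSpace HM M] [IsManifold I ∞ M] [T2Space M]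
  [MeasurableSpace M] [BorelSpace M] [SecondCountableTopology M]
  {B B' : Base M (Option κ) lam} {G G' : Geo I M (Option κ) lam} {K : Nk D B G} {K' : Nk D' B' G'}
  {Ω : Set M} {w : M → Ext E} {r : ℕ} {c c' c₁ : Cfg M (Option κ) lam r} {ξ : M → c.m.A}
  {ξ' : M → c'.m.A}

/-- **uniqueness of the inside** -/
theorem uniq_in (hc : ClsStmt D I M) (i : Ins K Ω w) (A : Ab B G Ω c ξ) (A' : Ab B G Ω c' ξ')
    (S : Sl B G Ω (fm G.F c.m c.W ξ)) (S' : Sl B G Ω (fm G.F c'.m c'.W ξ')) : ∃ u, PI G.F c c' Ω u := by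
  rcases (hc B G K Ω w _ i S).2 _ S' with e | e
  · exact (Uq54.uq I M _ lam r r B G Ω c ξ c' ξ' i.hB i.hG i.sc A A' fun x _ => congrFun e x).imp fun _ h => h.1
  · exact (Uq54.uq I M _ lam r r B G Ω c _ c' ξ' i.hB i.hG i.sc (ab_neg A) A' fun x _ =>
      congrFun (e.trans Abel74.fm_neg.symm) x).imp fun _ h => h.1

theorem cju (hu : CjuStmt I M (Option κ) lam) (s : Same K K') (i : Ins K Ω w) (hB' : B'.OK I)
    (hG' : G'.OK B') {k : M → En lam} (hk : Cj (-1) B G B' G' Ω k) (A : Ab B G Ω c ξ) {ε : ℝ}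
    (hε : ε = 1 ∨ ε = -1) (e : fm G.F c.m c.W ξ = (-ε / 2) • w) :
    ∃ u, PI G.F (twC (-1) c k) c (K.tm ⁻¹' Ioi 0) u ∧ ∀ x ∈ K.tm ⁻¹' Ioi 0, cj (u x) (ξ x) = -ξ x := by
  have t : Ioi 0 ⊆ Dfl49.Te 1 0 := fun t ht => by simpa [Dfl49.Te] using ht
  have key := fun η A (e : fm G.F c.m c.W η = (1 / 2 : ℝ) • w) => hu r B B' G G' Ω (K.tm ⁻¹' Ioi 0) c η k
    i.hB i.hG hB' hG' A i.sc hk (isOpen_Ioi.preimage K.cont) ((preimage_mono t).trans i.one.sub) s.line.1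
    (fun x hx => s.line.2 x (K.tgt ▸ i.one.J (t hx))) fun x hx p q => by
      rw [← Abel74.k2_fm i.hG A.adm.conn, ← i.fl x hx, e, k2_smul]
      exact (mul_assoc _ _ _).symm.trans (by norm_num; rfl)
  rcases hε with rfl | rfl
  · exact (key _ (ab_neg A) (by rw [Abel74.fm_neg, e]; module)).imp fun u h =>
      ⟨h.1, fun x hx => by simpa [neg_eq_iff_eq_neg] using h.2 x hx⟩
  · exact key _ A (by rw [e]; norm_num)

/-- **the swap of the inside** -/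
theorem swap (hx : CjxStmt I M (Option κ) lam) (hu : CjuStmt I M (Option κ) lam)
    (hl : LimaStmt D I M) (hc : ClsStmt D I M) (s : Same K K') (hP : B'.P = B.P) (ho : B'.o = B.o)
    (hF : G'.F = G.F) (i : Ins K Ω w) (hB' : B'.OK I) (hG' : G'.OK B')
    (fl : ∀ x ∈ Ω, ∀ s, fL B' G' x s = -fL B G x s) (A : Ab B G Ω c ξ)
    (S : Sl B G Ω (fm G.F c.m c.W ξ)) {β : YC Y.M κ lam} {ζ : Circle} (hβ : D.Adm β)
    (L : K.Lim c β ζ atTop) (a₁ : AdmOn c₁ B' G' Ωᶜ) :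
    ∃ (n : Cfg M (Option κ) lam r) (ξ' : M → n.m.A) (v : M → CL c₁.m.V n.m.V), Ab B' G' Ω n ξ' ∧
      Eq0 G'.F c₁ n Ωᶜ v ∧ fm G'.F n.m n.W ξ' = fm G.F c.m c.W ξ ∧ K'.Lim n β ζ atTop := by
  obtain ⟨k, hk⟩ := hx B B' G G' Ω i.hB i.hG hB' hG' hP ho hF i.cl.isOpen i.sc fl
  obtain ⟨ε, T, d, a, hε, h0, hd, fa, oa, e, dc⟩ := (hc B G K Ω w _ i S).1
  have ad := fun (c : Cfg M (Option κ) lam r) ξ A =>
    (Qa50.addStmt I M _ lam r B G Ω c ξ i.hB i.hG i.cl A).1 a fa oa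
  obtain ⟨A₀, e₀⟩ := ad _ _ (ab_neg A)
  obtain ⟨A₂, -⟩ := ad _ _ A₀
  have t : ∀ {T : ℝ}, 0 ≤ T → Ioi T ⊆ Dfl49.Te 1 0 := fun h t ht => by
    simpa [Dfl49.Te] using h.trans_lt ht
  have sb : ∀ {T : ℝ}, 0 ≤ T → K.tm ⁻¹' Ioi T ⊆ Ω := fun h => (preimage_mono (t h)).trans i.one.sub
  have li := fun (c : Cfg M (Option κ) lam r) ξ (A : Ab B G Ω c ξ) => hl r B G K c ξ β ζ T d a i.hD
    i.hB i.hG A.adm hβ ((t h0).trans i.one.J) (A.rd.toRedOn.mono (sb h0)) hd fa dc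
  have L₂ := li _ _ A₀ (li _ _ (ab_neg A) L)
  obtain ⟨u, p, hu⟩ := cju hu s i hB' hG' hk A₀ hε (e₀.trans (by rw [Abel74.fm_neg, e]; module))
  have at' := hk.admOn (.inr rfl) hB' ((admOn_univ.2 A.adm).mono (subset_univ Ω))
  obtain ⟨n, η, u₁, v, N, e₁, p₁, -, f₁⟩ := Cay24.pstStmt r B' G' Ω (twM (-1) c.m k) c.W ξ c₁ hB' hG' i.cl
    at'.ok at'.conn (hk.redOn A.rd.toRedOn) a₁
  have aN := (admOn_univ.2 N.adm).mono (subset_univ Ω)
  refine ⟨n, η, v, N, e₁, funext fun x => ?_, ?_⟩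
  · by_cases hx : x ∈ Ω
    · exact (f₁ hx).trans (hk.fm_eq (A.rd.mem x hx))
    · exact (N.rd.fm_off hx).trans (A.rd.fm_off hx).symm
  have p₂ : Par0 G.F (m := twM (-1) c.m k) (m' := c.m) c.W
      (ada G.F (ada G.F c (fun x => -ξ x) a) (fun x => -ξ x) a).W (K.tm ⁻¹' Ioi 0) u := fun x hx b => by
    have h1 := congrArg (fun η => opL η ∘L u x) (hu x hx)
    have h2 : trn (u x) ∘L u x = c.m.p x := (p.iso.iso x hx).src
    have h3 : opL (ξ x) ∘L c.m.p x = opL (ξ x) := Wz78.g_p' A.adm.ok (A.rd.mem x (sb le_rfl hx))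
    exact par_aux (p.par x hx b) h1 h2 h3
  have q₁ := (p₁.iso.symm at'.ok aN.ok).mono (sb le_rfl)
  exact s.lim hβ (ad0 A₂.adm) (ad0 N.adm) isOpen_Ioi (Ioi_mem_atTop 0) (q₁.trans p.iso)
    (((hF ▸ p₁.par.symm p₁.iso.su at'.conn.sk aN.conn.sk).mono (sb le_rfl)).trans p₂ q₁.su p.iso.su)
    (fun x hx => by rw [A₂.z x (sb le_rfl hx), N.z x (sb le_rfl hx), map_zero]) L₂

end cyl

end Crest.Agent.X212.Lns95
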