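import Crest.Agent.X212.Orx52.Rod
import Crest.Agent.X212.Line51.Pot
import Crest.Agent.X212.Rod53.Lens
import Crest.Agent.X212.M.Rel
import Crest.Agent.X212.Rf65.Psc
import Crest.Agent.X212.Cyl58.Int

/-!
# X212 / LENS (helper95), part Dsc: the data of the disc bundle `O(-n)`, and the leaves

`Ch` (a chart `(u, w)`: base and fibre coordinate), `Dsc` (two charts), `Dsc.Band` (the lens neck),
`LD` (a line in the two charts), `Prf` (the profile), `RC` (round frames on quotients of the sphere).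
-/

open scoped Manifold ContDiff Topology InnerProductSpace ComplexConjugate
open Set Function

set_option autoImplicit false
set_option linter.unusedSectionVars false

noncomputable section
namespace Crest.Agent.X212.Lns95
open Crest.Agent.R208.F (Ext)
open Glue52 (dir)
open Rod53 (IV Z2 LH Lens S3' E4 L4 Tb Jv dt cov)
open Pj41 (FSm)
open Met55 (VF FAt pbv)
open Line51 (Uni Ln sc ang chi off dual)
open Orx52 (oV oT OX)

section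
variable {E H : Type} [NormedAddCommGroup E] [NormedSpace ℝ E] [FiniteDimensional ℝ E]
  [TopologicalSpace H] (I : ModelWithCorners ℝ E H) {M : Type} [TopologicalSpace M] [ChartedSpace H M]
  {E' H' : Type} [NormedAddCommGroup E'] [NormedSpace ℝ E'] [FiniteDimensional ℝ E']
  [TopologicalSpace H'] (J : ModelWithCorners ℝ E' H') {Y : Type} [TopologicalSpace Y]
  [ChartedSpace H' Y]

/-- positive local coordinates `(u, w)` with `|u| < 1` -/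
structure Ch (o : M → Ext E) (O : Set M) (u w : M → ℂ) : Prop where
  op : IsOpen O
  su : ∀ y ∈ O, FSm I u y
  sw : ∀ y ∈ O, FSm I w y
  lt : ∀ y ∈ O, ‖u y‖ < 1
  pos : Orx52.Pos I IV (fun y => (u y, w y)) O o oV

/-- `N` looks like a region of the line bundle `O(-n)` over the sphere `{w = 0}` -/
structure Dsc (o : M → Ext E) (n : ℕ) (N : Set M) where
  O : Bool → Set M
  u : Bool → M → ℂ
  w : Bool → M → ℂ
  ch : ∀ b, Ch I o (O b) (u b) (w b)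
  cov : ∀ y, y ∈ N ↔ ∃ b, y ∈ O b
  ne : ∀ b, ∀ y ∈ O false ∩ O true, u b y ≠ 0
  nrm : ∀ y ∈ O false ∩ O true, ‖u false y‖ ^ 2 + ‖u true y‖ ^ 2 = 1
  du : ∀ y ∈ O false ∩ O true, dir (u true y) = (dir (u false y))⁻¹
  tw : ∀ y ∈ O false ∩ O true, w true y = w false y * (dir (u false y) ^ n : Circle)

/-- the point of `S³ ⊆ ℂ²`, with the coordinates exchanged for the second chart -/
def Th (b : Bool) (y : S3') : ℂ × ℂ := cond b (L4 y).swap (L4 y)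

variable {I} in
/-- the neck `j` over the heights `-3 < s < 0`; `c : S³ → Y` is the covering, `|w|² = g s` -/
structure Dsc.Band {o : M → Ext E} {n : ℕ} {N : Set M} (D : Dsc I o n N) (j : Y × ℝ → M)
    (c : S3' → Y) (g : ℝ → ℝ) : Prop where
  up : Cyl58.Up g univ
  pos : ∀ s, 0 < g s
  eq : ∀ b y, ∀ s ∈ Ioo (-3 : ℝ) 0, (Th b y).2 ≠ 0 → j (c y, s) ∈ D.O b ∧
    D.u b (j (c y, s)) = (Th b y).1 * ((dir (Th b y).2)⁻¹ : Circle) ∧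
    D.w b (j (c y, s)) = (√(g s) : ℝ) * (dir (Th b y).2 ^ n : Circle)
  lo : ∀ b, ∀ x ∈ D.O b, x ∉ j '' (univ ×ˢ Ioo (-3) 0) → ‖D.w b x‖ ^ 2 ≤ g (-3)
  hi : ∀ b q, j q ∈ D.O b → g q.2 ≤ ‖D.w b (j q)‖ ^ 2

variable {I} in
/-- a line with unit sections over the two charts (`k` is the degree up to sign); `nA` is the flat
connection form of the neck -/
structure LD {o : M → Ext E} {n : ℕ} {N : Set M} (D : Dsc I o n N) {lam : Type} [Fintype lam]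
    (p : M → Matrix lam lam ℂ) (k : ℤ) (j : Y × ℝ → M) (nA : Y × ℝ → Ext (E' × ℝ)) where
  s : Bool → M → Matrix lam Unit ℂ
  uni : ∀ b, Uni I (fun _ => 1) p (s b) (D.O b)
  tr : ∀ y ∈ D.O false ∩ D.O true, s true y = s false y * sc (fun y => dir (D.u false y) ^ k) y
  band : ∀ b (q : Y × ℝ), q.2 ∈ Ioo (-3 : ℝ) 0 → j q ∈ D.O b →
    Line51.th (J.prod 𝓘(ℝ, ℝ)) (fun q => s b (j q)) q + nA q =
      (k / n : ℝ) • ang (J.prod 𝓘(ℝ, ℝ)) (fun q => dir (D.w b (j q))) q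

/-- the frame `e` on `Y` is round through the covering `c` -/
def RC {κ : Type} [Fintype κ] (c : S3' → Y) (e : κ → VF J Y) : Prop := ∀ (y : S3') (v w : E4),
  ∑ k, ⟪v, Sob92.dv (𝓡 3) (pbv (𝓡 3) J c (e k)) (fun z : S3' => (z : E4)) y⟫_ℝ *
    ⟪w, Sob92.dv (𝓡 3) (pbv (𝓡 3) J c (e k)) (fun z : S3' => (z : E4)) y⟫_ℝ =
    ⟪v, w⟫_ℝ - ⟪v, (y : E4)⟫_ℝ * ⟪w, (y : E4)⟫_ℝ

end

/-- the profile, as functions of `x = |w|²`: `dr = H dx`, `f1 = df/dr`, `f2 = df1/dr` -/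
structure Prf (n : ℕ) where
  p1 : ℝ → ℝ
  p2 : ℝ → ℝ
  p3 : ℝ → ℝ
  f : ℝ → ℝ
  f1 : ℝ → ℝ
  f2 : ℝ → ℝ
  H : ℝ → ℝ
  s1 : ∀ x, 0 ≤ x → ContDiffAt ℝ ∞ p1 x
  s2 : ∀ x, 0 ≤ x → ContDiffAt ℝ ∞ p2 x
  s3 : ∀ x, 0 ≤ x → ContDiffAt ℝ ∞ p3 x
  pos1 : ∀ x, 0 ≤ x → 0 < p1 x
  pos2 : ∀ x, 0 ≤ x → 0 < p1 x + 2 * x * p2 x
  ef : ∀ x, 0 < x → f x = n * √x * p1 x
  ef1 : ∀ x, 0 < x → f1 x = n + x * p3 x
  eH : ∀ x, 0 < x → H x = (p1 x + 2 * x * p2 x) / (2 * √x)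
  df : ∀ x, 0 < x → HasDerivAt f (f1 x * H x) x
  df1 : ∀ x, 0 < x → HasDerivAt f1 (f2 x * H x) x
  le1 : ∀ x, 0 < x → f x ≤ 1
  ge0 : ∀ x, 0 < x → 0 ≤ f1 x
  len : ∀ x, 0 < x → f1 x ≤ n
  ccv : ∀ x, 0 < x → f2 x ≤ 0
  big : ∀ x, 0 < x → 1 / 2 ≤ f1 x → 2 * n - 1 ≤ -f2 x / f x
  alt : ∀ x, 0 < x → 1 / 2 ≤ f1 x ∨ 1 / 2 ≤ f x

/-- PRF: profiles exist, with `f = 1` beyond `a'` and prescribed `H` on `[a, b]` -/
def PrfStmt : Prop := ∀ (n : ℕ) (a' a b b' : ℝ) (h : ℝ → ℝ), 1 ≤ n → 0 < a' → a' < a → a < b → b < b' →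
  (∀ x ∈ Ioo a' b', ContDiffAt ℝ ∞ h x ∧ 0 < h x) → ∃ P : Prf n,
    (∀ x, a' ≤ x → P.f x = 1 ∧ P.f1 x = 0 ∧ P.f2 x = 0) ∧ ∀ x ∈ Icc a b, P.H x = h x

/-- GL: round frames on lens spaces exist -/
def GlStmt : Prop := ∀ (a b : Z2) (h : LH a b),
  ∃ e : Fin 6 → VF (𝓡 3) (Lens h), (∀ y, FAt e y) ∧ RC (𝓡 3) (cov h) e

/-- GP: round frames have positive Ricci curvature -/
def GpStmt : Prop := ∀ (Y : M.Mf 3) (c : S3' → Y.M), IsLocalDiffeomorph (𝓡 3) Y.I ∞ c → Surjective c →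
  ∀ (κ : Type) [Fintype κ] (F : An.Fr Y.I Y.M κ), RC Y.I c F.e → Rf65.Psc F (fun _ : Empty => 0) 2

/-- ROD: the half disc around the rod `a'` between the vertices `c ± l` -/
def RodStmt : Prop := ∀ (T : Tb (𝓡 3) Crest.GeometryTopology.DehnSurgery.S3) (v : ℝ → Z2) (a a' : Z2)
  (n : ℕ) (c l : ℝ) (ρ : ℝ → ℝ) (h : LH a ((n : ℤ) • a' - a)) (o) (O), dt a a' = 1 →
  Tb.Arc v a ((n : ℤ) • a' - a) c ρ → StrictMono ρ → 0 < l → (∀ s, l < ρ s) →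
  (∀ x, c - ρ 0 < x → x < c + l → x ∈ Jv v a a' (c - l)) →
  (∀ x, c - l < x → x < c + ρ 0 → x ∈ Jv v a' ((n : ℤ) • a' - a) (c + l)) →
  OX T v o O → Orx52.Pos Rod53.IT (𝓡 3) T.τ {z | z.2 ≠ 0} oT o →
  ∃ D : Dsc (𝓡 4) (-O) n (T.disc v c (Iio (ρ 0))),
    D.Band (T.lb v h c ρ) (cov h) (fun s => ρ s - l) ∧
    (∀ p, p ∈ D.O false ↔ p ∈ T.disc v c (Iio (ρ 0)) ∧ (p ∈ off T v ∨ T.time v p < c + l)) ∧
    (∀ p, p ∈ D.O true ↔ p ∈ T.disc v c (Iio (ρ 0)) ∧ (p ∈ off T v ∨ c - l < T.time v p)) ∧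
    ∀ p ∈ T.disc v c (Iio (ρ 0)), p ∈ off T v → (∀ b, D.u b p ≠ 0 ∧ D.w b p ≠ 0) ∧
      dir (D.u false p) = chi T v (dual a a' 1 0) p ∧ dir (D.w false p) = chi T v (dual a a' 0 1) p

end Crest.Agent.X212.Lns95
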