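import Crest.Agent.X212.Lns95.Onv
import Crest.Agent.X212.Lns95.Pos
import Crest.Agent.X212.Lns95.Dsc

/-!
# X212 / LENS (helper95), part Cof: the model coframes of a chart `(u, w)` and their structure equations
-/

open scoped Manifold ContDiff Topology ComplexConjugate
open Finset Filter Complex

set_option autoImplicit false
set_option linter.unusedSectionVars false

noncomputable section
namespace Crest.Agent.X212.Lns95
open Sob92 Wz78
open Glue52 (dir)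
open Line51 (dc dc_mul dc_add dc_star dc_congr dc_ofReal fsm_re fsm_im md_of)
open Dr59 (mf)

variable {E H : Type} [NormedAddCommGroup E] [NormedSpace ℝ E] [FiniteDimensional ℝ E]
  [TopologicalSpace H] {I : ModelWithCorners ℝ E H} {M : Type} [TopologicalSpace M] [ChartedSpace H M]
  [IsManifold I ∞ M] {u w z₁ z₂ ρ : M → ℂ} {y : M}

variable (I) in
/-- the differential of `(u, w)` -/
def dP (u w : M → ℂ) (y : M) : E →ₗ[ℝ] ℂ × ℂ :=
  (dc I u y : E →ₗ[ℝ] ℂ).prod (dc I w y : E →ₗ[ℝ] ℂ)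

variable (I) in
/-- the coframe that is smooth across `w = 0` -/
def cvF (n p q : ℝ) (u w : M → ℂ) (y : M) : Fin 4 → E →ₗ[ℝ] ℝ :=
  l4 (lF n p q (u y) (w y) ∘ₗ dP I u w y) (lB (u y) ∘ₗ (dc I u y : E →ₗ[ℝ] ℂ))

variable (I) in
/-- the coframe `h d|w|², f σ₁, σ₂, σ₃` -/
def cvG (n h f : ℝ) (u w : M → ℂ) (y : M) : Fin 4 → E →ₗ[ℝ] ℝ :=
  l4 (lG n h f (u y) (w y) ∘ₗ dP I u w y) (lB (u y) ∘ₗ (dc I u y : E →ₗ[ℝ] ℂ))

theorem sa_nsq (hu : SA I u y) : SA I (fun y => ‖u y‖ ^ 2) y := Rod53.cm_nsq hu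

theorem dv_re (hu : SA I u y) (X : Met55.VF I M) : dv I X (fun y => (u y).re) y = (dv I X u y).re :=
  dv_clm reCLM hu.md

theorem dv_im (hu : SA I u y) (X : Met55.VF I M) : dv I X (fun y => (u y).im) y = (dv I X u y).im :=
  dv_clm imCLM hu.md

theorem dv_ofReal {r : M → ℝ} (hr : SA I r y) (X : Met55.VF I M) :
    dv I X (fun y => (r y : ℂ)) y = (dv I X r y : ℝ) := dv_clm ofRealCLM hr.md

theorem dv_nsq (hu : SA I u y) (X : Met55.VF I M) :
    dv I X (fun y => ‖u y‖ ^ 2) y = 2 * lr (u y) (dv I X u y) := by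
  simp only [nsq]
  simp only [sq]
  rw [dv_add' (SA.mul (fsm_re hu) (fsm_re hu)) (SA.mul (fsm_im hu) (fsm_im hu)),
    dv_mul (fsm_re hu) (fsm_re hu), dv_mul (fsm_im hu) (fsm_im hu), lr_apply, dv_re hu, dv_im hu]
  ring

theorem sa_sq1 (hu : SA I u y) (h : ‖u y‖ < 1) : SA I (fun y => sq1 (u y)) y :=
  (Real.contDiffAt_sqrt (by nlinarith [norm_nonneg (u y)])).comp_contMDiffAt
    (f := fun y => 1 - ‖u y‖ ^ 2) (contMDiffAt_const.sub (sa_nsq hu))

theorem dv_sq1 (hu : SA I u y) (h : ‖u y‖ < 1) (X : Met55.VF I M) :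
    dv I X (fun y => sq1 (u y)) y = -(lr (u y) (dv I X u y) / sq1 (u y)) := by
  have h0 : 1 - ‖u y‖ ^ 2 ≠ 0 := by nlinarith [norm_nonneg (u y)]
  have := dv_comp (e := X) (u := fun y => 1 - ‖u y‖ ^ 2) (SA.md (contMDiffAt_const.sub (sa_nsq hu)))
    (Real.hasDerivAt_sqrt h0).hasFDerivAt
  rw [dv_sub' contMDiffAt_const (sa_nsq hu), dv_nsq hu] at this
  refine this.trans ?_
  simp [sq1]; ring

/-- the coframe in terms of a local lift to the sphere -/
theorem lift {n : ℕ} (h1 : SA I z₁ y) (h2 : SA I z₂ y) (hρ : SA I ρ y) (h0 : z₂ y ≠ 0)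
    (hn : ∀ᶠ x in 𝓝 y, ‖z₁ x‖ ^ 2 + ‖z₂ x‖ ^ 2 = 1)
    (hu : u =ᶠ[𝓝 y] fun x => z₁ x * ((dir (z₂ x))⁻¹ : Circle))
    (hw : w =ᶠ[𝓝 y] fun x => ρ x * (dir (z₂ x) ^ n : Circle)) (X : Met55.VF I M) :
    lB (u y) (dv I X u y) =
      conj (dir (z₂ y) : ℂ) ^ 2 * (z₂ y * dv I X z₁ y - z₁ y * dv I X z₂ y) ∧
    lD n (u y) (w y) (dv I X u y, dv I X w y) = (dv I X ρ y +
      n * (lm (z₁ y) (dv I X z₁ y) + lm (z₂ y) (dv I X z₂ y) : ℝ) * (Complex.I * ρ y)) *
        (dir (z₂ y) : ℂ) ^ n := by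
  set ε : M → ℂ := fun x => dir (z₂ x) with hε
  have se : SA I ε y := Rod53.cm_coe (Rod53.cm_dir h2 h0)
  have sr : SA I (fun x => ‖z₂ x‖) y := Rod53.cm_norm h2 h0
  have sr' : SA I (fun x => ((‖z₂ x‖ : ℝ) : ℂ)) y := ofRealCLM.contDiff.contDiffAt.comp_contMDiffAt sr
  have n1 : ∀ x, ‖ε x‖ = 1 := fun x => Circle.norm_coe _
  have e0 : lr (ε y) (dv I X ε y) = 0 := by
    have := dv_nsq se X
    rw [show (fun x => ‖ε x‖ ^ 2) = fun _ => 1 from funext fun x => by rw [n1, one_pow], dv_const,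
      Pi.zero_apply] at this
    linarith
  have e1 : dv I X ε y = lm (ε y) (dv I X ε y) * Complex.I * ε y := by
    have := nsq (ε y)
    rw [n1] at this
    rw [lr_apply] at e0
    apply Complex.ext <;> simp [lm_apply]
    · linear_combination (ε y).re * e0 + (dv I X ε y).re * this
    · linear_combination (ε y).im * e0 + (dv I X ε y).im * this
  generalize lm (ε y) (dv I X ε y) = α at e1
  have e2 : dv I X z₂ y = ((dv I X (fun x => ‖z₂ x‖) y : ℝ) + ‖z₂ y‖ * α * Complex.I) * ε y := by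
    conv_lhs => rw [show z₂ = fun x => (‖z₂ x‖ : ℂ) * ε x from
      funext fun x => (Glue52.norm_mul_dir _).symm]
    rw [dv_mul sr' se, dv_ofReal sr, e1]
    ring
  generalize dv I X (fun x => ‖z₂ x‖) y = dr at e2
  have e3 : z₂ y = ‖z₂ y‖ * ε y := (Glue52.norm_mul_dir _).symm
  have hr : 0 < ‖z₂ y‖ := norm_pos_iff.2 h0
  have e4 : lr (z₁ y) (dv I X z₁ y) = -(‖z₂ y‖ * dr) := by
    have := dv_congr (I := I) (e := X) (hn : _ =ᶠ[𝓝 y] fun _ => (1 : ℝ))
    rw [dv_add' (sa_nsq h1) (sa_nsq h2), dv_nsq h1, dv_nsq h2, dv_const, e2, Pi.zero_apply] at this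
    nth_rewrite 1 [e3] at this
    rw [lr_unit (n1 y), lr_apply (‖z₂ y‖ : ℂ)] at this
    simp at this
    linarith
  have e5 : lm (z₂ y) (dv I X z₂ y) = ‖z₂ y‖ ^ 2 * α := by
    rw [e2]
    nth_rewrite 1 [e3]
    rw [lm_unit (n1 y), lm_apply]
    simp; ring
  have c1 : ‖conj (ε y)‖ = 1 := by rw [norm_conj, n1]
  replace hu : u =ᶠ[𝓝 y] fun x => z₁ x * star (ε x) :=
    hu.mono fun x hx => hx.trans (congrArg _ (Circle.coe_inv_eq_conj _))
  replace hw : w =ᶠ[𝓝 y] fun x => ρ x * ε x ^ n :=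
    hw.mono fun x hx => hx.trans (congrArg _ (Circle.coe_pow _ _))
  have u0 : u y = z₁ y * conj (ε y) := hu.self_of_nhds
  have u1 : dv I X u y = (dv I X z₁ y - α * Complex.I * z₁ y) * conj (ε y) := by
    rw [dv_congr hu, dv_mul h1 (Pj41.FSm.star' se),
      show dv I X (fun x => star (ε x)) y = _ from dv_clm (conjCLE : ℂ →L[ℝ] ℂ) se.md, e1]
    simp; ring
  have w0 : w y = ρ y * ε y ^ n := hw.self_of_nhds
  have w1 : dv I X w y = (dv I X ρ y + n * α * Complex.I * ρ y) * ε y ^ n := by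
    have p := dv_comp (e := X) se.md
      ((hasDerivAt_pow n (ε y)).hasFDerivAt.restrictScalars ℝ)
    rw [dv_congr hw, dv_mul hρ (g := fun x => ε x ^ n)
      ((contDiff_id.pow n).contDiffAt.comp_contMDiffAt se), p, e1]
    cases n <;> (simp; try ring)
  have s0 : sq1 (u y) = ‖z₂ y‖ := by
    rw [sq1, u0, norm_mul, c1, mul_one, ← hn.self_of_nhds, add_sub_cancel_left, Real.sqrt_sq hr.le]
  have m0 : lm (u y) (dv I X u y) = lm (z₁ y) (dv I X z₁ y) - α * ‖z₁ y‖ ^ 2 := by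
    rw [u0, u1, lm_unit c1, nsq]; simp [lm_apply]; ring
  have ee : ε y * conj (ε y) = 1 := by rw [mul_conj, normSq_eq_norm_sq, n1]; simp
  refine ⟨?_, ?_⟩
  · have : lr (u y) (dv I X u y) = -(‖z₂ y‖ * dr) := by
      rw [u0, u1, lr_unit c1, ← e4]; simp [lr_apply]; ring
    rw [lB_apply, this, s0, neg_div, mul_div_cancel_left₀ _ hr.ne', u0, u1, e2]
    push_cast
    linear_combination (-(conj (ε y)) * (‖z₂ y‖ * dv I X z₁ y - z₁ y * (dr + ‖z₂ y‖ * α * Complex.I))) * ee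
      - conj (ε y) ^ 2 * dv I X z₁ y * e3
  · have := congrArg ((↑) : ℝ → ℂ) hn.self_of_nhds
    rw [lD, m0, w1, w0, e5]
    push_cast at this ⊢
    linear_combination (-(n * α * Complex.I * ρ y * ε y ^ n)) * this

theorem lF_eq (n p q : ℝ) (u w : ℂ) (d : ℂ × ℂ) :
    lF n p q u w d = p * lD n u w d + 2 * q * lr w (lD n u w d) * w := by rw [lr_lD, lF_apply, lD]

section dsc
variable {o : M → R208.F.Ext E} {n : ℕ} {N : Set M} (D : Dsc I o n N) (hy : y ∈ D.O false ∩ D.O true)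
include hy

theorem Dsc.nw : ‖D.w true y‖ = ‖D.w false y‖ := by
  rw [D.tw y hy, norm_mul, Circle.norm_coe, mul_one]

theorem Dsc.ut : D.u true y = sq1 (D.u false y) * ((dir (D.u false y))⁻¹ : Circle) := by
  rw [← D.du y hy, sq1, ← D.nrm y hy, add_sub_cancel_left, Real.sqrt_sq (norm_nonneg _),
    Glue52.norm_mul_dir]

/-- the change of charts -/
theorem Dsc.chg (X : Met55.VF I M) :
    lB (D.u true y) (dv I X (D.u true) y) =
      -conj (dir (D.u false y) : ℂ) ^ 2 * lB (D.u false y) (dv I X (D.u false) y) ∧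
    lD n (D.u true y) (D.w true y) (dv I X (D.u true) y, dv I X (D.w true) y) =
      lD n (D.u false y) (D.w false y) (dv I X (D.u false) y, dv I X (D.w false) y) *
        (dir (D.u false y) : ℂ) ^ n := by
  have c := D.ch false
  have nb := ((D.ch false).op.inter (D.ch true).op).mem_nhds hy
  have s1 := sa_sq1 (c.su y hy.1) (c.lt y hy.1)
  obtain ⟨k1, k2⟩ := lift (n := n) (u := D.u true) (w := D.w true) (z₁ := fun x => (sq1 (D.u false x) : ℂ))
    (ofRealCLM.contDiff.contDiffAt.comp_contMDiffAt s1) (c.su y hy.1) (c.sw y hy.1) (D.ne false y hy)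
    (eventually_of_mem nb fun x hx => by
      rw [norm_real, Real.norm_eq_abs, sq_abs, sq1_sq (c.lt x hx.1), nsq]; ring)
    (eventually_of_mem nb fun x hx => D.ut hx) (eventually_of_mem nb D.tw) X
  rw [dv_ofReal s1, dv_sq1 (c.su y hy.1) (c.lt y hy.1)] at k1 k2
  refine ⟨k1.trans ?_, k2.trans ?_⟩
  · rw [lB_apply]; push_cast; ring
  · rw [lm_apply (_ : ℝ), ofReal_im, ofReal_im, lD]; simp

variable {ι : Type} [Fintype ι] {v : ι → E}

theorem Dsc.onF {p q : ℝ} : Onv (cvF I n p q (D.u true) (D.w true) y) v ↔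
    Onv (cvF I n p q (D.u false) (D.w false) y) v := by
  have h1 : ‖(dir (D.u false y) : ℂ) ^ n‖ = 1 := by rw [norm_pow, Circle.norm_coe, one_pow]
  have h2 : ‖-conj (dir (D.u false y) : ℂ) ^ 2‖ = 1 := by
    rw [norm_neg, norm_pow, norm_conj, Circle.norm_coe, one_pow]
  have e1 : ∀ x : E, (lF n p q (D.u true y) (D.w true y) ∘ₗ dP I (D.u true) (D.w true) y) x =
      (dir (D.u false y) : ℂ) ^ n *
        (lF n p q (D.u false y) (D.w false y) ∘ₗ dP I (D.u false) (D.w false) y) x := fun x => by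
    have := (D.chg hy fun _ => x).2
    refine (lF_eq ..).trans (Eq.trans ?_ (congrArg _ (lF_eq ..).symm))
    rw [show lD n _ _ (dP I (D.u true) (D.w true) y x) = lD n _ _ (dP I (D.u false) (D.w false) y x) * _
      from this, D.tw y hy, Circle.coe_pow, lr_unit h1]
    ring
  have e2 := fun x : E => (D.chg hy fun _ => x).1
  have i : ∀ {c : ℂ}, ‖c‖ = 1 → ∀ {a b : ℂ}, a = c * b → b = c⁻¹ * a := fun h a b e => by
    rw [e, inv_mul_cancel_left₀ (norm_ne_zero_iff.1 (h.trans_ne one_ne_zero))]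
  exact ⟨fun h => h.unit (by rw [norm_inv, h1, inv_one]) (by rw [norm_inv, h2, inv_one])
    (fun x => i h1 (e1 x)) fun x => i h2 (e2 x), fun h => h.unit h1 h2 e1 e2⟩

theorem Dsc.ls_eq (hn : n ≠ 0) (hw : D.w false y ≠ 0) (X : Met55.VF I M) :
    ls n (D.u true y) (D.w true y) (dv I X (D.u true) y, dv I X (D.w true) y) =
      ls n (D.u false y) (D.w false y) (dv I X (D.u false) y, dv I X (D.w false) y) := by
  have h1 : ‖(dir (D.u false y) : ℂ) ^ n‖ = 1 := by rw [norm_pow, Circle.norm_coe, one_pow]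
  rw [lm_lD (Nat.cast_ne_zero.2 hn) _ hw, lm_lD (Nat.cast_ne_zero.2 hn) _
    (norm_ne_zero_iff.1 (D.nw hy ▸ norm_ne_zero_iff.2 hw)), (D.chg hy X).2, D.nw hy, D.tw y hy,
    Circle.coe_pow, lm_unit h1]

end dsc

theorem onG_of_onF {ι : Type} [Fintype ι] {v : ι → E} {n p q : ℝ} (hn : n ≠ 0) (hw : w y ≠ 0)
    (h : Onv (cvF I n p q u w y) v) :
    Onv (cvG I n ((p + 2 * ‖w y‖ ^ 2 * q) / (2 * ‖w y‖)) (n * ‖w y‖ * p) u w y) v :=
  h.unit (p := conj (w y) / ‖w y‖) (q := 1) (by simp [hw]) norm_one (fun _ => lG_eq hn _ hw _)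
    fun _ => (one_mul _).symm

theorem onF_of_onG {ι : Type} [Fintype ι] {v : ι → E} {n p q : ℝ} (hn : n ≠ 0) (hw : w y ≠ 0)
    (h : Onv (cvG I n ((p + 2 * ‖w y‖ ^ 2 * q) / (2 * ‖w y‖)) (n * ‖w y‖ * p) u w y) v) :
    Onv (cvF I n p q u w y) v :=
  h.unit (p := (conj (w y) / ‖w y‖)⁻¹) (q := 1) (by simp [hw]) norm_one (fun _ => by
    rw [LinearMap.comp_apply, LinearMap.comp_apply, lG_eq hn _ hw, inv_mul_cancel_left₀ (by simp [hw])])
    fun _ => (one_mul _).symm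

/-! ### structure equations -/

section cz
variable {ι : Type} [Fintype ι] {e : ι → Met55.VF I M} {P : ι → ι → M → ℝ} {c : ι → ι → ι → M → ℝ}

variable (I e) in
/-- `φ dψ - ψ dφ` -/
def wd (φ ψ : M → ℝ) (a : ι) (y : M) : ℝ := φ y * dv I (e a) ψ y + -(ψ y * dv I (e a) φ y)

variable (I e) in
/-- `μ = Im (conj u du)` -/
def mu (u : M → ℂ) : ι → M → ℝ := wd I e (fun y => (u y).re) fun y => (u y).im

variable (I e) in
/-- `d arg w` -/
def nu (w : M → ℂ) (a : ι) (y : M) : ℝ := (‖w y‖ ^ 2)⁻¹ * mu I e w a y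

variable (I e) in
/-- `σ₁` -/
def sg1 (n : ℝ) (u w : M → ℂ) (a : ι) (y : M) : ℝ := mu I e u a y + n⁻¹ * nu I e w a y

variable (I e) in
/-- the components of the coframe -/
def vG (n : ℝ) (h f : ℝ → ℝ) (u w : M → ℂ) : Fin 4 → ι → M → ℝ :=
  ![fun a y => h (‖w y‖ ^ 2) * dv I (e a) (fun y => ‖w y‖ ^ 2) y,
    fun a y => f (‖w y‖ ^ 2) * sg1 I e n u w a y,
    wd I e (fun y => sq1 (u y)) fun y => (u y).re, wd I e (fun y => sq1 (u y)) fun y => (u y).im]

theorem mu_eq (hu : SA I u y) (a : ι) : mu I e u a y = lm (u y) (dv I (e a) u y) := by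
  rw [mu, wd, dv_re hu, dv_im hu, lm_apply]; ring

theorem sg1_eq (hu : SA I u y) (hw : SA I w y) (n : ℝ) (a : ι) :
    sg1 I e n u w a y = ls n (u y) (w y) (dv I (e a) u y, dv I (e a) w y) := by
  rw [sg1, nu, mu_eq hu, mu_eq hw, ls_apply]; ring

theorem vG_eq (hu : SA I u y) (hw : SA I w y) (h1 : ‖u y‖ < 1) (n : ℝ) (h f : ℝ → ℝ) (i : Fin 4) (a : ι) :
    vG I e n h f u w i a y = cvG I n (h (‖w y‖ ^ 2)) (f (‖w y‖ ^ 2)) u w y i (e a y) := by
  fin_cases i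
  · exact ((congrArg (h _ * ·) (dv_nsq hw _)).trans ((mul_left_comm ..).trans (mul_assoc ..).symm)).trans
      (lG_re n _ (f (‖w y‖ ^ 2)) (u y) _ (dv I (e a) u y, dv I (e a) w y)).symm
  · exact (congrArg _ (sg1_eq hu hw n a)).trans (lG_im ..).symm
  · show wd I e (fun y => sq1 (u y)) (fun y => (u y).re) a y = (lB (u y) (dv I (e a) u y)).re
    rw [wd, dv_sq1 hu h1, dv_re hu, lB_apply]; simp; ring
  · show wd I e (fun y => sq1 (u y)) (fun y => (u y).im) a y = (lB (u y) (dv I (e a) u y)).im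
    rw [wd, dv_sq1 hu h1, dv_im hu, lB_apply]; simp; ring

variable (F : Frm I e P c) {φ ψ : M → ℝ}
include F

theorem sa_wd (hφ : SA I φ y) (hψ : SA I ψ y) (a : ι) : SA I (wd I e φ ψ a) y :=
  (hφ.mul (F.sD a hψ)).add (hψ.mul (F.sD a hφ)).neg

theorem d1_dv (hφ : SA I φ y) (a b : ι) : d1 I e c (fun a => dv I (e a) φ) a b y = 0 := by
  simp only [d1, F.br a b φ y hφ, smul_eq_mul, sub_self]

theorem d1_wd (hφ : SA I φ y) (hψ : SA I ψ y) (a b : ι) : d1 I e c (wd I e φ ψ) a b y =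
    2 * (dv I (e a) φ y * dv I (e b) ψ y - dv I (e b) φ y * dv I (e a) ψ y) := by
  rw [show wd I e φ ψ = fun a y => φ y * dv I (e a) ψ y + -(ψ y * dv I (e a) φ y) from rfl,
    d1_add (fun a => hφ.mul (F.sD a hψ)) fun a => (hψ.mul (F.sD a hφ)).neg,
    d1_neg, d1_mul hφ fun a => F.sD a hψ, d1_mul hψ fun a => F.sD a hφ, d1_dv F hφ, d1_dv F hψ]
  ring

theorem pr_wd (φ ψ : M → ℝ) (a : ι) : ∑ b, P a b y * wd I e φ ψ b y = wd I e φ ψ a y := by
  have := fun φ : M → ℝ => F.projD a φ y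
  simp only [smul_eq_mul] at this
  simp only [wd, mul_add, mul_neg, mul_left_comm (P a _ y), sum_add_distrib, sum_neg_distrib,
    ← mul_sum, this]

theorem sa_mu (hu : SA I u y) (a : ι) : SA I (mu I e u a) y := sa_wd F (fsm_re hu) (fsm_im hu) a

theorem sa_nu (hw : SA I w y) (h0 : w y ≠ 0) (a : ι) : SA I (nu I e w a) y :=
  SA.mul ((sa_nsq hw).inv₀ (by simpa)) (sa_mu F hw a)

theorem sa_sg1 (hu : SA I u y) (hw : SA I w y) (h0 : w y ≠ 0) (n : ℝ) (a : ι) :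
    SA I (sg1 I e n u w a) y := (sa_mu F hu a).add (SA.mul contMDiffAt_const (sa_nu F hw h0 a))

theorem d1_nu (hw : SA I w y) (h0 : w y ≠ 0) (a b : ι) : d1 I e c (nu I e w) a b y = 0 := by
  have h1 : ‖w y‖ ^ 2 ≠ 0 := by simpa
  have k : ∀ a, dv I (e a) (fun y => (‖w y‖ ^ 2)⁻¹) y = _ := fun a =>
    dv_comp (sa_nsq hw).md (hasDerivAt_inv h1).hasFDerivAt
  rw [show nu I e w = fun a y => (‖w y‖ ^ 2)⁻¹ * mu I e w a y from rfl,
    d1_mul ((sa_nsq hw).inv₀ h1) (sa_mu F hw), k, k, mu_eq hw, mu_eq hw, mu,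
    d1_wd F (fsm_re hw) (fsm_im hw)]
  simp only [dv_nsq hw, dv_re hw, dv_im hw, lr_apply, lm_apply,
    ContinuousLinearMap.toSpanSingleton_apply, smul_eq_mul]
  rw [nsq] at h1 ⊢
  field_simp
  ring

variable (hu : SA I u y) (h1 : ‖u y‖ < 1) (n : ℝ) (h f : ℝ → ℝ)
include hu h1

theorem d1_mu (a b : ι) :
    d1 I e c (mu I e u) a b y = 2 * wq (fun i a => vG I e n h f u w i a y) 2 3 a b := by
  have h0 := (sq1_pos h1).ne'
  rw [mu, d1_wd F (fsm_re hu) (fsm_im hu)]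
  simp only [wq, vG, Matrix.cons_val, wd, dv_sq1 hu h1, dv_re hu, dv_im hu, lr_apply]
  field_simp
  linear_combination ((dv I (e b) u y).re * (dv I (e a) u y).im
    - (dv I (e a) u y).re * (dv I (e b) u y).im) * sq1 (u y) ^ 2 * sq1_sq h1

theorem d1_sg1 (hw : SA I w y) (h0 : w y ≠ 0) (a b : ι) :
    d1 I e c (sg1 I e n u w) a b y = 2 * wq (fun i a => vG I e n h f u w i a y) 2 3 a b := by
  rw [show sg1 I e n u w = fun a y => mu I e u a y + n⁻¹ * nu I e w a y from rfl,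
    d1_add (sa_mu F hu) fun a => SA.mul contMDiffAt_const (sa_nu F hw h0 a),
    d1_mul contMDiffAt_const (sa_nu F hw h0), d1_nu F hw h0, d1_mu (w := w) F hu h1 n h f]
  simp

end cz

/-- a profile at `x` -/
structure PrA (h f f1 f2 : ℝ → ℝ) (x : ℝ) : Prop where
  sh : ContDiffAt ℝ ∞ h x
  sf : ContDiffAt ℝ ∞ f x
  sf1 : ContDiffAt ℝ ∞ f1 x
  ph : 0 < h x
  pf : 0 < f x
  df : HasDerivAt f (f1 x * h x) x
  df1 : HasDerivAt f1 (f2 x * h x) x

theorem dv_x {φ : ℝ → ℝ} {d : ℝ} (hw : SA I w y) (hφ : HasDerivAt φ d (‖w y‖ ^ 2)) (X : Met55.VF I M) :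
    dv I X (fun y => φ (‖w y‖ ^ 2)) y = d * dv I X (fun y => ‖w y‖ ^ 2) y :=
  (dv_comp (sa_nsq hw).md hφ.hasFDerivAt).trans (mul_comm _ _)

/-- the structure equations of the model -/
theorem cz_of {ι : Type} [Fintype ι] {e : ι → Met55.VF I M} {P : ι → ι → M → ℝ}
    {c : ι → ι → ι → M → ℝ} (F : Frm I e P c) {o : M → R208.F.Ext E} {O : Set M} (C : Ch I o O u w)
    {n : ℝ} {h f f1 f2 : ℝ → ℝ} (h0 : ∀ y ∈ O, w y ≠ 0) (hp : ∀ y ∈ O, PrA h f f1 f2 (‖w y‖ ^ 2))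
    (on : ∀ y ∈ O, On0 (fun a b => P a b y) fun i a => vG I e n h f u w i a y) :
    Cz I e P c O (vG I e n h f u w) (fun a y => 2 * mu I e u a y) (fun y => f (‖w y‖ ^ 2))
      (fun y => f1 (‖w y‖ ^ 2)) fun y => f2 (‖w y‖ ^ 2) := by
  have sx := fun y hy => sa_nsq (C.sw y hy)
  have sh := fun y hy => (hp y hy).sh.comp_contMDiffAt (f := fun y => ‖w y‖ ^ 2) (sx y hy)
  have sf := fun y hy => (hp y hy).sf.comp_contMDiffAt (f := fun y => ‖w y‖ ^ 2) (sx y hy)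
  have s1 := fun y hy => sa_sq1 (C.su y hy) (C.lt y hy)
  have sσ := fun y hy => sa_sg1 F (C.su y hy) (C.sw y hy) (h0 y hy) n
  have df := fun y hy => dv_x (C.sw y hy) (hp y hy).df
  refine ⟨C.op, fun y hy i a => ?_, fun y hy a => SA.mul contMDiffAt_const (sa_mu F (C.su y hy) a), sf,
    fun y hy => (hp y hy).sf1.comp_contMDiffAt (f := fun y => ‖w y‖ ^ 2) (sx y hy),
    fun y hy => (hp y hy).pf.ne', on, fun y hy a => ?_, fun y hy a => (df y hy _).trans (mul_assoc ..),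
    fun y hy a => (dv_x (C.sw y hy) (hp y hy).df1 _).trans (mul_assoc ..), fun y hy a b => ?_,
    fun y hy a b => ?_, fun y hy a b => ?_, fun y hy a b => ?_, fun y hy a b => ?_⟩
  · fin_cases i
    exacts [SA.mul (sh y hy) (F.sD a (sx y hy)), SA.mul (sf y hy) (sσ y hy a),
      sa_wd F (s1 y hy) (fsm_re (C.su y hy)) a, sa_wd F (s1 y hy) (fsm_im (C.su y hy)) a]
  · simp only [mul_left_comm (P a _ y), ← mul_sum, mu, pr_wd F]
  · have := dv_x (C.sw y hy) ((hp y hy).sh.differentiableAt (by simp)).hasDerivAt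
    refine (d1_mul (sh y hy) (fun a => F.sD a (sx y hy)) a b).trans ?_
    rw [d1_dv F (sx y hy)]
    erw [this, this]
    ring
  · have := (hp y hy).pf.ne'
    refine (d1_mul (sf y hy) (sσ y hy) a b).trans ?_
    rw [d1_sg1 F (C.su y hy) (C.lt y hy) n h f (C.sw y hy) (h0 y hy)]
    erw [df y hy, df y hy]
    simp only [wq, vG, Matrix.cons_val, Function.comp]
    field_simp
  · have := (sq1_pos (C.lt y hy)).ne'
    refine (d1_wd F (s1 y hy) (fsm_re (C.su y hy)) a b).trans ?_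
    simp only [vG, Matrix.cons_val, mu, wd, dv_sq1 (C.su y hy) (C.lt y hy), dv_re (C.su y hy),
      dv_im (C.su y hy), lr_apply]
    field_simp
    linear_combination (-(u y).im * ((dv I (e a) u y).re * (dv I (e b) u y).im
      - (dv I (e b) u y).re * (dv I (e a) u y).im)) * sq1_sq (C.lt y hy)
  · have := (sq1_pos (C.lt y hy)).ne'
    refine (d1_wd F (s1 y hy) (fsm_im (C.su y hy)) a b).trans ?_
    simp only [vG, Matrix.cons_val, mu, wd, dv_sq1 (C.su y hy) (C.lt y hy), dv_re (C.su y hy),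
      dv_im (C.su y hy), lr_apply]
    field_simp
    linear_combination ((u y).re * ((dv I (e a) u y).re * (dv I (e b) u y).im
      - (dv I (e b) u y).re * (dv I (e a) u y).im)) * sq1_sq (C.lt y hy)
  · rw [d1_mul contMDiffAt_const (sa_mu F (C.su y hy)), d1_mu (w := w) F (C.su y hy) (C.lt y hy) n h f]
    simp; ring

end Crest.Agent.X212.Lns95
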