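import Crest.Agent.X212.Wz78.Var
import Crest.Agent.X212.Wz78.On

/-!
# X212 / LENS (helper95), part Car: Cartan's structure equations in a spanning frame

`cartan1`, `cartan2` for a local orthonormal coframe `U`; `Cz` (the coframe `dr, f σ₁, σ₂, σ₃`) and its
curvature `Cz.rm`.
-/

open scoped Manifold ContDiff Topology
open Finset Filter

set_option autoImplicit false
set_option linter.unusedSectionVars false

noncomputable section
namespace Crest.Agent.X212.Lns95
open Sob92 Wz78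

variable {E H : Type*} [NormedAddCommGroup E] [NormedSpace ℝ E] [TopologicalSpace H]
  {I : ModelWithCorners ℝ E H} {M : Type*} [TopologicalSpace M] [ChartedSpace H M]
  {ι : Type*} [Fintype ι] [IsManifold I 1 M]

variable (I) in
/-- covariant derivative of a one-form -/
def cv0 (e : ι → (x : M) → TangentSpace I x) (Γ : ι → ι → ι → M → ℝ) (θ : ι → M → ℝ) (a b : ι)
    (x : M) : ℝ := dv I (e a) (θ b) x - ∑ k, Γ a b k x * θ k x

/-- `U i ∧ U j` -/
def wq (U : Fin 4 → ι → ℝ) (i j : Fin 4) (a b : ι) : ℝ := U i a * U j b - U i b * U j a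

variable {e : ι → (x : M) → TangentSpace I x} {P : ι → ι → M → ℝ}
  {c Γ : ι → ι → ι → M → ℝ} {x : M} {U : Fin 4 → ι → M → ℝ}

theorem on_PU {P : ι → ι → ℝ} {U : Fin 4 → ι → ℝ} (h : On0 P U) (i : Fin 4) (a : ι) :
    ∑ b, P a b * U i b = U i a := by
  rw [← h.UP i a]
  exact sum_congr rfl fun b _ => by rw [← h.pr a b, ← h.pr b a, mul_comm]; simp only [mul_comm]

theorem cv0_skew (L : LC I e P c Γ) {θ : ι → M → ℝ} (hp : ∀ k, ∑ l, P k l x * θ l x = θ k x)
    (a b : ι) : cv0 I e Γ θ a b x - cv0 I e Γ θ b a x = d1 I e c θ a b x := by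
  have := L.cD (x := x) a b (T := fun k => θ k x) hp
  simp only [smul_eq_mul] at this
  simp only [cv0, d1, smul_eq_mul, this]; ring

theorem cv0_p1 (L : LC I e P c Γ) (F : Frm I e P c) (S : Sep I e P) (θ : ι → M → ℝ) (j b : ι) :
    ∑ a, P j a x * cv0 I e Γ θ a b x = cv0 I e Γ θ j b x := by
  have h1 := F.projD j (θ b) x
  simp only [smul_eq_mul] at h1
  simp only [cv0, mul_sub, sum_sub_distrib, h1, mul_sum]
  rw [sum_comm]
  congr 1
  exact sum_congr rfl fun k _ => by rw [← L.proj1 F S j b k x, sum_mul]; simp only [mul_assoc]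

theorem cv0_p2 (L : LC I e P c Γ) (F : Frm I e P c) {θ : ι → M → ℝ} (hs : ∀ a, SA I (θ a) x)
    (hp : ∀ᶠ y in 𝓝 x, ∀ k, ∑ l, P k l y * θ l y = θ k y) (a l : ι) :
    ∑ b, P l b x * cv0 I e Γ θ a b x = cv0 I e Γ θ a l x := by
  have h1 : dv I (e a) (θ l) x = ∑ b, (dv I (e a) (P l b) x * θ b x + P l b x * dv I (e a) (θ b) x) := by
    rw [dv_congr (v := fun y => ∑ b, P l b y * θ b y) (hp.mono fun y hy => (hy l).symm),
      dv_sum' _ fun b => (F.sP l b x).mul (hs b)]
    exact sum_congr rfl fun b _ => dv_mul (F.sP l b x) (hs b)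
  have h2 : ∑ b, P l b x * ∑ k, Γ a b k x * θ k x
      = ∑ k, Γ a l k x * θ k x - ∑ m, dv I (e a) (P l m) x * θ m x := by
    simp only [mul_sum]
    rw [sum_comm]
    have : ∀ k, ∑ b, P l b x * (Γ a b k x * θ k x)
        = Γ a l k x * θ k x - ∑ m, dv I (e a) (P l m) x * (P m k x * θ k x) := fun k => by
      simp only [← mul_assoc]
      rw [← sum_mul, L.proj2 F, sub_mul, sum_mul]
    simp only [this, sum_sub_distrib]
    rw [sum_comm]
    simp only [← mul_sum, hp.self_of_nhds]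
  simp only [cv0, mul_sub, sum_sub_distrib, h2, h1, sum_add_distrib]; ring

/-- the first structure equation determines the connection -/
theorem cartan1 (L : LC I e P c Γ) (F : Frm I e P c) (S : Sep I e P) (hU : ∀ i a, SA I (U i a) x)
    (hon : ∀ᶠ y in 𝓝 x, On0 (fun a b => P a b y) fun i a => U i a y)
    {w : Fin 4 → Fin 4 → ι → ℝ} (hs : ∀ i j a, w i j a = -w j i a)
    (hp : ∀ i j a, ∑ b, P a b x * w i j b = w i j a)
    (hd : ∀ i a b, d1 I e c (U i) a b x = -∑ j, (w i j a * U j b x - w i j b * U j a x))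
    (i : Fin 4) (a b : ι) : cv0 I e Γ (U i) a b x = -∑ j, w i j a * U j b x := by
  have h0 := hon.self_of_nhds
  set D : Fin 4 → ι → ι → ℝ := fun i a b => cv0 I e Γ (U i) a b x + ∑ j, w i j a * U j b x with hD
  have sy : ∀ i a b, D i a b = D i b a := fun i a b => by
    have := cv0_skew L (θ := U i) (on_PU h0 i) a b
    rw [hd, sum_sub_distrib] at this
    simp only [hD]; linarith
  have p1 : ∀ i b a, ∑ k, P a k x * D i k b = D i a b := fun i b a => by
    simp only [hD, mul_add, sum_add_distrib, cv0_p1 L F S, mul_sum]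
    rw [sum_comm]
    simp only [← mul_assoc, ← sum_mul, hp]
  have sk : ∀ i j a, ∑ b, U j b x * D i a b = -∑ b, U i b x * D j a b := fun i j a => by
    have e1 : ∀ i j, ∑ b, U j b x * ∑ k, w i k a * U k b x = w i j a := fun i j => by
      simp only [mul_sum]
      rw [sum_comm]
      have : ∀ k, ∑ b, U j b x * (w i k a * U k b x) = w i k a * if j = k then 1 else 0 := fun k => by
        rw [← h0.on j k, mul_sum]; exact sum_congr rfl fun b _ => by ring
      simp [this]
    have e2 : ∑ b, (dv I (e a) (U i b) x * U j b x + U i b x * dv I (e a) (U j b) x) = 0 := by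
      have : dv I (e a) (fun y => ∑ b, U i b y * U j b y) x = 0 := by
        rw [dv_congr (v := fun _ => if i = j then (1 : ℝ) else 0) (hon.mono fun y hy => hy.on i j)]
        simp
      rw [dv_sum' _ fun b => (hU i b).mul (hU j b)] at this
      rw [← this]
      exact sum_congr rfl fun b _ => (dv_mul (hU i b) (hU j b)).symm
    have e3 := F.dP_zero a x (T := fun b k => U j b x * U i k x)
      (fun b k => by simp only [smul_eq_mul, ← mul_assoc, ← sum_mul, on_PU h0])
      fun b k => by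
        simp only [smul_eq_mul, mul_left_comm _ (U j b x), ← mul_sum, on_PU h0]
    simp only [L.met, smul_eq_mul, add_mul, sum_add_distrib] at e3
    have e4 : ∑ b, ∑ k, Γ a k b x * (U j b x * U i k x) = ∑ b, U i b x * ∑ k, Γ a b k x * U j k x := by
      rw [sum_comm]
      simp only [mul_sum]
      exact sum_congr rfl fun b _ => sum_congr rfl fun k _ => by ring
    have e5 : ∑ b, ∑ k, Γ a b k x * (U j b x * U i k x) = ∑ b, U j b x * ∑ k, Γ a b k x * U i k x := by
      simp only [mul_sum]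
      exact sum_congr rfl fun b _ => sum_congr rfl fun k _ => by ring
    simp only [hD, cv0, mul_add, mul_sub, sum_add_distrib, sum_sub_distrib, e1, hs j i a] at e2 ⊢
    simp only [mul_comm (dv I (e a) (U i _) x)] at e2
    linarith
  set τ : Fin 4 → Fin 4 → Fin 4 → ℝ := fun i j k => ∑ a, U k a x * ∑ b, U j b x * D i a b with hτ
  have t1 : ∀ i j k, τ i j k = -τ j i k := fun i j k => by
    simp only [hτ, sk i j, mul_neg, sum_neg_distrib]
  have t2 : ∀ i j k, τ i j k = τ i k j := fun i j k => by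
    simp only [hτ, mul_sum]
    rw [sum_comm]
    exact sum_congr rfl fun a _ => sum_congr rfl fun b _ => by rw [sy i b a]; ring
  have t0 : ∀ i j k, τ i j k = 0 := fun i j k => by
    linarith [t1 i j k, t2 j i k, t1 j k i, t2 k j i, t1 k i j, t2 i k j]
  have z1 : ∀ i j a, ∑ b, U j b x * D i a b = 0 := fun i j a => by
    rw [h0.exp (g := fun a => ∑ b, U j b x * D i a b) (fun a => by
      simp only [mul_sum]
      rw [sum_comm]
      simp only [mul_left_comm (P a _ x), ← mul_sum, p1]) a]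
    exact sum_eq_zero fun k _ => by rw [show ∑ a, U k a x * _ = τ i j k from rfl, t0, mul_zero]
  have : D i a b = 0 := by
    rw [h0.exp (g := fun b => D i a b) (fun b => by simp only [sy i a, p1]) b]
    simp [z1]
  simp only [hD] at this
  linarith

/-- the second structure equation -/
theorem cartan2 (L : LC I e P c Γ) (F : Frm I e P c) (hU : ∀ i a, SA I (U i a) x)
    (h0 : On0 (fun a b => P a b x) fun i a => U i a x) {w : Fin 4 → Fin 4 → ι → M → ℝ}
    (hw : ∀ i j a, SA I (w i j a) x)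
    (hc : ∀ᶠ y in 𝓝 x, ∀ i a b, cv0 I e Γ (U i) a b y = -∑ j, w i j a y * U j b y)
    (a b m l : ι) : Rm I e c Γ a b m l x = ∑ i, ∑ j, (d1 I e c (w i j) a b x
      + ∑ k, (w i k a x * w k j b x - w i k b x * w k j a x)) * U j m x * U i l x := by
  have h1 := hc.self_of_nhds
  rw [h0.exp (g := fun l => Rm I e c Γ a b m l x) (fun l => by
    rw [← L.Rm_p4 F a b m l x]
    exact sum_congr rfl fun k _ => by rw [(F.pr x).symm l k, mul_comm]) l]
  refine sum_congr rfl fun i _ => ?_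
  rw [← sum_mul, mul_comm]
  congr 1
  have r := L.ricci F (A := fun _ _ => (0 : ℝ →L[ℝ] ℝ)) (fun _ => contMDiffAt_const) (θ := U i) (hU i)
    (on_PU h0 i) a b m
  have cv : ∀ a b, cov I e Γ (fun _ _ => (0 : ℝ →L[ℝ] ℝ)) (U i) a b = cv0 I e Γ (U i) a b :=
    fun a b => funext fun y => by simp [cov, cv0, nab]
  have dd : ∀ a b, dv I (e a) (cv0 I e Γ (U i) b m) x = -∑ j, (dv I (e a) (w i j b) x * U j m x
      + w i j b x * (∑ k, Γ a m k x * U j k x - ∑ k, w j k a x * U k m x)) := fun a b => by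
    rw [dv_congr (v := -fun y => ∑ j, w i j b y * U j m y) (hc.mono fun y hy => hy i b m), dv_neg,
      dv_sum' _ fun j => (hw i j b).mul (hU j m)]
    congr 1
    refine sum_congr rfl fun j _ => ?_
    have := h1 j a m
    rw [dv_mul (hw i j b) (hU j m), show dv I (e a) (U j m) x = _ from eq_add_of_sub_eq this]
    ring
  have g1 : ∀ a b, ∑ k, Γ a m k x * ∑ j, w i j b x * U j k x
      = ∑ j, w i j b x * ∑ k, Γ a m k x * U j k x := fun a b => by
    simp only [mul_sum]
    rw [sum_comm]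
    exact sum_congr rfl fun _ _ => sum_congr rfl fun _ _ => by ring
  have g2 : ∑ k, c a b k x * ∑ j, w i j k x * U j m x = ∑ j, (∑ k, c a b k x * w i j k x) * U j m x := by
    simp only [mul_sum, sum_mul, mul_assoc]
    rw [sum_comm]
  have g3 : ∀ a b, ∑ j, w i j b x * ∑ k, w j k a x * U k m x
      = ∑ j, (∑ k, w i k b x * w k j a x) * U j m x := fun a b => by
    simp only [mul_sum, sum_mul, mul_assoc]
    rw [sum_comm]
  simp only [curv_zero, cv, nab_zero, dd, h1, smul_eq_mul, zero_apply, mul_neg,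
    sum_sub_distrib, sum_neg_distrib, sum_add_distrib, mul_sub, g1, g2, g3] at r
  simp only [d1, smul_eq_mul, add_mul, sub_mul, sum_sub_distrib, sum_add_distrib, mul_comm (U i _ x)]
  linarith

theorem d1_mul {φ : M → ℝ} {θ : ι → M → ℝ} (hφ : SA I φ x) (hθ : ∀ a, SA I (θ a) x) (a b : ι) :
    d1 I e c (fun a y => φ y * θ a y) a b x
      = dv I (e a) φ x * θ b x - dv I (e b) φ x * θ a x + φ x * d1 I e c θ a b x := by
  simp only [d1, dv_mul hφ (hθ _), smul_eq_mul, mul_sub, mul_sum, mul_left_comm (c a b _ x)]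
  ring

theorem d1_neg (θ : ι → M → ℝ) (a b : ι) :
    d1 I e c (fun a y => -θ a y) a b x = -d1 I e c θ a b x := by
  have : ∀ a b, dv I (e a) (fun y => -θ b y) x = -dv I (e a) (θ b) x := fun a b => dv_neg (θ b) x
  simp only [d1, this, smul_eq_mul, mul_neg, sum_neg_distrib]
  ring

theorem d1_add {θ θ' : ι → M → ℝ} (h : ∀ a, SA I (θ a) x) (h' : ∀ a, SA I (θ' a) x) (a b : ι) :
    d1 I e c (fun a y => θ a y + θ' a y) a b x = d1 I e c θ a b x + d1 I e c θ' a b x := by
  have : ∀ a b, dv I (e a) (fun y => θ b y + θ' b y) x = dv I (e a) (θ b) x + dv I (e a) (θ' b) x :=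
    fun a b => dv_add' (h b) (h' b)
  simp only [d1, this, smul_eq_mul, mul_add, sum_add_distrib]
  ring

theorem d1_zero (a b : ι) : d1 I e c (fun _ _ => (0 : ℝ)) a b x = 0 := by simp [d1]

variable (I e P c) in
/-- the coframe `dr, f σ₁, σ₂, σ₃` on the open set `O`, the last two rotated; `f1 = f'`, `f2 = f''`,
`κ` is the connection form of the base -/
structure Cz (O : Set M) (U : Fin 4 → ι → M → ℝ) (κ : ι → M → ℝ) (f f1 f2 : M → ℝ) : Prop where
  op : IsOpen O
  sU : ∀ y ∈ O, ∀ i a, SA I (U i a) y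
  sk : ∀ y ∈ O, ∀ a, SA I (κ a) y
  sf : ∀ y ∈ O, SA I f y
  sf1 : ∀ y ∈ O, SA I f1 y
  ne : ∀ y ∈ O, f y ≠ 0
  on : ∀ y ∈ O, On0 (fun a b => P a b y) fun i a => U i a y
  pk : ∀ y ∈ O, ∀ a, ∑ b, P a b y * κ b y = κ a y
  df : ∀ y ∈ O, ∀ a, dv I (e a) f y = f1 y * U 0 a y
  df1 : ∀ y ∈ O, ∀ a, dv I (e a) f1 y = f2 y * U 0 a y
  d0 : ∀ y ∈ O, ∀ a b, d1 I e c (U 0) a b y = 0
  d1' : ∀ y ∈ O, ∀ a b, d1 I e c (U 1) a b y
    = f1 y / f y * wq (fun i a => U i a y) 0 1 a b + 2 * f y * wq (fun i a => U i a y) 2 3 a b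
  d2 : ∀ y ∈ O, ∀ a b, d1 I e c (U 2) a b y = U 3 a y * κ b y - U 3 b y * κ a y
  d3 : ∀ y ∈ O, ∀ a b, d1 I e c (U 3) a b y = κ a y * U 2 b y - κ b y * U 2 a y
  dk : ∀ y ∈ O, ∀ a b, d1 I e c κ a b y = 4 * wq (fun i a => U i a y) 2 3 a b

/-- the connection forms -/
def cn (U : Fin 4 → ι → M → ℝ) (κ : ι → M → ℝ) (f f1 : M → ℝ) : Fin 4 → Fin 4 → ι → M → ℝ :=
  ![![fun _ _ => 0, fun a y => -(f1 y / f y * U 1 a y), fun _ _ => 0, fun _ _ => 0],
    ![fun a y => f1 y / f y * U 1 a y, fun _ _ => 0, fun a y => f y * U 3 a y,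
      fun a y => -(f y * U 2 a y)],
    ![fun _ _ => 0, fun a y => -(f y * U 3 a y), fun _ _ => 0, fun a y => κ a y + -(f y * U 1 a y)],
    ![fun _ _ => 0, fun a y => f y * U 2 a y, fun a y => -(κ a y + -(f y * U 1 a y)), fun _ _ => 0]]

/-- the curvature tensor of the model; `u = -f''/f` -/
def rmL (U : Fin 4 → ι → ℝ) (f f1 u : ℝ) (a b m l : ι) : ℝ :=
  -((u * wq U 0 1 a b - 2 * f1 * wq U 2 3 a b) * wq U 0 1 m l + f1 * wq U 3 1 a b * wq U 0 2 m l
    + f1 * wq U 1 2 a b * wq U 0 3 m l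
    + ((4 - 3 * f ^ 2) * wq U 2 3 a b - 2 * f1 * wq U 0 1 a b) * wq U 2 3 m l
    + (f1 * wq U 0 2 a b + f ^ 2 * wq U 3 1 a b) * wq U 3 1 m l
    + (f1 * wq U 0 3 a b + f ^ 2 * wq U 1 2 a b) * wq U 1 2 m l)

namespace Cz
variable {O : Set M} {κ : ι → M → ℝ} {f f1 f2 : M → ℝ} (h : Cz I e P c O U κ f f1 f2) (hx : x ∈ O)
include h hx

theorem s_inv : SA I (fun y => (f y)⁻¹) x := (h.sf x hx).inv₀ (h.ne x hx)

theorem d_inv (a : ι) : dv I (e a) (fun y => (f y)⁻¹) x = -(f1 x / f x ^ 2) * U 0 a x := by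
  have h1 : dv I (e a) (fun y => f y * (f y)⁻¹) x = 0 := by
    rw [dv_congr (v := fun _ => (1 : ℝ)) (eventually_of_mem (h.op.mem_nhds hx) fun y hy =>
      mul_inv_cancel₀ (h.ne y hy))]
    simp
  rw [dv_mul (h.sf x hx) (h.s_inv hx), h.df x hx] at h1
  have := h.ne x hx
  field_simp at h1 ⊢
  linarith

theorem s_a : SA I (fun y => f1 y / f y) x := (h.sf1 x hx).mul (h.s_inv hx)

theorem d_a (a : ι) :
    dv I (e a) (fun y => f1 y / f y) x = (f2 x / f x - f1 x ^ 2 / f x ^ 2) * U 0 a x := by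
  rw [show (fun y => f1 y / f y) = fun y => f1 y * (f y)⁻¹ from rfl,
    dv_mul (h.sf1 x hx) (h.s_inv hx), h.df1 x hx, h.d_inv hx]
  ring

theorem s_m (a : ι) : SA I (fun y => -(f y * U 1 a y)) x := ((h.sf x hx).mul (h.sU x hx 1 a)).neg

theorem s_cn (i j : Fin 4) (a : ι) : SA I (cn U κ f f1 i j a) x := by
  have h1 := (h.s_a hx).mul (h.sU x hx 1 a)
  have h2 := (h.sf x hx).mul (h.sU x hx 2 a)
  have h3 := (h.sf x hx).mul (h.sU x hx 3 a)
  have h4 := (h.sk x hx a).add (h.s_m hx a)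
  fin_cases i <;> fin_cases j
  exacts [contMDiffAt_const, h1.neg, contMDiffAt_const, contMDiffAt_const, h1, contMDiffAt_const,
    h3, h2.neg, contMDiffAt_const, h3.neg, contMDiffAt_const, h4, contMDiffAt_const, h2, h4.neg,
    contMDiffAt_const]

/-- the covariant derivatives of the coframe -/
theorem cv (L : LC I e P c Γ) (F : Frm I e P c) (S : Sep I e P) (i : Fin 4) (a b : ι) :
    cv0 I e Γ (U i) a b x = -∑ j, cn U κ f f1 i j a x * U j b x := by
  have h0 := h.on x hx
  refine cartan1 L F S (h.sU x hx) (eventually_of_mem (h.op.mem_nhds hx) h.on)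
    (w := fun i j a => cn U κ f f1 i j a x) (fun i j a => ?_) (fun i j a => ?_) (fun i a b => ?_) i a b
  · fin_cases i <;> fin_cases j <;> simp [cn]
  · have k : ∀ (r : ℝ) i, ∑ b, P a b x * (r * U i b x) = r * U i a x := fun r i => by
      simp only [mul_left_comm (P a _ x), ← mul_sum, on_PU h0]
    fin_cases i <;> fin_cases j <;>
      simp [cn, k, mul_add, sum_add_distrib, h.pk x hx]
  · have := h.ne x hx
    fin_cases i
    · simp [cn, h.d0 x hx, Fin.sum_univ_four]; ring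
    · simp [cn, h.d1' x hx, Fin.sum_univ_four, wq]; ring
    · simp [cn, h.d2 x hx, Fin.sum_univ_four]; ring
    · simp [cn, h.d3 x hx, Fin.sum_univ_four]; ring

/-- the curvature -/
theorem rm (L : LC I e P c Γ) (F : Frm I e P c) (S : Sep I e P) (a b m l : ι) :
    Rm I e c Γ a b m l x = rmL (fun i a => U i a x) (f x) (f1 x) (-f2 x / f x) a b m l := by
  rw [cartan2 L F (h.sU x hx) (h.on x hx) (h.s_cn hx)
    (eventually_of_mem (h.op.mem_nhds hx) fun y hy => h.cv hy L F S)]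
  have := h.ne x hx
  simp only [Fin.sum_univ_four, cn, Matrix.cons_val, d1_neg, d1_zero,
    d1_mul (h.s_a hx) (h.sU x hx 1), d1_add (h.sk x hx) (h.s_m hx),
    d1_mul (h.sf x hx) (h.sU x hx _), h.d_a hx, h.df x hx, h.d1' x hx, h.d2 x hx,
    h.d3 x hx, h.dk x hx, wq, rmL]
  field_simp
  ring

end Cz

end Crest.Agent.X212.Lns95
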