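import Crest.Agent.X212.Lns95.Cof
import Crest.Agent.X212.Met55.Trf

/-!
# X212 / LENS (helper95), part Lv: transport of `Dsc`, the lens band `LB`, the leaves NECK, MET, LIN
-/

open scoped Manifold ContDiff Topology
open Set Function

set_option autoImplicit false
set_option linter.unusedSectionVars false

noncomputable section
namespace Crest.Agent.X212.Lns95
open Crest.Agent.R208.F (Ext io pb_io)
open Glue52 (dir)
open Rod53 (S3')
open Met55 (VF Co atx)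
open Line51 (Ln dc dc_comp md_of)
open Dr59 (mf pm)
open Int54 (SameOn)
open Cyf70 (IC ce)
open M (Mf Band Bas LBas)

section
variable {E H : Type} [NormedAddCommGroup E] [NormedSpace ℝ E] [FiniteDimensional ℝ E]
  [MeasurableSpace E] [BorelSpace E] [TopologicalSpace H] {I : ModelWithCorners ℝ E H} {M : Type} [TopologicalSpace M] [ChartedSpace H M]
  [IsManifold I ∞ M] [I.Boundaryless] [MeasurableSpace M] [BorelSpace M]
  {E' H' : Type} [NormedAddCommGroup E'] [NormedSpace ℝ E'] [FiniteDimensional ℝ E']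
  [MeasurableSpace E'] [BorelSpace E'] [TopologicalSpace H'] {J : ModelWithCorners ℝ E' H'} {Y : Type} [TopologicalSpace Y]
  [ChartedSpace H' Y] [IsManifold J ∞ Y] [J.Boundaryless] [MeasurableSpace Y] [BorelSpace Y]
  {o : M → Ext E} {n : ℕ} {N : Set M} {u w : M → ℂ}

variable (I) in
/-- the potential `ψ Im (conj u du) + q Im (conj w dw)` -/
def al (ψ q : ℝ → ℝ) (u w : M → ℂ) (y : M) : Ext E :=
  io (ψ (‖w y‖ ^ 2) • lm (u y) ∘ₗ (dc I u y : E →ₗ[ℝ] ℂ) + q (‖w y‖ ^ 2) • lm (w y) ∘ₗ (dc I w y : E →ₗ[ℝ] ℂ))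

variable (I) in
/-- the potential `μ (f₁ σ₁ - d arg w)` -/
def Prf.al (P : Prf n) (μ : ℝ) : (u w : M → ℂ) → M → Ext E :=
  Lns95.al I (fun x => μ * (n + x * P.p3 x)) fun x => μ * P.p3 x / n

/-- the cometric of `v` is the model with `dr = h dx` -/
def Dsc.MV (D : Dsc I o n N) (P : Prf n) (h : ℝ → ℝ) {ι : Type} [Fintype ι] (v : M → ι → E) : Prop :=
  ∀ b, ∀ y ∈ D.O b, D.w b y ≠ 0 →
    Onv (cvG I n (h (‖D.w b y‖ ^ 2)) (P.f (‖D.w b y‖ ^ 2)) (D.u b) (D.w b) y) (v y)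

theorem cvG_comp {f : Y → M} {y : Y} (hf : MDifferentiableAt J I f y) (hu : Pj41.FSm I u (f y))
    (hw : Pj41.FSm I w (f y)) (n h g : ℝ) (i : Fin 4) (v : E') :
    cvG J n h g (u ∘ f) (w ∘ f) y i v = cvG I n h g u w (f y) i (mf J I f y v) := by
  have a : dc J (u ∘ f) y v = _ := dc_comp hu hf v
  have b : dc J (w ∘ f) y v = _ := dc_comp hw hf v
  fin_cases i <;> simp [cvG, l4, dP, a, b]

theorem pm_al {f : Y → M} {y : Y} (hf : MDifferentiableAt J I f y) (hu : Pj41.FSm I u (f y))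
    (hw : Pj41.FSm I w (f y)) (ψ q : ℝ → ℝ) :
    pm J I f (al I ψ q u w) y = al J ψ q (u ∘ f) (w ∘ f) y := by
  rw [Dr59.pm_apply, al, pb_io, al]
  congr 1
  ext v
  have a : dc J (u ∘ f) y v = _ := dc_comp hu hf v
  have b : dc J (w ∘ f) y v = _ := dc_comp hw hf v
  simp [a, b]

variable (D : Dsc I o n N) (φ : PartialDiffeomorph I J M Y ∞) (hN : N ⊆ φ.source)

theorem Dsc.sub (b : Bool) : D.O b ⊆ N := fun y hy => (D.cov y).2 ⟨b, hy⟩

include hN in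
theorem Dsc.pre {b : Bool} {z : Y} (hz : z ∈ φ '' D.O b) : φ.symm z ∈ D.O b ∧ z ∈ φ.target := by
  obtain ⟨y, hy, rfl⟩ := hz
  exact ⟨(φ.left_inv (hN (D.sub b hy))).symm ▸ hy, φ.map_source (hN (D.sub b hy))⟩

/-- transport along a partial diffeomorphism -/
def Dsc.push {o' : Y → Ext E'} (ho : SameOn o (pm I J φ o') N) : Dsc J o' n (φ '' N) where
  O b := φ '' D.O b
  u b := D.u b ∘ φ.symm
  w b := D.w b ∘ φ.symm
  ch b := by
    have c := D.ch b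
    have s : ∀ z ∈ φ '' D.O b, ContMDiffAt J I ∞ φ.symm z := fun z hz =>
      (Met55.pd_ld' (D.pre φ hN hz).2).contMDiffAt
    refine ⟨φ.toOpenPartialHomeomorph.isOpen_image_of_subset_source c.op ((D.sub b).trans hN),
      fun z hz => (c.su _ (D.pre φ hN hz).1).comp z (s z hz),
      fun z hz => (c.sw _ (D.pre φ hN hz).1).comp z (s z hz), fun z hz => c.lt _ (D.pre φ hN hz).1,
      fun z hz => ?_⟩
    have k := D.pre φ hN hz
    have e := Dr59.pm_comp (a := Orx52.oV)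
      (((c.su _ k.1).prodMk_space (c.sw _ k.1)).mdifferentiableAt (by simp))
      ((s z hz).mdifferentiableAt (by simp))
    have p1 : SameOn (pm J I φ.symm (pm I Rod53.IV (fun y => (D.u b y, D.w b y)) Orx52.oV))
        (pm J I φ.symm o) (φ '' D.O b) :=
      SameOn.pm c.pos (fun z hz => Met55.pd_ld' (D.pre φ hN hz).2) fun z hz => (D.pre φ hN hz).1
    have p2 : SameOn (pm J I φ.symm o) o' (φ '' D.O b) :=
      Orx52.Pos.symm (SameOn.symm (ho.mono (D.sub b))) ((D.sub b).trans hN)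
    exact (p1.trans p2 z hz).trans_eq (by rw [e]; rfl)
  cov z := ⟨fun ⟨y, hy, e⟩ => ((D.cov y).1 hy).imp fun _ h => ⟨y, h, e⟩,
    fun ⟨b, y, hy, e⟩ => ⟨y, D.sub b hy, e⟩⟩
  ne b z hz := D.ne b _ ⟨(D.pre φ hN hz.1).1, (D.pre φ hN hz.2).1⟩
  nrm z hz := D.nrm _ ⟨(D.pre φ hN hz.1).1, (D.pre φ hN hz.2).1⟩
  du z hz := D.du _ ⟨(D.pre φ hN hz.1).1, (D.pre φ hN hz.2).1⟩
  tw z hz := D.tw _ ⟨(D.pre φ hN hz.1).1, (D.pre φ hN hz.2).1⟩

end

/-- a band whose side `false` is the disc bundle; `e` is the round frame of the lens space -/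
structure LB (X : Mf 4) (o : X.M → Ext X.E) (n : ℕ) (B : Band X) {κ : Type} [Fintype κ]
    (e : κ → VF B.Y.I B.Y.M) where
  D : Dsc X.I o n (B.wall.sd false)
  c : S3' → B.Y.M
  g : ℝ → ℝ
  P : Prf n
  n0 : n ≠ 0
  ld : IsLocalDiffeomorph (𝓡 3) B.Y.I ∞ c
  sj : Surjective c
  rc : RC B.Y.I c e
  band : D.Band B.j c g
  fl : ∀ s x, g s ≤ x → P.f x = 1 ∧ P.f1 x = 0 ∧ P.f2 x = 0
  hH : ∀ s ∈ Icc (-3 : ℝ) 0, P.H (g s) * deriv g s = 1

/-- NECK: the model coframe on the neck -/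
def NeckStmt : Prop := ∀ (X : Mf 4) (o : X.M → Ext X.E) (n : ℕ) (B : Band X) (κ : Type) [Fintype κ]
  (e : κ → VF B.Y.I B.Y.M) (L : LB X o n B e) (h : ℝ) (b : Bool) (q : B.Y.M × ℝ),
  q.2 ∈ Ioo (-3 : ℝ) 0 → B.j q ∈ L.D.O b → ‖L.D.w b (B.j q)‖ ^ 2 = L.g q.2 ∧
    (∀ i, cvG X.I n h 1 (L.D.u b) (L.D.w b) (B.j q) i (mf (IC B.Y.I) X.I B.j q (atx (ce e) q none)) =
      if i = 0 then h * deriv L.g q.2 else 0) ∧
    ∀ i i', ∑ k, cvG X.I n h 1 (L.D.u b) (L.D.w b) (B.j q) i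
        (mf (IC B.Y.I) X.I B.j q (atx (ce e) q (some k))) *
      cvG X.I n h 1 (L.D.u b) (L.D.w b) (B.j q) i' (mf (IC B.Y.I) X.I B.j q (atx (ce e) q (some k))) =
        if i = i' ∧ i ≠ 0 then 1 else 0

/-- MET: the base metric -/
def MetStmt : Prop := ∀ (X : Mf 4) [CompactSpace X.M] (o : X.M → Ext X.E) (n : ℕ) (B : Band X) (κ : Type)
  [Fintype κ] (F : An.Fr B.Y.I B.Y.M κ) (L : LB X o n B F.e), ∃ r : Bas X univ, (∀ u, r.r u = r.r 0) ∧
    L.D.MV L.P L.P.H (atx (r.r 0)) ∧ ∀ q : B.Y.M × ℝ, -3 < q.2 → q.2 ≤ 1 →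
      Co (fun i => mf (IC B.Y.I) X.I B.j q (atx (ce F.e) q i)) (atx (r.r 0) (B.j q))

/-- two lines that agree on the band -/
structure LL {X : Mf 4} {o : X.M → Ext X.E} {n : ℕ} {B : Band X} {κ : Type} [Fintype κ]
    {e : κ → VF B.Y.I B.Y.M} (L : LB X o n B e) {lam : Type} [Fintype lam]
    (p : Bool → X.M → Matrix lam lam ℂ) (k : Bool → ℤ) (nA : B.Y.M × ℝ → Ext (B.Y.E × ℝ)) where
  S : ∀ σ, LD B.Y.I L.D (p σ) (k σ) B.j nA
  i : ℤ
  hk : k true = k false + i * n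
  rel : ∀ b q, q.2 < 0 → B.j q ∈ L.D.O b → (S true).s b (B.j q) =
    (S false).s b (B.j q) * Line51.sc (fun y => dir (L.D.w b y) ^ i) (B.j q)

/-- LIN: the base connections -/
def LinStmt : Prop := ∀ (X : Mf 4) (o : X.M → Ext X.E) (n : ℕ) (B : Band X) (κ : Type) [Fintype κ]
  (e : κ → VF B.Y.I B.Y.M) (L : LB X o n B e) (lam : Type) [Fintype lam]
  (p : Bool → X.M → Matrix lam lam ℂ) (k : Bool → ℤ) (nA : B.Y.M × ℝ → Ext (B.Y.E × ℝ)) (S : LL L p k nA),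
  Dr59.Sm (IC B.Y.I) (univ ×ˢ Ioo (-3) 3) nA → Dr59.Dg 1 univ nA →
  ∃ a : Bool → LBas X univ, (∀ σ u, (a σ).b u = (a σ).b 0) ∧
    (∀ σ b, Ln.Fr X.I ⟨p σ, (a σ).b 0⟩ ((S.S σ).s b)
      (L.P.al X.I (-(k σ) / n) (L.D.u b) (L.D.w b)) (L.D.O b)) ∧
    (∀ σ (q : B.Y.M × ℝ), -3 < q.2 → q.2 ≤ 1 → pm (IC B.Y.I) X.I B.j ((a σ).b 0) q = nA q) ∧
    EqOn ((a true).b 0) ((a false).b 0) (B.wall.sd true ∪ B.wall.band)

end Crest.Agent.X212.Lns95
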