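import Crest.Agent.X212.Lns95.Lv

/-!
# X212 / LENS (helper95), part Mod: backgrounds in model form

`Mo` (the metric and the orientation are the model), `Tw` (two-forms `α e⁰¹ + β e²³`), positivity
on all of `N`, the curvature of a line with potential `al`.
-/

open scoped Manifold ContDiff Topology
open Set Function Filter

set_option autoImplicit false
set_option linter.unusedSectionVars false

noncomputable section
namespace Crest.Agent.X212.Lns95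
open Crest.Agent.R208.F (Ext pb_io)
open Sob92 Wz78 An
open Met55 (VF atx)
open Line51 (Ln dc)
open Dr59 (mf pm)
open Int54 (tp oc volF)
open Cut54 (w4 cw4)
open Num57 (e1 e2)

variable {E H : Type} [NormedAddCommGroup E] [NormedSpace ℝ E] [FiniteDimensional ℝ E]
  [MeasurableSpace E] [BorelSpace E] [TopologicalSpace H] {I : ModelWithCorners ℝ E H} {M : Type}
  [TopologicalSpace M] [ChartedSpace H M] [IsManifold I ∞ M] [I.Boundaryless] [MeasurableSpace M]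
  [BorelSpace M] [SecondCountableTopology M] {o : M → Ext E} {n : ℕ} {N O : Set M} {u w : M → ℂ} {y : M}

namespace Ch
variable (C : Ch I o O u w)
include C

theorem off : Ch I o (O ∩ {y | w y ≠ 0}) u w where
  op := ContinuousOn.isOpen_inter_preimage (fun y hy => (C.sw y hy).continuousAt.continuousWithinAt)
    C.op isOpen_ne
  su y hy := C.su y hy.1
  sw y hy := C.sw y hy.1
  lt y hy := C.lt y hy.1
  pos y hy := C.pos y hy.1

theorem tp (hy : y ∈ O) :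
    0 < tp E (o y) * tp E (cw4 (dc I u y : E →ₗ[ℝ] ℂ) (dc I w y : E →ₗ[ℝ] ℂ)) := by
  have sm := ((C.su y hy).prodMk_space (C.sw y hy)).mdifferentiableAt (by simp)
  have := C.pos y hy
  rw [mul_comm] at this
  convert this using 3
  have e : Orx52.oV (u y, w y) = cw4 (LinearMap.fst ℝ ℂ ℂ) (LinearMap.snd ℝ ℂ ℂ) := by
    simp only [Orx52.oV, Orx52.pr, Orx52.px, Orx52.oZ_eq, map_mul, pb_io]; rfl
  rw [Dr59.pm_apply, e, cw4, cw4, Cut54.pb_w4]
  have e1 : (dc I u y : E →ₗ[ℝ] ℂ) = LinearMap.fst ℝ ℂ ℂ ∘ₗ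
      (mf I 𝓘(ℝ, ℂ × ℂ) (fun y => (u y, w y)) y : E →ₗ[ℝ] ℂ × ℂ) := LinearMap.ext fun v =>
    dv_clm (e := fun _ => v) (ContinuousLinearMap.fst ℝ ℂ ℂ) sm
  have e2 : (dc I w y : E →ₗ[ℝ] ℂ) = LinearMap.snd ℝ ℂ ℂ ∘ₗ
      (mf I 𝓘(ℝ, ℂ × ℂ) (fun y => (u y, w y)) y : E →ₗ[ℝ] ℂ × ℂ) := LinearMap.ext fun v =>
    dv_clm (e := fun _ => v) (ContinuousLinearMap.snd ℝ ℂ ℂ) sm
  rw [e1, e2]
  rfl

/-- the zero section has no interior -/
theorem dense (hy : y ∈ O) : ∃ᶠ z in 𝓝 y, z ∈ O ∧ w z ≠ 0 := fun h => by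
  have e : w =ᶠ[𝓝 y] fun _ => 0 := by
    filter_upwards [h, C.op.mem_nhds hy] with z h1 h2
    exact not_not.1 fun h3 => h1 ⟨h2, h3⟩
  have e' : (dc I w y : E →ₗ[ℝ] ℂ) = 0 := LinearMap.ext fun v =>
    (dv_congr (e := fun _ => v) e).trans (congrFun (dv_const _) y)
  have := C.tp hy
  simp [e', cw4, w4] at this

end Ch

variable {ι lam : Type} [Fintype ι] [Fintype lam] {B : Base M ι lam} {G : Geo I M ι lam}

section closed
variable (hB : B.OK I) (hG : G.OK B) {d : ℝ}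
include hB

theorem ct_sd (s t : ι × ι) : Continuous fun x => B.sd x s t := by
  have h1 := fun a b => (hB.sP a b).continuous
  have h2 := fun a b c d => (hB.so a b c d).continuous
  unfold Base.sd Base.a2 Base.st
  fun_prop

include hG

theorem ct_sc : Continuous (sc G) :=
  continuous_iff_continuousAt.2 fun x => ((glc hG).sScal (gfrm hG) x).continuousAt

theorem Pos.closed {k : M → ι × ι → ℝ} (hk : ∀ s, ContinuousAt (k · s) y)
    (h : ∃ᶠ z in 𝓝 y, Pos B G (k z) d z) : Pos B G (k y) d y := by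
  have h1 := fun s t => (ct_sd hB s t).continuousAt (x := y)
  have h2 := (ct_sc hB hG).continuousAt (x := y)
  refine le_of_tendsto_of_tendsto_of_frequently (f := fun z => d + sdn B z (k z) / 2)
    (g := fun z => sc G z / 4) (ContinuousAt.tendsto ?_) (ContinuousAt.tendsto (by fun_prop)) h
  unfold sdn
  fun_prop

theorem PosW.closed (h : ∃ᶠ z in 𝓝 y, PosW B G d z) : PosW B G d y := fun η hη => by
  have h1 := fun s t => (ct_sd hB s t).continuousAt (x := y)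
  have h2 := (ct_sc hB hG).continuousAt (x := y)
  have h3 := fun a b c l => ((glc hG).sRm (gfrm hG) a b c l y).continuousAt
  have := le_of_tendsto_of_tendsto_of_frequently
    (f := fun z => d * ∑ s, (∑ t, B.sd z s t * η t) ^ 2)
    (g := fun z => sc G z / 2 * ∑ s, (∑ t, B.sd z s t * η t) ^ 2 + ∑ s, ∑ t,
      Rm I G.F.e G.F.c G.F.Gam s.1 s.2 t.1 t.2 z * ((∑ r, B.sd z s r * η r) * ∑ r, B.sd z t r * η r))
    (ContinuousAt.tendsto (by fun_prop)) (ContinuousAt.tendsto (by fun_prop))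
    (h.mono fun z hz => hz _ fun s => by
      simp only [Finset.mul_sum, ← mul_assoc]
      rw [Finset.sum_comm]
      simp only [← Finset.sum_mul, sd_sd hB])
  simpa only [hη] using this

end closed

variable (D : Dsc I o n N) (P : Prf n) (h : ℝ → ℝ)

/-- the model coframe of the chart `b` -/
def Dsc.V (e : ι → VF I M) (b : Bool) : Fin 4 → ι → M → ℝ := vG I e n h P.f (D.u b) (D.w b)

/-- the two-form `k` is `α e⁰¹ + β e²³` off the zero section -/
def Dsc.Tw (e : ι → VF I M) (k : M → ι × ι → ℝ) (α β : ℝ → ℝ) : Prop :=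
  ∀ b, ∀ y ∈ D.O b, D.w b y ≠ 0 → ∀ s, k y s = α (‖D.w b y‖ ^ 2) * wq (D.V P h e b · · y) 0 1 s.1 s.2
    + β (‖D.w b y‖ ^ 2) * wq (D.V P h e b · · y) 2 3 s.1 s.2

variable (B G) in
/-- the background is the model on `N` -/
structure Mo : Prop where
  n0 : n ≠ 0
  h4 : Module.finrank ℝ E = 4
  hB : B.OK I
  hG : G.OK B
  pr : ∀ b, ∀ y ∈ D.O b, D.w b y ≠ 0 → PrA h P.f P.f1 P.f2 (‖D.w b y‖ ^ 2)
  mv : D.MV P h (atx G.F.e)
  ori : ∀ y ∈ N, ∀ a b c d, B.o a b c d y = oc G.F.e (volF o G.F.e) a b c d y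

namespace Mo
variable {D P h} (m : Mo B G D P h) {b : Bool} (hy : y ∈ D.O b) (h0 : D.w b y ≠ 0)
include m

section
include hy

theorem V_eq : (D.V P h G.F.e b · · y) = fun i a => cvG I n (h (‖D.w b y‖ ^ 2)) (P.f (‖D.w b y‖ ^ 2))
    (D.u b) (D.w b) y i (atx G.F.e y a) :=
  funext₂ fun i a => vG_eq ((D.ch b).su y hy) ((D.ch b).sw y hy) ((D.ch b).lt y hy) _ _ _ i a

include h0

theorem on0 : On0 (fun a b => B.P a b y) (D.V P h G.F.e b · · y) := by
  rw [m.V_eq hy, ← m.hG.P]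
  exact (m.mv b y hy h0).on0 m.h4 (Met55.fr_isP G.F y)

theorem ox : Ox B y (D.V P h G.F.e b · · y) := ⟨m.on0 hy h0, fun a c k l => by
  have t := (D.ch b).tp hy
  have p := m.pr b y hy h0
  have s := Met55.pre_sp G.F.toPre y
  have t0 := left_ne_zero_of_mul t.ne'
  rw [m.V_eq hy, m.ori y (D.sub b hy), ← (m.mv b y hy h0).vol m.h4 (Int54.isU_volF s t0)]
  · show R208.F.evA E 4 _ _ = _
    congr 1
    ext i; fin_cases i <;> rfl
  · have := mul_pos (mul_pos (Int54.nf_pos s t0) (div_pos (mul_pos (mul_pos two_pos p.ph) p.pf)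
      (Nat.cast_pos.2 (Nat.pos_of_ne_zero m.n0)))) t
    rw [cvG, dP, tp_lG m.h4 _ _ ((D.ch b).lt y hy) (Nat.cast_ne_zero.2 m.n0) _ _ h0, volF,
      Pi.smul_apply', map_smul, smul_eq_mul]
    linarith⟩

end

theorem cz (b : Bool) : Cz I G.F.e B.P G.F.c (D.O b ∩ {y | D.w b y ≠ 0}) (D.V P h G.F.e b)
    (fun a y => 2 * mu I G.F.e (D.u b) a y) (fun y => P.f (‖D.w b y‖ ^ 2))
    (fun y => P.f1 (‖D.w b y‖ ^ 2)) fun y => P.f2 (‖D.w b y‖ ^ 2) :=
  cz_of (gfrm m.hG) (D.ch b).off (fun _ h => h.2) (fun y h => m.pr b y h.1 h.2)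
    fun _ h => m.on0 h.1 h.2

variable {k : M → ι × ι → ℝ} {α β : ℝ → ℝ} {d : ℝ} (hk : D.Tw P h G.F.e k α β)
  (hc : ∀ s, ContinuousAt (k · s) y) (hN : y ∈ N)
include hN

theorem posW : PosW B G (1 / 2) y := by
  obtain ⟨b, hy⟩ := (D.cov y).1 hN
  refine .closed m.hB m.hG (((D.ch b).dense hy).mono fun z hz => ?_)
  have x0 : 0 < ‖D.w b z‖ ^ 2 := by have := hz.2; positivity
  have p := (m.pr b z hz.1 hz.2).pf
  have h1 := P.le1 _ x0
  have h2 := P.ge0 _ x0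
  have h3 := div_nonneg (neg_nonneg.2 (P.ccv _ x0)) p.le
  refine (m.cz b).posW m.hG hz (m.ox hz.1 hz.2) ?_ ?_
  · rcases P.alt _ x0 with h | h <;> nlinarith
  · rcases le_total (1 / 2) (P.f1 (‖D.w b z‖ ^ 2)) with h | h
    · nlinarith [P.len _ x0, P.big _ x0 h]
    · nlinarith

include hk hc

theorem pos (hd : ∀ x, 0 < x → 0 < P.f x →
    d + |α x + β x| / 2 ≤ 2 - P.f x ^ 2 / 2 + -P.f2 x / P.f x / 2) : Pos B G (k y) d y := by
  obtain ⟨b, hy⟩ := (D.cov y).1 hN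
  exact .closed m.hB m.hG hc (((D.ch b).dense hy).mono fun z hz => (m.cz b).pos m.hG hz
    (m.ox hz.1 hz.2) (hk b z hz.1 hz.2) (hd _ (by have := hz.2; positivity) (m.pr b z hz.1 hz.2).pf))

theorem neg (hd : ∀ x, 0 < x → 0 < P.f x →
    d + |α x - β x| / 2 ≤ 2 - P.f x ^ 2 / 2 + -P.f2 x / P.f x / 2) : Pos (rev B) G (k y) d y := by
  obtain ⟨b, hy⟩ := (D.cov y).1 hN
  exact .closed (rev_ok m.hB) (rev_geo m.hG) hc (((D.ch b).dense hy).mono fun z hz => (m.cz b).neg m.hG hz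
    (m.ox hz.1 hz.2) (hk b z hz.1 hz.2) (hd _ (by have := hz.2; positivity) (m.pr b z hz.1 hz.2).pf))

end Mo

theorem Prf.pos_le {x μ : ℝ} (hx : 0 < x) (hf : 0 < P.f x) (hμ : |μ| ≤ 1) :
    1 + |μ * P.f2 x / P.f x + 2 * (μ * P.f1 x)| / 2 ≤ 2 - P.f x ^ 2 / 2 + -P.f2 x / P.f x / 2 := by
  have h1 := P.le1 _ hx
  have h2 := P.ge0 _ hx
  have h3 := div_nonneg (neg_nonneg.2 (P.ccv _ hx)) hf.le
  rw [show μ * P.f2 x / P.f x + 2 * (μ * P.f1 x) = μ * (2 * P.f1 x - -P.f2 x / P.f x) by ring, abs_mul]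
  have h4 := mul_le_of_le_one_left (abs_nonneg (2 * P.f1 x - -P.f2 x / P.f x)) hμ
  have h5 := P.len _ hx
  have h6 : P.f x ^ 2 ≤ 1 := by nlinarith
  rcases le_total (1 / 2) (P.f1 x) with h | h
  · have := P.big _ hx h
    rcases abs_cases (2 * P.f1 x - -P.f2 x / P.f x) with k | k <;> linarith [k.1]
  · rcases abs_cases (2 * P.f1 x - -P.f2 x / P.f x) with k | k <;> linarith [k.1]

/-! ### lines -/

section line
variable {κ : Type} [Fintype κ] [DecidableEq κ] {L : Ln E M κ} {ψ q ψ1 : ℝ → ℝ} {c : ℝ}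

/-- the line has frames with the potential `al ψ q` in both charts -/
def Dsc.LF (L : Ln E M κ) (ψ q : ℝ → ℝ) : Prop :=
  ∀ b, ∃ s, L.Fr I s (al I ψ q (D.u b) (D.w b)) (D.O b)

theorem fL_geo (hL : L.On I univ) (F : Fr I M ι) {P : ι → ι → M → ℝ} {o : ι → ι → ι → ι → M → ℝ}
    (hB : (L.base P o).OK I) (s : ι × ι) :
    fL (L.base P o) (L.geo F) y s = e2 (L.F I y) (F.e s.1 y) (F.e s.2 y) := by
  have h1 : curv I (L.geo F).F.e (L.geo F).F.c (L.geo F).a s.1 s.2 y * (L.base P o).l y =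
      _ • ((L.base P o).il * (L.base P o).l y) := hL.curv_geo isOpen_univ F (mem_univ y) s.1 s.2
  rw [fL, mul_assoc, h1, mul_smul_comm, ← mul_assoc, hB.ilsq, map_smul, neg_one_mul, map_neg,
    @trE_eq _ _ (_), hB.lrk, smul_eq_mul]; ring

variable {D P h}

theorem Dsc.LF.tw (l : D.LF L ψ q) (hL : L.On I N) {e : ι → VF I M} {P' : ι → ι → M → ℝ}
    {c' : ι → ι → ι → M → ℝ} (F : Frm I e P' c')
    (hf : ∀ b, ∀ y ∈ D.O b, D.w b y ≠ 0 → P.f (‖D.w b y‖ ^ 2) ≠ 0 ∧ ContDiffAt ℝ ∞ ψ (‖D.w b y‖ ^ 2) ∧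
      HasDerivAt ψ (ψ1 (‖D.w b y‖ ^ 2) * h (‖D.w b y‖ ^ 2)) (‖D.w b y‖ ^ 2))
    (hq : ∀ x, 0 < x → q x * x = ψ x / n + c) :
    D.Tw P h e (fun y s => e2 (L.F I y) (e s.1 y) (e s.2 y)) (fun x => ψ1 x / P.f x) fun x => 2 * ψ x := by
  intro b y hy h0 t
  obtain ⟨s, hs⟩ := l b
  have C := D.ch b
  obtain ⟨f0, sψ, dψ⟩ := hf b y hy h0
  have ha := (hL.mono (D.sub b)).sa
  have sψ' := sψ.comp_contMDiffAt (f := fun y => ‖D.w b y‖ ^ 2) (sa_nsq (C.sw y hy))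
  have sσ := sa_sg1 F (C.su y hy) (C.sw y hy) h0 n
  have sν := sa_nu F (C.sw y hy) h0
  have ev : ∀ a, (fun z => e1 (al I ψ q (D.u b) (D.w b) z) (e a z)) =ᶠ[𝓝 y] fun z =>
      ψ (‖D.w b z‖ ^ 2) * sg1 I e n (D.u b) (D.w b) a z + c * nu I e (D.w b) a z := fun a => by
    filter_upwards [C.off.op.mem_nhds ⟨hy, h0⟩] with z hz
    have x0 : 0 < ‖D.w b z‖ ^ 2 := by have := hz.2; positivity
    have := hq _ x0
    refine (Num57.e1_io _ _).trans ?_
    rw [sg1, nu, mu_eq (C.su z hz.1), mu_eq (C.sw z hz.1), (eq_div_iff x0.ne').2 this]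
    show _ * lm _ (dv I (e a) _ z) + _ * lm _ (dv I (e a) _ z) = _
    ring
  have k : d1 I e c' (fun a z => ψ (‖D.w b z‖ ^ 2) * sg1 I e n (D.u b) (D.w b) a z
      + c * nu I e (D.w b) a z) t.1 t.2 y = _ :=
    d1_add (fun a => SA.mul sψ' (sσ a)) (fun a => SA.mul contMDiffAt_const (sν a)) _ _
  beta_reduce
  rw [hs.F_fr C.op ha hy, Line51.e2_dM F (hs.sm_fr C.op ha y hy)
    (.of_forall fun _ => Dr59.isDeg_io _), dv_congr (ev _), dv_congr (ev _)]
  simp only [fun a => (ev a).self_of_nhds]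
  refine (show _ = _ from k).trans ?_
  rw [d1_mul sψ' sσ, d1_mul contMDiffAt_const sν, d1_nu F (C.sw y hy) h0,
    d1_sg1 F (C.su y hy) (C.lt y hy) n h P.f (C.sw y hy) h0]
  erw [dv_x (C.sw y hy) dψ, dv_x (C.sw y hy) dψ]
  simp only [wq, Dsc.V, vG, Matrix.cons_val, Function.comp, dv_const, Pi.zero_apply]
  field_simp
  ring

/-- **the line `μ (f₁ σ₁ - d arg w)` with `|μ| ≤ 1` is positive** -/
theorem Mo.posP {P' : ι → ι → M → ℝ} {o' : ι → ι → ι → ι → M → ℝ} {F : Fr I M ι}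
    (m : Mo (L.base P' o') (L.geo F) D P h) (hL : L.On I univ) {μ : ℝ} (hμ : |μ| ≤ 1)
    (l : D.LF L (fun x => μ * (n + x * P.p3 x)) fun x => μ * P.p3 x / n) (hy : y ∈ N) :
    PosP (L.base P' o') (L.geo F) 1 y := by
  have n0 : (n : ℝ) ≠ 0 := Nat.cast_ne_zero.2 m.n0
  have t := l.tw (ψ1 := fun x => μ * P.f2 x) (c := -μ) (hL.mono (subset_univ N)) (gfrm m.hG)
    (fun b y hy h0 => by
      have x0 : 0 < ‖D.w b y‖ ^ 2 := by positivity
      have p := m.pr b y hy h0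
      have e : (fun x => μ * (n + x * P.p3 x)) =ᶠ[𝓝 (‖D.w b y‖ ^ 2)] fun x => μ * P.f1 x :=
        eventually_of_mem (Ioi_mem_nhds x0) fun x hx => congrArg (μ * ·) (P.ef1 x hx).symm
      exact ⟨p.pf.ne', (contDiffAt_const.mul p.sf1).congr_of_eventuallyEq e,
        ((p.df1.const_mul μ).congr_of_eventuallyEq e).congr_deriv (mul_assoc ..).symm⟩)
    fun x _ => by field_simp; ring
  refine m.pos (k := fL _ _) (α := fun x => μ * P.f2 x / P.f x) (β := fun x => 2 * (μ * (n + x * P.p3 x)))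
    (fun b y hy h0 s => (fL_geo hL F m.hB s).trans (t b y hy h0 s))
    (fun s => (sm_fL m.hB m.hG s y).continuousAt) hy fun x hx hf => ?_
  rw [← P.ef1 x hx]
  exact P.pos_le hx hf hμ

end line

end Crest.Agent.X212.Lns95
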