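import Crest.Agent.X212.Cut54.Glue
import Crest.Agent.X212.M.Rel

/-!
# X212 / LENS (helper95), part Onv: orthonormal coframes of a spanning family; the model covectors
-/

open scoped ComplexConjugate Matrix
open Finset Module Complex

set_option autoImplicit false
set_option linter.unusedSectionVars false

noncomputable section
namespace Crest.Agent.X212.Lns95
open Crest.Agent.R208.F (Ext evA)
open Met55 (Co Sp IsP mix)
open Int54 (tp IsU)
open Cut54 (w4 cw4)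
open M (cm)

section on
variable {E : Type} [NormedAddCommGroup E] [NormedSpace ℝ E] [FiniteDimensional ℝ E]
  {ι κ : Type} [Fintype ι] [Fintype κ] {α β : Fin 4 → E →ₗ[ℝ] ℝ} {v : ι → E} {w : κ → E}

/-- the covectors `α` are orthonormal for the cometric of `v` -/
def Onv (α : Fin 4 → E →ₗ[ℝ] ℝ) (v : ι → E) : Prop :=
  ∀ i j, cm v (α i) (α j) = if i = j then 1 else 0

theorem Onv.of_co (h : Onv α v) (hc : Co v w) : Onv α w := fun i j => (hc _ _).symm.trans (h i j)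

theorem on_rot {A B : Fin 4 → ι → ℝ} (h : ∀ i j, ∑ a, A i a * A j a = if i = j then 1 else 0)
    {R : Fin 4 → Fin 4 → ℝ} (hR : ∀ i j, ∑ k, R i k * R j k = if i = j then 1 else 0)
    (e : ∀ i a, B i a = ∑ k, R i k * A k a) (i j : Fin 4) :
    ∑ a, B i a * B j a = if i = j then 1 else 0 := by
  have : ∀ k l, ∑ a, R i k * A k a * (R j l * A l a) = R i k * R j l * if k = l then 1 else 0 :=
    fun k l => by rw [← h k l, mul_sum]; exact sum_congr rfl fun a _ => by ring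
  simp only [e, sum_mul_sum]
  rw [sum_comm, ← hR]
  refine sum_congr rfl fun k _ => ?_
  rw [sum_comm]
  simp [this]

theorem Onv.exp (h : Onv α v) (h4 : finrank ℝ E = 4) (x : E) :
    x = ∑ i, α i x • ∑ a, α i (v a) • v a := by
  have e : ∀ (c : Fin 4 → ℝ) j, α j (∑ i, c i • ∑ a, α i (v a) • v a) = c j := fun c j => by
    have : ∀ i, ∑ a, α i (v a) * α j (v a) = if i = j then 1 else 0 := fun i => h i j
    simp [this]
  have hs : Function.Surjective (LinearMap.pi α) := fun c => ⟨_, funext (e c)⟩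
  exact (LinearMap.injective_iff_surjective_of_finrank_eq_finrank (by simp [h4])).2 hs
    (funext fun j => (e _ j).symm)

theorem Onv.sp (h : Onv α v) (h4 : finrank ℝ E = 4) : Sp v := fun x =>
  ⟨fun a => ∑ i, α i x * α i (v a), (h.exp h4 x).trans (by
    simp only [smul_sum, sum_smul, mul_smul]; exact sum_comm)⟩

theorem Onv.co (h : Onv α v) (h4 : finrank ℝ E = 4) (h' : Onv α w) : Co v w := fun γ δ => by
  set K : Fin 4 → E := fun i => ∑ a, α i (v a) • v a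
  have e : ∀ (γ : E →ₗ[ℝ] ℝ) x, γ x = ∑ i, γ (K i) * α i x := fun γ x => by
    conv_lhs => rw [h.exp h4 x, map_sum]
    exact sum_congr rfl fun i _ => by rw [map_smul, smul_eq_mul, mul_comm]
  have k : ∀ {σ : Type} [Fintype σ] (u : σ → E), ∑ a, γ (u a) * δ (u a) =
      ∑ i, ∑ j, γ (K i) * δ (K j) * cm u (α i) (α j) := fun u => by
    simp only [fun a => e γ (u a), fun a => e δ (u a), sum_mul_sum]
    simp only [cm, mul_sum]
    rw [sum_comm]
    refine sum_congr rfl fun i _ => ?_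
    rw [sum_comm]
    exact sum_congr rfl fun j _ => sum_congr rfl fun a _ => by ring
  rw [k, k]
  simp only [h _ _, h' _ _]

theorem Onv.on0 (h : Onv α v) (h4 : finrank ℝ E = 4) {P : Matrix ι ι ℝ} (hP : IsP v P) :
    Wz78.On0 (fun a b => P a b) fun i a => α i (v a) := by
  refine ⟨h, fun a b => ?_⟩
  have : IsP v (Matrix.of fun a b => ∑ i, α i (v a) * α i (v b)) := by
    refine ⟨by ext a b; simp [mul_comm], fun a => ?_, fun c hc => funext fun a => ?_⟩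
    · conv_rhs => rw [h.exp h4 (v a)]
      simp only [Matrix.of_apply, smul_sum, sum_smul, mul_smul]; exact sum_comm
    · have : ∀ i, ∑ b, α i (v b) * c b = 0 := fun i => by
        simpa [mul_comm] using congrArg (α i) hc
      simp only [Matrix.mulVec, dotProduct, Matrix.of_apply, sum_mul, mul_assoc, Pi.zero_apply]
      rw [sum_comm]
      simp [← mul_sum, this]
  exact congrFun (congrFun (this.unique hP) a) b

theorem evA_w4 (α : Fin 4 → E →ₗ[ℝ] ℝ) (u : Fin 4 → E) :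
    evA E 4 (w4 α) u = (Matrix.of fun i j => α i (u j)).det := by
  rw [Cut54.w4_eq, R208.F.evA_iMulti, ← Matrix.det_transpose]; rfl

theorem Onv.isU (h : Onv α v) (h4 : finrank ℝ E = 4) : IsU v (w4 α) := by
  have := Int54.cauchy_binet (Matrix.of fun i a => α i (v a)) (Matrix.of fun i a => α i (v a))ᵀ
  rw [show (Matrix.of fun i a => α i (v a)) * (Matrix.of fun i a => α i (v a))ᵀ = 1 from
    Matrix.ext fun i j => (h i j).trans Matrix.one_apply.symm, Matrix.det_one, mul_one] at this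
  rw [Fintype.card_fin] at this
  rw [Int54.isU_iff_sum h4, ← this]
  refine sum_congr rfl fun Φ _ => ?_
  rw [← Matrix.transpose_submatrix, Matrix.det_transpose, ← sq]
  exact congrArg (· ^ 2) (evA_w4 α _)

theorem Onv.vol (h : Onv α v) (h4 : finrank ℝ E = 4) {c : Ext E} (hc : IsU v c)
    (ho : 0 < tp E c * tp E (w4 α)) (a b k l : ι) :
    evA E 4 c ![v a, v b, v k, v l] = Wz78.vol (fun i a => α i (v a)) a b k l := by
  rw [Int54.evA_congr_tp h4 (hc.tp_eq (h.isU h4) ho), evA_w4, Matrix.det_succ_row_zero]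
  simp [Fin.sum_univ_four, Matrix.det_fin_three, Wz78.vol, Ind95.E4_eq, Fin.succAbove]
  ring

/-- the Gram matrix of covectors -/
def gr (α : Fin 4 → E →ₗ[ℝ] ℝ) (v : ι → E) : Matrix (Fin 4) ι ℝ := Matrix.of fun i a => α i (v a)

theorem det_gr (h4 : finrank ℝ E = 4) (hv : Sp v) (h : tp E (w4 α) ≠ 0) :
    (gr α v * (gr α v)ᵀ).det ≠ 0 := by
  have e := Cut54.evA_sharp h4 v (w4 α) α
  rw [evA_w4, ← Cut54.w4_eq] at e
  rw [show gr α v * (gr α v)ᵀ = Matrix.of fun i j => α i (∑ a, α j (v a) • v a) from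
    Matrix.ext fun i j => by simp [gr, Matrix.mul_apply, mul_comm], e]
  exact mul_ne_zero hv.det_pos.ne' (mul_ne_zero h h)

theorem onv_dual (h : (gr α v * (gr α v)ᵀ).det ≠ 0) :
    Onv α (mix ((gr α v * (gr α v)ᵀ)⁻¹ * gr α v) v) := fun i j => by
  have e : ∀ i j, α i (mix ((gr α v * (gr α v)ᵀ)⁻¹ * gr α v) v j) = if j = i then 1 else 0 := fun i j => by
    rw [← Matrix.one_apply, ← Matrix.nonsing_inv_mul _ (Ne.isUnit h), ← Matrix.mul_assoc,
      Matrix.mul_apply]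
    simp [mix, gr]
  simp [cm, e, eq_comm]

/-- real and imaginary parts -/
def l4 (a b : E →ₗ[ℝ] ℂ) : Fin 4 → E →ₗ[ℝ] ℝ := ![reLm ∘ₗ a, imLm ∘ₗ a, reLm ∘ₗ b, imLm ∘ₗ b]

theorem Onv.unit {a b a' b' : E →ₗ[ℝ] ℂ} (h : Onv (l4 a b) v) {p q : ℂ} (hp : ‖p‖ = 1) (hq : ‖q‖ = 1)
    (e : ∀ x, a' x = p * a x) (e' : ∀ x, b' x = q * b x) : Onv (l4 a' b') v := by
  have h1 : p.re * p.re + p.im * p.im = 1 := by rw [← normSq_apply, normSq_eq_norm_sq, hp, one_pow]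
  have h2 : q.re * q.re + q.im * q.im = 1 := by rw [← normSq_apply, normSq_eq_norm_sq, hq, one_pow]
  refine on_rot h (R := ![![p.re, -p.im, 0, 0], ![p.im, p.re, 0, 0], ![0, 0, q.re, -q.im],
    ![0, 0, q.im, q.re]]) (fun i j => ?_) fun i x => ?_
  · fin_cases i <;> fin_cases j <;> simp [Fin.sum_univ_four] <;> linarith
  · fin_cases i <;> simp [Fin.sum_univ_four, l4, e, e'] <;> ring

theorem tp_w4 (h4 : finrank ℝ E = 4) {R : Fin 4 → Fin 4 → ℝ} (e : ∀ i x, β i x = ∑ k, R i k * α k x) :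
    tp E (w4 β) = (Matrix.of R).det * tp E (w4 α) := by
  rw [Int54.tp_apply, Int54.tp_apply, ← Int54.evA_cast h4, ← Int54.evA_cast h4, evA_w4, evA_w4,
    ← Matrix.det_mul]
  congr 1
  ext i j
  simp [e, Matrix.mul_apply]

end on

/-! ### the model covectors on `ℂ × ℂ` -/

/-- `Im (conj u du)` -/
def lm (u : ℂ) : ℂ →ₗ[ℝ] ℝ := imLm ∘ₗ LinearMap.mulLeft ℝ (conj u)

/-- `Re (conj u du)` -/
def lr (u : ℂ) : ℂ →ₗ[ℝ] ℝ := reLm ∘ₗ LinearMap.mulLeft ℝ (conj u)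

theorem lm_apply (u d : ℂ) : lm u d = u.re * d.im - u.im * d.re := by simp [lm]; ring
theorem lr_apply (u d : ℂ) : lr u d = u.re * d.re + u.im * d.im := by simp [lr]

/-- `√(1 - |u|²)` -/
def sq1 (u : ℂ) : ℝ := √(1 - ‖u‖ ^ 2)

/-- the base covector `s du - u ds` -/
def lB (u : ℂ) : ℂ →ₗ[ℝ] ℂ := sq1 u • LinearMap.id + (sq1 u)⁻¹ • (lr u).smulRight u

/-- the fibre covector `p (dw + i n w μ) + q w d|w|²` -/
def lF (n p q : ℝ) (u w : ℂ) : ℂ × ℂ →ₗ[ℝ] ℂ :=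
  p • (LinearMap.snd ℝ ℂ ℂ + n • (lm u ∘ₗ LinearMap.fst ℝ ℂ ℂ).smulRight (I * w)) +
    (2 * q) • (lr w ∘ₗ LinearMap.snd ℝ ℂ ℂ).smulRight w

/-- the form `σ₁` -/
def ls (n : ℝ) (u w : ℂ) : ℂ × ℂ →ₗ[ℝ] ℝ :=
  lm u ∘ₗ LinearMap.fst ℝ ℂ ℂ + (n * ‖w‖ ^ 2)⁻¹ • lm w ∘ₗ LinearMap.snd ℝ ℂ ℂ

/-- the fibre covector `h d|w|² + i f σ₁` -/
def lG (n h f : ℝ) (u w : ℂ) : ℂ × ℂ →ₗ[ℝ] ℂ :=
  (2 * h) • (lr w ∘ₗ LinearMap.snd ℝ ℂ ℂ).smulRight 1 + f • (ls n u w).smulRight I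

theorem lB_apply (u d : ℂ) : lB u d = sq1 u * d + (lr u d / sq1 u : ℝ) * u := by
  simp [lB]; ring

theorem lF_apply (n p q : ℝ) (u w : ℂ) (d : ℂ × ℂ) :
    lF n p q u w d = p * (d.2 + n * lm u d.1 * (I * w)) + 2 * q * lr w d.2 * w := by
  simp [lF]; ring

theorem ls_apply (n : ℝ) (u w : ℂ) (d : ℂ × ℂ) : ls n u w d = lm u d.1 + lm w d.2 / (n * ‖w‖ ^ 2) := by
  simp [ls]; ring

theorem lG_re (n h f : ℝ) (u w : ℂ) (d : ℂ × ℂ) : (lG n h f u w d).re = 2 * h * lr w d.2 := by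
  simp [lG]

theorem lG_im (n h f : ℝ) (u w : ℂ) (d : ℂ × ℂ) : (lG n h f u w d).im = f * ls n u w d := by
  simp [lG]

/-- the covariant derivative of the fibre coordinate -/
def lD (n : ℝ) (u w : ℂ) (d : ℂ × ℂ) : ℂ := d.2 + n * lm u d.1 * (I * w)

theorem nsq (w : ℂ) : ‖w‖ ^ 2 = w.re ^ 2 + w.im ^ 2 := by rw [← normSq_eq_norm_sq, normSq_apply]; ring

theorem lr_lD (n : ℝ) (u w : ℂ) (d : ℂ × ℂ) : lr w (lD n u w d) = lr w d.2 := by
  simp [lD, lr_apply]; ring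

theorem lm_lD {n : ℝ} (hn : n ≠ 0) (u : ℂ) {w : ℂ} (hw : w ≠ 0) (d : ℂ × ℂ) :
    ls n u w d = lm w (lD n u w d) / (n * ‖w‖ ^ 2) := by
  have h0 : ‖w‖ ≠ 0 := norm_ne_zero_iff.2 hw
  rw [ls_apply, lD, map_add, lm_apply w (_ * _)]
  generalize lm u d.1 = m
  simp
  field_simp
  linear_combination (n * m) * nsq w

theorem lr_unit {p : ℂ} (hp : ‖p‖ = 1) (z d : ℂ) : lr (z * p) (d * p) = lr z d := by
  have := nsq p
  rw [hp] at this
  simp only [lr_apply, mul_re, mul_im]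
  linear_combination (-(z.re * d.re + z.im * d.im)) * this

theorem lm_unit {p : ℂ} (hp : ‖p‖ = 1) (z d : ℂ) : lm (z * p) (d * p) = lm z d := by
  have := nsq p
  rw [hp] at this
  simp only [lm_apply, mul_re, mul_im]
  linear_combination (-(z.re * d.im - z.im * d.re)) * this

theorem sq1_pos {u : ℂ} (h : ‖u‖ < 1) : 0 < sq1 u :=
  Real.sqrt_pos.2 (by nlinarith [norm_nonneg u])

theorem sq1_sq {u : ℂ} (h : ‖u‖ < 1) : sq1 u ^ 2 = 1 - (u.re ^ 2 + u.im ^ 2) := by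
  rw [sq1, Real.sq_sqrt (by nlinarith [norm_nonneg u]), nsq]

theorem lG_eq {n p q : ℝ} (hn : n ≠ 0) (u : ℂ) {w : ℂ} (hw : w ≠ 0) (d : ℂ × ℂ) :
    lG n ((p + 2 * ‖w‖ ^ 2 * q) / (2 * ‖w‖)) (n * ‖w‖ * p) u w d = conj w / ‖w‖ * lF n p q u w d := by
  have h0 : ‖w‖ ≠ 0 := norm_ne_zero_iff.2 hw
  have h1 := (nsq w).symm
  rw [lF_apply, div_mul_eq_mul_div, eq_div_iff (ofReal_ne_zero.2 h0)]
  apply Complex.ext <;> simp only [re_mul_ofReal, im_mul_ofReal, lG_re, lG_im, ls_apply] <;>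
    generalize lm u d.1 = m <;> simp [lm_apply, lr_apply] <;> field_simp
  · linear_combination (-(2 * q * (w.re * d.2.re + w.im * d.2.im))) * h1
  · linear_combination (-(n * p * m)) * h1

section tp
variable {E : Type} [NormedAddCommGroup E] [NormedSpace ℝ E] [FiniteDimensional ℝ E]
  (h4 : finrank ℝ E = 4) (a b : E →ₗ[ℝ] ℂ) {u : ℂ} (hu : ‖u‖ < 1)
include h4 hu

theorem tp_lF (n p q : ℝ) (w : ℂ) : tp E (w4 (l4 (lF n p q u w ∘ₗ a.prod b) (lB u ∘ₗ a))) =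
    p * (p + 2 * ‖w‖ ^ 2 * q) * tp E (cw4 a b) := by
  have h0 := (sq1_pos hu).ne'
  have h1 := sq1_sq hu
  have h2 := nsq w
  rw [tp_w4 h4 (α := l4 a b) (R := ![![p * n * w.im * u.im, -(p * n * w.im * u.re), p + 2 * q * w.re ^ 2,
    2 * q * w.re * w.im], ![-(p * n * w.re * u.im), p * n * w.re * u.re, 2 * q * w.re * w.im,
    p + 2 * q * w.im ^ 2], ![sq1 u + u.re ^ 2 / sq1 u, u.re * u.im / sq1 u, 0, 0],
    ![u.re * u.im / sq1 u, sq1 u + u.im ^ 2 / sq1 u, 0, 0]]) fun i x => ?_]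
  · congr 1
    rw [Matrix.det_succ_row_zero, h2]
    simp [Fin.sum_univ_four, Matrix.det_fin_three, Fin.succAbove]
    field_simp
    linear_combination (p * (p + 2 * (w.re ^ 2 + w.im ^ 2) * q) * sq1 u ^ 2) * h1
  · fin_cases i <;> simp [Fin.sum_univ_four, l4, lF_apply, lB_apply, lm_apply, lr_apply] <;> ring

theorem tp_lG {n : ℝ} (hn : n ≠ 0) (h f : ℝ) {w : ℂ} (hw : w ≠ 0) :
    tp E (w4 (l4 (lG n h f u w ∘ₗ a.prod b) (lB u ∘ₗ a))) = 2 * h * f / n * tp E (cw4 a b) := by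
  have h0 := (sq1_pos hu).ne'
  have h1 := sq1_sq hu
  have h2 := nsq w
  have h3 : w.re ^ 2 + w.im ^ 2 ≠ 0 := h2 ▸ pow_ne_zero 2 (norm_ne_zero_iff.2 hw)
  rw [tp_w4 h4 (α := l4 a b) (R := ![![0, 0, 2 * h * w.re, 2 * h * w.im], ![-(f * u.im), f * u.re,
    -(f * w.im / (n * ‖w‖ ^ 2)), f * w.re / (n * ‖w‖ ^ 2)],
    ![sq1 u + u.re ^ 2 / sq1 u, u.re * u.im / sq1 u, 0, 0],
    ![u.re * u.im / sq1 u, sq1 u + u.im ^ 2 / sq1 u, 0, 0]]) fun i x => ?_]
  · congr 1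
    rw [Matrix.det_succ_row_zero, h2]
    simp [Fin.sum_univ_four, Matrix.det_fin_three, Fin.succAbove]
    field_simp
    linear_combination (h * f * (w.re ^ 2 + w.im ^ 2) * sq1 u ^ 2) * h1
  · fin_cases i <;>
      simp [Fin.sum_univ_four, l4, lG_re, lG_im, ls_apply, lB_apply, lm_apply, lr_apply] <;> ring

end tp

end Crest.Agent.X212.Lns95
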