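import Crest.Agent.X212.Klp2.MxC
import Crest.Agent.X212.Hd82.Pd
import Crest.Agent.X212.Lix26.Geo

/-!
# Row 212, LIX-NUM (helper95): twin jobs and the relative index inside a lens wall
-/

set_option autoImplicit false
set_option linter.unusedSectionVars false
noncomputable section
open Set Function Filter Topology
open scoped ContDiff Manifold

namespace Crest.Agent.X212.Lx95
open An M G75 Nd18 Rf65 Add46 Hd82 Ink3 Klp2.Mx Rdc90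

variable {κ lam : Type} [Fintype κ] [Fintype lam] [DecidableEq lam]

/-- a cross-section without words -/
abbrev nx {Wi : Type} (T : Xs Wi κ lam) : Xs Empty κ lam := ⟨T.Y, T.C, T.N, Empty.elim⟩

section job
variable {X : Mf 4} {A : Type} [Fintype A] {M : Mark X A κ} {W : World M} {N N' : ML M lam}
  {Λ : Lns W N} {Λ' : Lns W N'} {Wi Wi' A' A'' h h' : Type} [Fintype A'] [DecidableEq A'] [Fintype h]
  [Fintype A''] [DecidableEq A''] [Fintype h'] {r n r' n' : ℕ}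

theorem cast_nx {m c : M.Cl} {p : Prm A} {a : A} {b : Option Bool} {T : Xs Wi κ lam}
    {T' : Xs Wi' κ lam} (e : nx T' = nx T) {g : T.Y.M ≃ₘ^∞⟮T.Y.I, (M.bn a).Y.I⟯ (M.bn a).Y.M}
    {g' : T'.Y.M ≃ₘ^∞⟮T'.Y.I, (M.bn a).Y.I⟯ (M.bn a).Y.M} (hg : HEq g' g)
    {K : Nk T'.D (Λ.B m c) (Λ.G m c p)} (hK : IsNk a b g' K) :
    ∃ K₁ : Nk T.D (Λ.B m c) (Λ.G m c p), IsNk a b g K₁ ∧ ∀ o,
      (⟨⟨T'.Y, T'.D, T'.N⟩, K, o⟩ : En (Λ.B m c) (Λ.G m c p)) = ⟨⟨T.Y, T.D, T.N⟩, K₁, o⟩ := by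
  obtain ⟨Y, C, N₁, t⟩ := T
  obtain ⟨Y', C', N₂, t'⟩ := T'
  cases e
  cases hg
  exact ⟨K, ⟨hK.lo, hK.hi, hK.ψ⟩, fun _ => rfl⟩

/-- the same cross-section at the wall `a` -/
structure Twin (J : Job Wi Λ A' h r n) (J' : Job Wi' Λ' A'' h' r' n') (a : A) : Prop where
  xs : nx (J'.xs a) = nx (J.xs a)
  g : HEq (J'.g a) (J.g a)

variable {J : Job Wi Λ A' h r n} {J' : Job Wi' Λ' A'' h' r' n'} {a : A}

theorem Twin.jx (t : Twin J J' a) : jX J' a = jX J a :=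
  congrArg (fun T : Xs Empty κ lam => (⟨T.Y, T.D, T.N⟩ : XD κ (lam ⊕ lam))) t.xs

theorem Twin.symm (t : Twin J J' a) : Twin J' J a := ⟨t.xs.symm, t.g.symm⟩

/-- the job without terms over another line -/
@[reducible] def twJ (J : Job Wi Λ A' h r n) (Λ' : Lns W N') (G : XG Empty N') :
    Job Empty Λ' A' h 0 0 :=
  ⟨J.m, ∅, fun _ => none, J.Θ, 0, Empty.elim, Empty.elim, J.ct, J.nb, fun _ => Empty.elim,
    fun _ => Empty.elim, G.xs, G.g, fun _ _ => 0, G.K Λ' J.m⟩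

theorem twJ_ok (hJ : J.OK) (G : XG Empty N') : (twJ J Λ' G).OK where
  down _ h := h.elim
  soft _ h := h.elim
  inj _ _ _ h := nomatch h
  sm := hJ.sm
  par _ h := h.elim
  inf _ h := h.elim
  lin := ⟨0, zero_lt_one, fun _ _ h => nomatch h⟩
  mem _ _ h := nomatch h
  tw a := a.elim
  co a := a.elim
  nb := hJ.nb
  dj := hJ.dj
  ct _ h := h.elim
  tc _ a := a.elim
  cc _ a := a.elim
  xs := G.ok
  iso := G.iso
  ν _ := contDiff_const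
  ν0 _ _ h := (h rfl).elim
  nk := G.isNk Λ' J.m

/-- cross-sections over another line -/
theorem exists_xg (hJ : J.OK) (e : N'.cy a = N.cy a) :
    ∃ G : XG Empty N', G.xs a = nx (J.xs a) ∧ HEq (G.g a) (J.g a) := by
  classical
  let T : XG1 Empty N' a := ⟨nx (J.xs a), J.g a, hJ.xs a, fun k => e ▸ hJ.iso a k⟩
  have hG : ((xg0 Empty N').upd a T).at a = T := XG.upd_self _ _ _
  exact ⟨(xg0 Empty N').upd a T, congrArg XG1.xs hG, heq_g hG⟩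

theorem bd_hp {e : Bool} {x : A} (k : x ∈ Sys.bd (hp a e)) : x = a := by
  classical
  exact by_contra fun i => k (Kl48.hp_none.2 i)

/-- **the sides of a wall in two jobs** -/
theorem gp_tw (hJ : J.OK) (hJ' : J'.OK) (t : Twin J J' a) {c c' : M.Cl} (b : Bp J c) (b' : Bp J' c')
    {e : Bool} {A₀ : Type} [Fintype A₀] {I : MId M M A₀} {V : Set X.M} (hL : LId N N' I V N.p)
    (hI : ∀ x, I.ψ x = x) {a₀ : A₀} (e₀ : I.f a₀ = a) (e₀' : I.f' a₀ = a) (hn : ¬M.pin a)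
    (hf : ∀ x, I.f' x = I.f x) (pc : M.sys.Piece c.1 (hp a e)) (pc' : M.sys.Piece c'.1 (hp a e))
    (hV : (M.sys.w a).sd e ⊆ V)
    (hA : ∀ x ∈ (M.sys.w a).sd e, Ag I Λ Λ' (J.Θ b.s) (J'.Θ b'.s) N.p x) :
    ∃ (p : GP (jBG b {hp a e}) (jBG b' {hp a e})) (f : _), p.Gl f := by
  classical
  have := M.con
  have k : hp a e a = some e := Kl48.hp_self
  have ac : a ∈ cylW c := ⟨pc.bd_subset (Sys.mem_bd_of k), hn⟩
  have ac' : a ∈ cylW c' := ⟨pc'.bd_subset (Sys.mem_bd_of k), hn⟩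
  obtain ⟨K₁, n1, q1⟩ := cast_nx t.xs t.g (hJ'.nk c' a (some e) _ (Add46.act b' (⟨_, ac'⟩, e)))
  obtain ⟨φ, U, v, l1, l2, l3, l4⟩ := patch J.m J'.m hL b.br b.O b'.br b'.O pc pc'
    (Kl48.U_hp.le.trans hV) (by simp only [hI, image_id']) (fun x k p => (hn (bd_hp k ▸ p)).elim)
    (fun x k p => (hn (bd_hp k ▸ p)).elim) (fun x _ => by rw [hf]) (fun x k => hA x (Kl48.U_hp.le k))
    e₀ e₀' hn ac'.1 k (hJ.nk c a (some e) _ (Add46.act b (⟨_, ac⟩, e))) n1 fun _ _ => hI _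
  let u1 := uqE ac k fun x _ => bd_hp
  let u2 := uqE ac' k fun x _ => bd_hp
  exact exists_gl (e := (jBG b {hp a e}).E) (e' := (jBG b' {hp a e}).E) l1 l2 l3 l4 rfl (q1 _)

end job

variable {Lm : LM κ lam} {S : Scene Lm} (hS : S.OK) {D : S.Dat} (l : S.ls) {i i' : S.L}
  {Wi Wi' A' A'' h h' : Type} [Fintype A'] [DecidableEq A'] [Fintype h]
  [Fintype A''] [DecidableEq A''] [Fintype h'] {r n r' n' : ℕ}
  {J : Job Wi (D.Λ i) A' h r n} {J' : Job Wi' (D.Λ i') A'' h' r' n'} {c c' : S.M.Cl}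

/-- only `l` is broken -/
def t1 : S.A → ℝ := Pi.single l.1 1

theorem t1_ne {x : S.A} (k : t1 l x ≠ 0) : x = l := by_contra fun e => k (Pi.single_eq_of_ne e _)

theorem t1_self : t1 l l = 1 := Pi.single_eq_same _ _

theorem t1_par : t1 l ∈ S.M.sys.Par := ⟨fun x => by
    by_cases e : x = l
    · rw [e, t1_self]; norm_num
    · rw [show t1 l x = 0 from Pi.single_eq_of_ne e _]; norm_num,
  fun x hx y hy e => (e ((t1_ne l hx).trans (t1_ne l hy).symm)).elim⟩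

/-- its face -/
abbrev c1 : S.M.Cl := S.M.cOf (t1_par l)

theorem c1_eq : (c1 l).1 = {l.1} := Subset.antisymm
  (fun x (k : t1 l x = 1) => t1_ne l (k ▸ one_ne_zero)) (singleton_subset_iff.2 (t1_self l))

/-- the base point of the trivial job -/
abbrev b1 (D : S.Dat) {j : S.L} (G : XG Empty (S.N j)) (u : ℝ) :
    Bp (jb0 (D.Λ j) G (c1 l) (u, t1 l)) (c1 l) :=
  ⟨Empty.elim, Mark.mem_Br_cOf (p := (u, t1 l)) _, Mark.mem_O_cOf (p := (u, t1 l)) _⟩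

theorem pc1 {ρ : Reg S.A} : S.M.sys.Piece (c1 l).1 ρ ↔ ∃ e, ρ = hp l.1 e := by
  have := S.M.con
  rw [c1_eq]
  have k : ∀ b, S.M.sys.Piece {l.1} (hp l.1 b) := fun b =>
    ⟨⟨(pairwise_singleton _ _).mono fun _ => bd_hp, fun a b' k => by
      obtain ⟨rfl, rfl⟩ := Kl48.hp_eq.1 k
      exact inter_subset_right.trans Kl48.U_hp.ge⟩, fun _ => bd_hp,
      fun a m i => Kl48.hp_none.1 i.1 m⟩
  refine ⟨fun h => ?_, fun ⟨_, h⟩ => h ▸ k _⟩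
  obtain ⟨p, hp⟩ := h.toIsReg.nonempty
  obtain ⟨b, e⟩ := h.side (pairwise_singleton _ _) rfl
  exact ⟨b, h.unique (pairwise_singleton _ _) (k _) hp (Kl48.U_hp.ge (e hp))⟩

include hS

/-- the inside of `l` does not depend on the other walls -/
theorem exists_mx (hJ : J.OK) (b : Bp J c) (hl : l.1 ∈ c.1) {G : XG Empty (S.N i)} {u : ℝ}
    (hu : (J.Θ b.s).1 = u)
    (t : Twin J (jb0 (D.Λ i) G (c1 l) (u, t1 l)) l) {ZR : Mf 4} {bR : BG κ (lam ⊕ lam) ZR}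
    (hR : ∃ (p : GP bR (jBG (b1 l D G u) {hp l.1 true})) (f : _), p.Gl f) :
    ∃ m : Mx (jBG b {hp l.1 false}) bR S i, m.OK l univ := by
  subst hu
  have := S.M.con
  have hn := hS.lsp l l.2
  have pc := Lix26.piece hS l hl
  obtain ⟨pR, fR, gR⟩ := hR
  obtain ⟨pL, fL, gL⟩ := gp_tw hJ (jb0_ok _ _ _ _) t b (b1 l D G _) (LId.refl (S.N i))
    (fun _ => rfl) (a₀ := l.1) rfl rfl hn (fun _ => rfl) pc ((pc1 l).2 ⟨_, rfl⟩) (subset_univ _)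
    fun x hx => by
      have r : RelAt (.refl S.M) (J.Θ b.s).2 (t1 l) x := relAt_refl b.br.1 (t1_par l) fun a k => by
        by_cases e : a = l
        · rw [e, t1_self]; exact (b.br.2 hl).symm
        · rw [show t1 l a = 0 from Pi.single_eq_of_ne e _]
          refine (by_contra fun k' => ?_ : (J.Θ b.s).2 a = 0).symm
          exact (S.M.sys.w l).not_mem_sd hx (hS.lsi l l.2 a e (b.br.1.2 k'
            (show (J.Θ b.s).2 l ≠ 0 from (show (J.Θ b.s).2 l = 1 from b.br.2 hl) ▸ one_ne_zero) e) k)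
      exact ⟨r.co D.std D.std (Mark.inf_eq b.br b.O ▸ disjoint_left.1 (pc.disjoint_cores c.2)
        (Kl48.U_hp.ge hx)) (co_id.2 (.refl _)), r.con (D.lstd i) (D.lstd i) (LId.refl _) trivial
          (by rw [th_p, zero_add]; exact congrFun (Dr59.pm_id _) x)⟩
  have cy : cylW (c1 l) = {l.1} := Subset.antisymm (fun _ k => (c1_eq l).le k.1)
    (singleton_subset_iff.2 ⟨(c1_eq l).ge rfl, hn⟩)
  refine ⟨⟨_, _, _, c1 l, S.M.c0, b1 l D G _, top S.A, hp l.1, pL, pR, fL, fR⟩,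
    ⟨D.nrm, D.lnrm i, jb0_ok _ _ _ _, fun _ k => k.1, ?_, S.M.sys.piece_top⟩, S.M.sys.U_top,
    fun ρ => ⟨fun k => (pc1 l).1 k.1, fun k => ⟨(pc1 l).2 k, ?_⟩⟩, fun _ => Kl48.hp_self, cy, ?_,
    gL, gR⟩
  · exact (eq_empty_of_forall_notMem fun x (k : x ∈ (c1 l).1 ∧ S.M.pin x) =>
      hn ((c1_eq l).le k.1 ▸ k.2)).symm
  · exact (subset_univ _).trans S.M.sys.U_top.ge
  · exact S.M.sys.inn_top.ge trivial

open Classical in
/-- the outside of `l` does not depend on the flip -/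
theorem gp_out {G : XG Empty (S.N i)} {G' : XG Empty (S.N i')} (hi : i' = i ∨ i' = S.fl l i) (u : ℝ)
    (t : Twin (jb0 (D.Λ i) G (c1 l) (u, t1 l)) (jb0 (D.Λ i') G' (c1 l) (u, t1 l)) l) :
    ∃ (p : GP (jBG (b1 l D G u) {hp l.1 true}) (jBG (b1 l D G' u) {hp l.1 true})) (f : _),
      p.Gl f := by
  have := S.M.con
  have hn := hS.lsp l l.2
  have pc := (pc1 l).2 ⟨true, rfl⟩
  have nc : ∀ x ∈ (S.M.sys.w l).sd true, x ∉ S.M.sys.cores (Sys.inf (t1 l)) := fun x hx =>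
    disjoint_left.1 (pc.disjoint_cores (c1 l).2) (Kl48.U_hp.ge hx)
  rcases hi with rfl | rfl
  · refine gp_tw (jb0_ok _ _ _ _) (jb0_ok _ _ _ _) t _ _ (LId.refl (S.N i')) (fun _ => rfl)
      (a₀ := l.1) rfl rfl hn (fun _ => rfl) pc pc (subset_univ _) fun x hx => ?_
    have r : RelAt (.refl S.M) (t1 l) (t1 l) x := relAt_refl (t1_par l) (t1_par l) fun _ _ => rfl
    exact ⟨r.co D.std D.std (nc x hx) (co_id.2 (.refl _)), r.con (D.lstd _) (D.lstd _) (LId.refl _)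
      trivial (by rw [th_p, zero_add]; exact congrFun (Dr59.pm_id _) x)⟩
  · refine gp_tw (jb0_ok _ _ _ _) (jb0_ok _ _ _ _) t _ _ (hS.out l l.2 i) (fun _ => rfl)
      (a₀ := ⟨l.1, subset_union_right⟩) rfl rfl hn (fun _ => rfl) pc pc subset_union_left
      fun x hx => ?_
    have r : RelAt (selfId S.M (.subtype _ : S.Ou l ↪ S.A)) (t1 l) (t1 l) x :=
      ⟨t1_par l, t1_par l, trivial, fun a k _ => by
        obtain rfl := t1_ne l k; exact ⟨⟨l.1, subset_union_right⟩, rfl, rfl⟩, fun a k _ => by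
        obtain rfl := t1_ne l k; exact ⟨⟨l.1, subset_union_right⟩, rfl, k⟩⟩
    exact ⟨r.co D.std D.std (nc x hx) (co_id.2 (.refl _)), r.con (D.lstd _) (D.lstd _)
      (hS.out l l.2 i) (.inl hx) (by
        rw [th_p, zero_add]
        exact (congrFun (Dr59.pm_id _) x).trans (D.agr l l.2 i u (.inl hx)))⟩

theorem cy_tw (hi : i' = i ∨ i' = S.fl l i) : (S.N i').cy l = (S.N i).cy l := by
  rcases hi with rfl | rfl
  exacts [rfl, Ins26.On.cy_fl hS l i]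

theorem nb_tw (hi : i' = i ∨ i' = S.fl l i) :
    ∃ β sg l2, S.Nb i univ β sg l2 ∧ S.Nb i' univ β sg l2 := by
  obtain ⟨β, sg, l2, k⟩ := Ins26.exists_nb_univ i
  obtain ⟨β', sg', l2', k'⟩ := Ins26.exists_nb_univ i'
  obtain ⟨_, _, _, _, _, e, -⟩ := id k
  obtain rfl : β' = β := (Num57.nb_eq k' e).1.trans (Num57.nb_eq k e).1.symm
  obtain rfl : sg' = sg := (Num57.nb_eq k' e).2.1.trans (Num57.nb_eq k e).2.1.symm
  obtain rfl : l2' = l2 := by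
    rw [Ins26.l2_eq k, Ins26.l2_eq k']
    rcases hi with rfl | rfl
    exacts [rfl, congrArg (· / _) (hS.lv l l.2 i)]
  exact ⟨_, _, _, k, k'⟩

/-- **the twin job** -/
theorem twin_ex (hJ : J.OK) (hi : i' = i ∨ i' = S.fl l i) :
    ∃ G : XG Empty (S.N i'), Twin J (twJ J (D.Λ i') G) l :=
  let ⟨G, k1, k2⟩ := exists_xg hJ (cy_tw hS l hi)
  ⟨G, by rw [show (twJ J (D.Λ i') G).xs l = _ from k1], k2⟩

/-- **the relative index of standard configurations** -/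
theorem rel_pd (L : IxL κ (lam ⊕ lam) 8) (hR : RadStmt Lm) (hJ : J.OK) (hJ' : J'.OK)
    (hi : i' = i ∨ i' = S.fl l i) (t : Twin J J' l) (hl : l.1 ∈ c.1) (hl' : l.1 ∈ c'.1)
    {b : Bp J c} {b' : Bp J' c'} (hu : (J'.Θ b'.s).1 = (J.Θ b.s).1) {γ γ'} (hγ : HEq (γ' l.1) (γ l.1))
    {δ : ℝ} (h0 : 0 < δ) (h1 : δ ≤ Cht98.dl0) {f : Bool} {w : ℤ}
    (ad : (J.xs l).D.Adm (γ l.1)) (hF : Fz κ (lam ⊕ lam) 8 (jX J l) f (γ l.1) δ)
    (hw : (jX J l).bg.Ix (spO f univ) (cy (γ l.1)) 8 δ w) {k k' : ℝ} {d d' : ℤ}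
    (P : Pd b γ δ f (hp l.1 false) k d) (P' : Pd b' γ' δ f (hp l.1 false) k' d') :
    (∃ m : ℤ, k' - k = m) ∧ (d' : ℝ) - (bif f then 6 else 8) * k' = d - (bif f then 6 else 8) * k := by
  classical
  obtain ⟨G, g1, g2⟩ := exists_xg (N' := S.N i) (a := l.1) hJ rfl
  obtain ⟨G', g3, g4⟩ := exists_xg hJ (cy_tw hS l hi)
  set u := (J.Θ b.s).1
  have t₁ : Twin J (jb0 (D.Λ i) G (c1 l) (u, t1 l)) l := ⟨congrArg nx g1, g2⟩
  have t₂ : Twin J' (jb0 (D.Λ i') G' (c1 l) (u, t1 l)) l :=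
    ⟨(congrArg nx g3).trans t.xs.symm, g4.trans t.g.symm⟩
  obtain ⟨m, o⟩ := exists_mx hS l hJ b hl rfl t₁ (gp_out hS l (.inl rfl) u ⟨rfl, .rfl⟩)
  obtain ⟨m', o'⟩ := exists_mx hS l hJ' b' hl' hu t₂ (gp_out hS l hi u
    ⟨congrArg nx (g3.trans g1.symm), g4.trans g2.symm⟩)
  obtain ⟨β, sg, l2, nb, nb'⟩ := nb_tw hS l hi
  have ok0 := jb0_ok (D.Λ i) G (c1 l) (u, t1 l)
  have e1 := t₁.jx
  let γ₁ : ∀ a, (jX (jb0 (D.Λ i) G (c1 l) (u, t1 l)) a).C := update (fun _ => yc0 _) l.1 (e1 ▸ γ l.1)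
  have q₁ : HEq (γ₁ l.1) (γ l.1) := (heq_of_eq (update_self _ _ _)).trans (eqRec_heq _ _)
  have tr : ∀ {X X' : XD κ (lam ⊕ lam)} (_ : X' = X) {β : X.C} {β' : X'.C}, HEq β' β →
      X.D.Adm β ∧ Fz κ (lam ⊕ lam) 8 X f β δ → X'.D.Adm β' ∧ Fz κ (lam ⊕ lam) 8 X' f β' δ := by
    rintro _ _ rfl _ _ ⟨⟩ k; exact k
  have pR := (pc1 l).2 ⟨true, rfl⟩
  have ed : ∀ {c : S.M.Cl} {e} (j : EdP c {hp l.1 e}), j.1.1.1 = l := fun j =>
    bd_hp (Sys.mem_bd_of (EdP.eq j))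
  obtain ⟨kR, dR, xR, sR, iR, -⟩ := pd_ex L ok0 D.nrm (D.lnrm i) (fun _ k => k.1) pR h0 h1
    (b1 l D G u) (γ := γ₁) (f := f) fun j => by rw [ed j]; exact tr e1 q₁ ⟨ad, hF⟩
  obtain ⟨x, s, ix, rfl⟩ := P
  obtain ⟨x', s', ix', rfl⟩ := P'
  have okR := jBG_ok1 ok0 (b1 l D G u) (P := {hp l.1 true}) fun _ k => k ▸ pR
  have hX : ∃ j, ((jBG (b1 l D G u) {hp l.1 true}).E j).X = jX J l :=
    ⟨toE ⟨(c1_eq l).ge rfl, hS.lsp l l.2⟩ Kl48.hp_self, e1⟩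
  have hq : ∀ j : EdP (c1 l) {hp l.1 true}, HEq (γ₁ j.1.1.1) (γ l.1) := fun j => by
    rw [ed j]; exact q₁
  obtain ⟨⟨n₁, a1⟩, a2⟩ := o.two L hR nb
    (jBG_ok1 hJ b fun _ k => k ▸ Lix26.piece hS l hl) okR hX
    (fun j => congr_arg_heq γ (ed j)) hq s sR h0 h1
    hF hw ix iR
  obtain ⟨⟨n₂, a3⟩, a4⟩ := o'.two L hR nb'
    (jBG_ok1 hJ' b' fun _ k => k ▸ Lix26.piece hS l hl') okR hX
    (fun j => (congr_arg_heq γ' (ed j)).trans hγ) hq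
    s' sR h0 h1 hF hw ix' iR
  rw [← un_one, ← un_one]
  refine ⟨⟨n₂ - n₁, by push_cast; linear_combination a3 - a1⟩, ?_⟩
  simp only [fm] at a2 a4
  linear_combination a4 - a2

/-- the comparison of two objects with the same limit inside `l` -/
def RelAt (J : Job Wi (D.Λ i) A' h r n) (J' : Job Wi' (D.Λ i') A'' h' r' n') (c c' : S.M.Cl)
    (l : S.A) (δ : ℝ) : Prop := ∀ (z : J.Obc c) (z' : J'.Obc c') β, (J'.Θ z'.s).1 = (J.Θ z.s).1 →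
  Go δ z {hp l false} → Go δ z' {hp l false} → HEq (z'.β l false) β →
  (J.xs l).D.Eqv (z.β l false) β → ∀ f d d', Rf65.Ix δ z {hp l false} (spO f {hp l false}) d →
  Rf65.Ix δ z' {hp l false} (spO f {hp l false}) d' →
  (∃ m : ℤ, Lix26.kI z' l - Lix26.kI z l = m) ∧
    (d' : ℝ) - (bif f then 6 else 8) * Lix26.kI z' l = d - (bif f then 6 else 8) * Lix26.kI z l

/-- **the relative index** -/
theorem relF (L : IxL κ (lam ⊕ lam) 8) (hR : RadStmt Lm) (hC : ∀ Z, ChStmt Z κ (lam ⊕ lam) 8)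
    (hI : Inv14.PInvStmt κ (lam ⊕ lam) 8) (hJ : J.OK) (hJ' : J'.OK) (hi : i' = i ∨ i' = S.fl l i)
    (t : Twin J J' l) (hl : l.1 ∈ c.1) (hl' : l.1 ∈ c'.1) (hN : Nil (J.xs l).N)
    (py : ∃ b, PY (J.xs l).D b) : ∃ δ₀ > 0, ∀ δ ∈ Ioc 0 δ₀, RelAt J J' c c' l δ := by
  classical
  obtain ⟨δ₁, p, I⟩ := hI (jX J l) (jX_ok hJ l) hN py
  refine ⟨min δ₁ Cht98.dl0, lt_min p Cht98.dl0_pos, fun δ hδ z z' β hu g g' hβ e f d d' ix ix' => ?_⟩
  replace I := I δ ⟨hδ.1, hδ.2.trans (min_le_left _ _)⟩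
  have h1 := hδ.2.trans (min_le_right _ _)
  have hn := hS.lsp l l.2
  have bs : Bs (J.xs l).D (z.β l false) := g.bs (⟨l, hl, hn⟩, false) ⟨_, rfl, Kl48.hp_self⟩
  have bs' : Bs (J'.xs l).D (z'.β l false) := g'.bs (⟨l, hl', hn⟩, false) ⟨_, rfl, Kl48.hp_self⟩
  have tr : ∀ {X' : XD κ (lam ⊕ lam)} (_ : X' = jX J l) (β' : X'.C), HEq β' β → Bs X'.D β' →
      ∃ γ' : X'.C, HEq γ' (z.β l false) ∧ Nil X'.N ∧ (∀ f, Fz κ (lam ⊕ lam) 8 X' f β' δ) ∧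
        X'.D.Adm γ' ∧ X'.D.Eqv γ' β' := by
    rintro _ rfl _ ⟨⟩ k
    exact ⟨_, .rfl, hN, fun f => (I _ f k).1, bs.adm, e⟩
  obtain ⟨γ₀, q1, q2⟩ := tr t.jx _ hβ bs'
  let γ' : ∀ a, (jX J' a).C := update (fun a => z'.β a false) l.1 γ₀
  have q3 : γ' l.1 = γ₀ := update_self _ _ _
  refine rel_pd hS l L hR hJ hJ' hi t hl hl' (b := g.bp) (b' := g'.bp) hu
    (γ := fun a => z.β a false) (γ' := γ') (q3 ▸ q1) hδ.1 h1 bs.adm (I _ f bs).1 (I _ f bs).2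
    (pd_go L.std (hC _) hJ (Lix26.piece hS l hl) hδ.1 h1 g ?_ ix)
    (pd_go L.std (hC _) hJ' (Lix26.piece hS l hl') hδ.1 h1 g' ?_ ix')
  · rintro ⟨⟨a, ha⟩, o⟩ ⟨_, rfl, k⟩
    obtain ⟨rfl, rfl⟩ := Kl48.hp_eq.1 k
    exact ⟨hN, fun f => (I _ f bs).1, bs.adm, _, _,
      Eqv71.ceq_refl bs.ok.B bs.ok.G (Add46.ad0_cy bs.adm) isOpen_univ⟩
  · rintro ⟨⟨a, ha⟩, o⟩ ⟨_, rfl, k⟩
    obtain ⟨rfl, rfl⟩ := Kl48.hp_eq.1 k
    exact q3 ▸ q2

omit hS in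
/-- the same in terms of `ia`, `idr` -/
theorem RelAt.num {l : S.A} {δ : ℝ} (H : RelAt J J' c c' l δ) {z : J.Obc c} {z' : J'.Obc c'} {β}
    (hu : (J'.Θ z'.s).1 = (J.Θ z.s).1) (g : Go δ z {hp l false}) (g' : Go δ z' {hp l false})
    (hβ : HEq (z'.β l false) β) (e : (J.xs l).D.Eqv (z.β l false) β)
    (x : Rf65.Ix δ z {hp l false} ∅ (ia δ z (hp l false)) ∧ Rf65.Ix δ z {hp l false} {hp l false}
      (ia δ z (hp l false) + idr δ z (hp l false)))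
    (x' : Rf65.Ix δ z' {hp l false} ∅ (ia δ z' (hp l false)) ∧
      Rf65.Ix δ z' {hp l false} {hp l false} (ia δ z' (hp l false) + idr δ z' (hp l false))) :
    (∃ m : ℤ, Lix26.kI z' l - Lix26.kI z l = m) ∧
      (ia δ z' (hp l false) : ℝ) - 8 * Lix26.kI z' l = ia δ z (hp l false) - 8 * Lix26.kI z l ∧
      (idr δ z' (hp l false) : ℝ) + 2 * Lix26.kI z' l = idr δ z (hp l false) + 2 * Lix26.kI z l := by
  obtain ⟨a1, a2⟩ := H z z' β hu g g' hβ e false _ _ x.1 x'.1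
  obtain ⟨-, a3⟩ := H z z' β hu g g' hβ e true _ _ x.2 x'.2
  simp only [cond, Int.cast_add] at a2 a3
  exact ⟨a1, a2, by linear_combination a3 - a2⟩

end Crest.Agent.X212.Lx95
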