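import Crest.Agent.X212.Lns95.Mod
import Crest.Agent.X212.G75.Defs
import Crest.Agent.X212.M.Geq
import Crest.Agent.X212.Dr59.Tex

/-!
# X212 / LENS (helper95), part Wld: the model `LOK` of a lens wall; worlds are models inside it
-/

open scoped Manifold ContDiff Topology
open Set Function Filter

set_option autoImplicit false
set_option linter.unusedSectionVars false

noncomputable section
namespace Crest.Agent.X212.Lns95
open Crest.Agent.R208.F (Ext)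
open An M
open Met55 (VF Co atx pd_ld pd_ld')
open Line51 (Ln)
open Dr59 (mf pm pm_comp pm_congr pm_congr_right ne0)
open Int54 (SameOn)
open Cyf70 (IC ce)
open G75 (LM Scene hf)

section push
variable {E H : Type} [NormedAddCommGroup E] [NormedSpace ℝ E] [FiniteDimensional ℝ E]
  [MeasurableSpace E] [BorelSpace E] [TopologicalSpace H] {I : ModelWithCorners ℝ E H} {M : Type}
  [TopologicalSpace M] [ChartedSpace H M] [IsManifold I ∞ M] [I.Boundaryless] [MeasurableSpace M]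
  [BorelSpace M] {E' H' : Type} [NormedAddCommGroup E'] [NormedSpace ℝ E'] [FiniteDimensional ℝ E']
  [MeasurableSpace E'] [BorelSpace E'] [TopologicalSpace H'] {J : ModelWithCorners ℝ E' H'} {Y : Type}
  [TopologicalSpace Y] [ChartedSpace H' Y] [IsManifold J ∞ Y] [J.Boundaryless] [MeasurableSpace Y]
  [BorelSpace Y] {o : M → Ext E} {n : ℕ} {N : Set M} {D : Dsc I o n N}
  {φ : PartialDiffeomorph I J M Y ∞} (hN : N ⊆ φ.source) {o' : Y → Ext E'}
  (ho : SameOn o (pm I J φ o') N) {P : Prf n} {h : ℝ → ℝ} {ι : Type} [Fintype ι]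

theorem Dsc.mv_push {v : Y → ι → E'} (k : ∀ b, ∀ x ∈ D.O b, D.w b x ≠ 0 → ∀ α : Fin 4 → E' →ₗ[ℝ] ℝ,
    (∀ i r, α i (mf I J φ x r) = cvG I n (h (‖D.w b x‖ ^ 2)) (P.f (‖D.w b x‖ ^ 2)) (D.u b) (D.w b) x i r) →
    Onv α (v (φ x))) : (D.push φ hN ho).MV P h v := by
  rintro b _ ⟨x, hx, rfl⟩ h0
  have s := hN (D.sub b hx)
  have e : φ.symm (φ x) = x := φ.left_inv s
  have e' : (D.push φ hN ho).w b (φ x) = D.w b x := congrArg (D.w b) e
  rw [e'] at h0 ⊢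
  refine k b x hx h0 _ fun i r => ?_
  have d := (pd_ld' (φ.map_source s)).mdifferentiableAt ne0
  refine (cvG_comp d (e.symm ▸ (D.ch b).su x hx) (e.symm ▸ (D.ch b).sw x hx) _ _ _ i _).trans ?_
  have := Dr59.mf_comp d ((pd_ld s).mdifferentiableAt ne0)
  rw [Dr59.mf_congr (f := φ.symm ∘ φ) (g := id) (eventually_of_mem (φ.open_source.mem_nhds s) fun y hy => φ.left_inv hy),
    Dr59.mf_id] at this
  rw [e]
  exact congrArg _ (DFunLike.congr_fun this r).symm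

theorem Dsc.MV.push {κ : Type} [Fintype κ] {v : M → κ → E} {v' : Y → ι → E'} (m : D.MV P h v)
    (c : ∀ x ∈ N, Co (fun i => mf I J φ x (v x i)) (v' (φ x))) : (D.push φ hN ho).MV P h v' :=
  D.mv_push hN ho fun b x hx h0 _ e => .of_co (fun i j =>
    (Finset.sum_congr rfl fun a _ => by rw [e, e]).trans (m b x hx h0 i j)) (c x (D.sub b hx))

variable {κ κ' : Type} [Fintype κ] [Fintype κ'] {K : Ln E M κ} {L : Ln E' Y κ'} {ψ q : ℝ → ℝ}
  {v : M → Matrix κ' κ ℂ}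

theorem fr_push {b : Bool} {s : M → Matrix κ Unit ℂ} (hs : K.Fr I s (al I ψ q (D.u b) (D.w b)) (D.O b))
    (hv : Line51.Iso I K (L.pull I J φ) v N) :
    L.Fr J (fun z => v (φ.symm z) * s (φ.symm z))
      (al J ψ q ((D.push φ hN ho).u b) ((D.push φ hN ho).w b)) ((D.push φ hN ho).O b) := by
  have k := fun z (hz : z ∈ φ '' D.O b) => D.pre φ hN hz
  have d := fun z hz => (pd_ld' (k z hz).2).contMDiffAt
  refine ((hs.trans (hv.mono (D.sub b))).pull (J := J) ⟨d, fun z hz => (k z hz).1⟩).of_eq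
    (fun _ _ => rfl) (fun z hz => (pm_al ((d z hz).mdifferentiableAt ne0) ((D.ch b).su _ (k z hz).1)
      ((D.ch b).sw _ (k z hz).1) ψ q).symm)
    (fun z hz => congrArg L.p (φ.right_inv (k z hz).2).symm) fun z hz => ?_
  exact ((pm_comp ((pd_ld (hN (D.sub b (k z hz).1))).mdifferentiableAt ne0)
    ((d z hz).mdifferentiableAt ne0)).trans (Dr59.pm_of_eventually_id (eventually_of_mem
      (φ.open_target.mem_nhds (k z hz).2) fun y hy => φ.right_inv hy) _)).symm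

theorem Dsc.LF.push (l : D.LF K ψ q) (hv : Line51.Iso I K (L.pull I J φ) v N) :
    (D.push φ hN ho).LF L ψ q := fun b => let ⟨_, hs⟩ := l b; ⟨_, fr_push hN ho hs hv⟩

end push

theorem Prf.pra {n : ℕ} (P : Prf n) (hn : n ≠ 0) {x : ℝ} (hx : 0 < x) : PrA P.H P.f P.f1 P.f2 x := by
  have ev := eventually_gt_nhds hx
  have s0 : ContDiffAt ℝ ∞ (fun x => √x) x := Real.contDiffAt_sqrt hx.ne'
  have p0 := Real.sqrt_pos.2 hx
  have s1 := P.s1 x hx.le
  have s2 := P.s2 x hx.le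
  have s3 := P.s3 x hx.le
  have p1 := P.pos1 x hx.le
  have p2 := P.pos2 x hx.le
  refine ⟨ContDiffAt.congr_of_eventuallyEq ?_ (ev.mono P.eH), .congr_of_eventuallyEq ?_ (ev.mono P.ef),
    .congr_of_eventuallyEq ?_ (ev.mono P.ef1), ?_, ?_, P.df x hx, P.df1 x hx⟩
  · exact .div (by fun_prop) (by fun_prop) (by positivity)
  · fun_prop
  · fun_prop
  · rw [P.eH x hx]; positivity
  · rw [P.ef x hx]; positivity

/-- the length of `∂_s` in a standard world -/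
def lmb (t s : ℝ) : ℝ := √(1 - tau t * chi s + tau t * chi s * sig t s ^ 2)

theorem lmb_in {t s : ℝ} (h : s ≠ 0) : 0 < 1 - tau t * chi s + tau t * chi s * sig t s ^ 2 := by
  have h1 := pow_pos (sig_pos (t := t) (.inr h)) 2
  have h2 := mul_nonneg (tau_nonneg t) (chi_nonneg s)
  rcases (mul_le_one₀ (tau_le_one t) (chi_nonneg s) (chi_le_one s)).eq_or_lt with k | k
  · rw [k]; linarith
  · nlinarith

theorem lmb_one {t s : ℝ} (h : s ≤ -2) : lmb t s = 1 := by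
  simp [lmb, chi_eq_zero (s := s) (le_abs.2 (.inr (by linarith)))]

namespace LB
variable {X : Mf 4} {o : X.M → Ext X.E} {n : ℕ} {B : Band X} {κ : Type} [Fintype κ]
  {e : κ → VF B.Y.I B.Y.M} (L : LB X o n B e) {t x s : ℝ} {b : Bool} {y : X.M}

/-- `dr = hT t dx` when the neck has the parameter `t` -/
def hT (t x : ℝ) : ℝ := if x < L.g (-2) then L.P.H x else L.P.H x / lmb t (invFunOn L.g univ x)

theorem inv_g (s : ℝ) : invFunOn L.g univ (L.g s) = s :=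
  L.band.up.strictMono.injective.injOn.leftInvOn_invFunOn trivial

theorem hT_g (t s : ℝ) : L.hT t (L.g s) = L.P.H (L.g s) / lmb t s := by
  rw [hT, L.inv_g]
  split_ifs with h
  · rw [lmb_one (L.band.up.strictMono.lt_iff_lt.1 h).le, div_one]
  · rfl

theorem cases (hy : y ∈ L.D.O b) : (∃ q, q.2 ∈ Ioo (-3 : ℝ) 0 ∧ B.j q = y) ∨
    ‖L.D.w b y‖ ^ 2 < L.g (-2) ∧ ∀ q, B.j q = y → q.2 ≤ -2 := by
  by_cases h : y ∈ B.j '' (univ ×ˢ Ioo (-3) 0)
  · exact .inl (h.imp fun q h => ⟨h.1.2, h.2⟩)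
  refine .inr ⟨(L.band.lo b y hy h).trans_lt (L.band.up.strictMono (by norm_num)), ?_⟩
  rintro q rfl
  have := B.j_mem_sd.1 (L.D.sub b hy)
  exact not_lt.1 fun k => h ⟨q, ⟨trivial, by linarith, by simpa [M.pm] using this⟩, rfl⟩

theorem pra (hN : NeckStmt) (t : ℝ) (hy : y ∈ L.D.O b) (h0 : L.D.w b y ≠ 0) :
    PrA (L.hT t) L.P.f L.P.f1 L.P.f2 (‖L.D.w b y‖ ^ 2) := by
  have p := L.P.pra L.n0 (x := ‖L.D.w b y‖ ^ 2) (by positivity)
  rcases L.cases hy with ⟨q, hq, rfl⟩ | h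
  · rw [(hN _ _ _ _ _ _ L 0 b q hq hy).1] at p ⊢
    have f := L.fl _ _ (le_refl (L.g q.2))
    have l := lmb_in (t := t) hq.2.ne
    have i := (L.band.up.inv isOpen_univ ordConnected_univ _ ⟨q.2, trivial, rfl⟩).1
    have c : ContDiffAt ℝ ∞ (lmb t) (invFunOn L.g univ (L.g q.2)) := by
      rw [L.inv_g]
      have := contDiffAt_sig_right (t := t) (.inr hq.2.ne)
      have := contDiff_chi.contDiffAt (x := q.2)
      exact .sqrt (by fun_prop) l.ne'
    refine ⟨.congr_of_eventuallyEq (p.sh.div (c.comp _ i) ?_) (eventually_of_mem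
      ((L.band.up.isOpen_image isOpen_univ).mem_nhds ⟨_, trivial, rfl⟩) ?_), p.sf, p.sf1, ?_, p.pf,
      p.df.congr_deriv (by simp [f]), p.df1.congr_deriv (by simp [f])⟩
    · rw [comp_apply, L.inv_g]; exact (Real.sqrt_pos.2 l).ne'
    · rintro _ ⟨s, -, rfl⟩
      rw [L.hT_g, Pi.div_apply, comp_apply, L.inv_g]
    · rw [L.hT_g]; exact div_pos p.ph (Real.sqrt_pos.2 l)
  · have e : L.hT t =ᶠ[𝓝 (‖L.D.w b y‖ ^ 2)] L.P.H := (eventually_lt_nhds h.1).mono fun x hx => if_pos hx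
    exact ⟨p.sh.congr_of_eventuallyEq e, p.sf, p.sf1, e.self_of_nhds ▸ p.ph, p.pf,
      e.self_of_nhds ▸ p.df, e.self_of_nhds ▸ p.df1⟩

end LB

variable {κ lam : Type} [Fintype κ] [Fintype lam] [DecidableEq lam]

/-- **the model of a lens wall carries the explicit metric and the explicit connections** -/
structure LOK (Lm : LM κ lam) (n : ℕ) where
  L : LB Lm.X Lm.M.o n (Lm.M.bn ()) (Lm.M.gY ()).e
  k : Bool → ℤ
  s : Bool → Bool → Lm.X.M → Matrix lam Unit ℂ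
  np : ¬Lm.M.pin ()
  mv : L.D.MV L.P L.P.H (atx (Lm.B.r 0))
  prod : ∀ q : (Lm.M.bn ()).Y.M × ℝ, -3 < q.2 → q.2 ≤ 1 →
    Co (fun i => mf (IC (Lm.M.bn ()).Y.I) Lm.X.I (Lm.M.bn ()).j q (atx (ce (Lm.M.gY ()).e) q i))
      (atx (Lm.B.r 0) ((Lm.M.bn ()).j q))
  fr : ∀ σ b, Ln.Fr Lm.X.I ⟨(Lm.N σ).p, (Lm.b σ).b 0⟩ (s σ b)
    (L.P.al Lm.X.I (-(k σ) / n) (L.D.u b) (L.D.w b)) (L.D.O b)
  flat : ∀ σ (q : (Lm.M.bn ()).Y.M × ℝ), -3 < q.2 → q.2 ≤ 1 →
    pm (IC (Lm.M.bn ()).Y.I) Lm.X.I (Lm.M.bn ()).j ((Lm.b σ).b 0) q = (Lm.N σ).nA () q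
  agr : EqOn ((Lm.b true).b 0) ((Lm.b false).b 0) (hf Lm.M () true)

/-- the base data exist -/
theorem exists_lok (hM : MetStmt) (hL : LinStmt) {X : Mf 4} (M : Mark X Unit κ) (N : Bool → ML M lam)
    (cut : Bool → Cut X.M (lam ⊕ lam)) {n : ℕ} (L : LB X M.o n (M.bn ()) (M.gY ()).e) (np : ¬M.pin ())
    {k : Bool → ℤ} (S : LL L (fun σ => (N σ).p) k ((N false).nA ())) (e : (N true).nA () = (N false).nA ()) :
    ∃ B b, ∃ K : LOK (⟨X, M, N, B, b, cut⟩ : LM κ lam) n, K.k = k ∧ K.s = fun σ => (S.S σ).s := by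
  have := M.cpt
  obtain ⟨B, -, h1, h2⟩ := hM X M.o n _ κ _ L
  obtain ⟨b, -, h3, h4, h5⟩ := hL X M.o n _ κ _ L lam _ k _ S
    ((((N false).um ()).mono fun _ h => (abs_lt.2 h.2).le).sm_th.add (((N false).okY ()).sa.pm
      ⟨fun _ _ => contMDiffAt_fst, mapsTo_univ _ _⟩))
    ((Line51.dg_th _).add (((N false).okY ()).dg.pm (mapsTo_univ _ univ)))
  exact ⟨B, b, ⟨L, k, _, np, h1, h2, h3, fun σ q a c => (h4 σ q a c).trans (by cases σ <;> simp [e]), h5⟩,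
    rfl, rfl⟩

section world
variable {X X' : Mf 4} {A A' A₀ : Type} [Fintype A] [Fintype A'] [Fintype A₀] {M : Mark X A κ}
  {M' : Mark X' A' κ} {J : MId M M' A₀} {a : A₀} {q : (M.bn (J.f a)).Y.M × ℝ}

variable (J a) in
/-- the identification of the bands -/
abbrev gam (q : (M.bn (J.f a)).Y.M × ℝ) : (M'.bn (J.f' a)).Y.M × ℝ := (J.g a q.1, q.2)

theorem md_gam : MDifferentiableAt (IC (M.bn (J.f a)).Y.I) (IC (M'.bn (J.f' a)).Y.I) (gam J a) q :=
  ((md_dif (J.g a) q.1).comp q mdifferentiableAt_fst).prodMk mdifferentiableAt_snd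

theorem pm_gam (β : X'.M → Ext X'.E) : pm (IC (M.bn (J.f a)).Y.I) X.I (M.bn (J.f a)).j (pm X.I X'.I J.ψ β) q =
    pm (IC (M.bn (J.f a)).Y.I) (IC (M'.bn (J.f' a)).Y.I) (gam J a)
      (pm (IC (M'.bn (J.f' a)).Y.I) X'.I (M'.bn (J.f' a)).j β) q := by
  rw [pm_comp (J.md (J.sub a ⟨q, rfl⟩)) (((M.bn _).oe.loc q).mdifferentiableAt ne0),
    pm_comp (((M'.bn _).oe.loc _).mdifferentiableAt ne0) md_gam]
  exact congrArg (pm _ _ · β q) (funext (J.jj a))

variable {W : World M'} {u : ℝ} {t : A' → ℝ} (ht : t ∈ M'.sys.Par) (ta : t (J.f' a) ≠ 0)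
  {N : ML M lam} {N' : ML M' lam} {V : Set X.M}

include ht ta in
theorem cm_std {B : Bas X' univ} (std : Std W B) (h0 : q.2 ≠ 0) (α β : X'.E →ₗ[ℝ] ℝ) :
    X212.M.cm (W.k (u, t) (J.ψ ((M.bn (J.f a)).j q))) α β = (1 - tau (t (J.f' a)) * chi q.2) *
      X212.M.cm (atx (B.r u) (J.ψ ((M.bn (J.f a)).j q))) α β + tau (t (J.f' a)) * chi q.2 *
      X212.M.cm (fun i => mf X.I X'.I J.ψ ((M.bn (J.f a)).j q) (mf (IC (M.bn (J.f a)).Y.I) X.I
        (M.bn (J.f a)).j q (M.nf (J.f a) (t (J.f' a)) q i))) α β := by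
  simp only [mf_nf]
  rw [J.jj, std.band u t ht _ ta (gam J a q) (.inr h0)]

include ht ta in
theorem pm_std {Λ : Lns W N'} {β : LBas X' univ} (ls : LStd Λ β) :
    pm (IC (M.bn (J.f a)).Y.I) X.I (M.bn (J.f a)).j (pm X.I X'.I J.ψ (Λ.a0 (u, t))) q =
      (1 - tau (t (J.f' a)) * chi q.2) •
        pm (IC (M.bn (J.f a)).Y.I) X.I (M.bn (J.f a)).j (pm X.I X'.I J.ψ (β.b u)) q +
      (tau (t (J.f' a)) * chi q.2) • pm (IC (M.bn (J.f a)).Y.I) (IC (M'.bn (J.f' a)).Y.I) (gam J a)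
        (N'.nA (J.f' a)) q := by
  rw [pm_gam, pm_gam, Dr59.pm_apply, ls.band u t ht _ ta, map_add, map_smul, map_smul]
  rfl

variable (h : LId N N' J V N.p)
include h

theorem lid_p {x : X.M} (hx : x ∈ V) : N'.p (J.ψ x) = N.p x := by
  rw [← (h.uni.iso x hx).tgt, (N.ok.prj x trivial).herm, (N.ok.prj x trivial).idem]

theorem lid_nA (h3 : |q.2| < 3) (hq : (M.bn (J.f a)).j q ∈ V) :
    pm (IC (M.bn (J.f a)).Y.I) (IC (M'.bn (J.f' a)).Y.I) (gam J a) (N'.nA (J.f' a)) q = N.nA (J.f a) q := by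
  rw [Dr59.pm_apply, ML.nA, map_add, ← Dr59.pm_apply, ← Dr59.pm_apply]
  refine congrArg₂ (· + ·) ?_ ?_
  · rw [Line51.pm_th ((N'.um _).sm _ h3.le) md_gam]
    refine Line51.th_congr ?_
    filter_upwards [(M.bn _).oe.continuous.continuousAt.eventually (h.op.mem_nhds hq),
      (isOpen_lt continuous_snd.abs continuous_const).mem_nhds h3] with r h1 h2
    rw [← h.m a r h2.le h1, ← lid_p h h1, J.jj, ((N'.um _).iso (gam J a r) h2.le).idem]
  · rw [pm_comp mdifferentiableAt_fst md_gam, ← h.LY a]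
    exact (pm_comp (md_dif _ _) mdifferentiableAt_fst).symm

end world

namespace LOK
variable {Lm : LM κ lam} {n : ℕ} (K : LOK Lm n) {X : Mf 4} {A : Type} [Fintype A] {M : Mark X A κ}
  {W : World M} {J : MId Lm.M M Unit} (hs : (Lm.M.sys.w ()).sd false ⊆ J.ψ.source) {u : ℝ} {t : A → ℝ}
  (ht : t ∈ M.sys.Par) (ta : t (J.f' ()) ≠ 0)
  (hi : ∀ a, a ≠ J.f' () → M.sys.Cmp a (J.f' ()) → (M.sys.w a).band ⊆ (M.sys.w (J.f' ())).sd true)

/-- the disc bundle in `X` -/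
def DX : Dsc X.I M.o n (J.ψ '' (Lm.M.sys.w ()).sd false) := K.L.D.push J.ψ hs (J.ori.mono hs)

include hs ht ta hi

omit K in
theorem off {x : Lm.X.M} (hx : x ∈ (Lm.M.sys.w ()).sd false) {a : A} (h : a ≠ J.f' ()) (h' : t a ≠ 0) :
    J.ψ x ∉ range (M.bn a).j := fun k =>
  (M.sys.w _).not_mem_sd ((J.sd () false x (hs hx)).2 hx) (hi a h (ht.2 h' ta h) k)

omit K in
theorem off' {x : Lm.X.M} (hx : x ∈ (Lm.M.sys.w ()).sd false) (h : x ∉ range (Lm.M.bn ()).j) (a : A)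
    (h' : t a ≠ 0) : J.ψ x ∉ range (M.bn a).j := by
  by_cases k : a = J.f' ()
  · rintro ⟨q, hq⟩
    subst k
    refine h ⟨((J.g ()).symm q.1, q.2), J.ψ.injOn (J.sub () ⟨_, rfl⟩) (hs hx) ?_⟩
    rw [J.jj, ← hq]; simp
  · exact off hs ht ta hi hx k h'

omit K in
theorem src {c : M.Cl} (hc : c.1 ⊆ Sys.inf t) :
    J.ψ '' (Lm.M.sys.w ()).sd false ⊆ (M.sys.cores (Sys.inf t))ᶜ ∩ (W.φ c).source := by
  rintro _ ⟨x, hx, rfl⟩
  have : J.ψ x ∉ M.sys.cores (Sys.inf t) := fun h => by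
    obtain ⟨a, ha, h⟩ := mem_iUnion₂.1 h
    by_cases k : a = J.f' ()
    · subst k; exact h false ((J.sd () false x (hs hx)).2 hx)
    · exact off hs ht ta hi hx k (Sys.inf_subset t ha) ((M.sys.w a).core_subset h)
  exact ⟨this, W.src c ▸ fun h => this (biUnion_subset_biUnion_left hc h)⟩

theorem mv_X (hN : NeckStmt) {B : Bas X univ} (std : Std W B) (met : ∀ x ∈ (Lm.M.sys.w ()).sd false,
    Co (fun i => mf Lm.X.I X.I J.ψ x (atx (Lm.B.r 0) x i)) (atx (B.r u) (J.ψ x))) :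
    (K.DX hs).MV K.L.P (K.L.hT (t (J.f' ()))) (W.k (u, t)) := by
  refine K.L.D.mv_push hs _ fun b x hx h0 α e => ?_
  have hx' := K.L.D.sub b hx
  have m : ∀ i j, X212.M.cm (atx (B.r u) (J.ψ x)) (α i) (α j) = X212.M.cm (atx (Lm.B.r 0) x) _ _ := fun i j =>
    (met x hx' _ _).symm.trans (Finset.sum_congr rfl fun a _ => by rw [e, e])
  rcases K.L.cases hx with ⟨q, hq, rfl⟩ | h
  · obtain ⟨h1, h2, h3⟩ := hN _ _ _ _ _ _ K.L (K.L.hT (t (J.f' ())) (K.L.g q.2)) b q hq hx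
    have l := lmb_in (t := t (J.f' ())) hq.2.ne
    have np := mt (J.pin ()).1 K.np
    intro i j
    have m' := m i j
    rw [h1, (K.L.fl _ _ le_rfl).1] at e m'
    refine (cm_std (J := J) (a := ()) ht ta std hq.2.ne _ _).trans ?_
    erw [m', X212.M.cm, ← K.prod q hq.1 (by linarith [hq.2])]
    simp only [X212.M.cm, Fintype.sum_option, Mark.nf, Mark.wt_none K.np, Mark.wt_some K.np, one_mul,
      ContinuousLinearMap.map_smul, LinearMap.map_smul, smul_eq_mul]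
    erw [e, e, Finset.sum_congr rfl fun k _ => congrArg₂ (· * ·) (e i _) (e j _), h2, h2, h3]
    have k := K.L.hH _ (Ioo_subset_Icc_self hq)
    have k2 := Real.sq_sqrt l.le
    have k3 := (Real.sqrt_pos.2 l).ne'
    rw [K.L.hT_g, div_mul_eq_mul_div, k, lmb]
    generalize √(_ : ℝ) = r at *
    by_cases a : i = 0 <;> by_cases b : j = 0 <;> by_cases c : i = j <;>
      simp only [a, b, c, if_true, if_false, ne_eq, not_true, not_false_iff, and_true, and_false, eq_comm (a := (0 : Fin 4))] <;>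
      field_simp <;> linarith
  · rw [LB.hT, if_pos h.1] at e m
    refine fun i j => .trans ?_ ((m i j).trans (K.mv b x hx h0 i j))
    by_cases k : x ∈ range (Lm.M.bn ()).j
    · obtain ⟨q, rfl⟩ := k
      have := h.2 q rfl
      refine (cm_std (J := J) (a := ()) ht ta std (by linarith) _ _).trans ?_
      simp [chi_eq_zero (s := q.2) (le_abs.2 (.inr (by linarith)))]
    · exact std.off u t ht _ (off' hs ht ta hi hx' k) _ _

variable {N : ML M lam} {Λ : Lns W N} {σ : Bool} {β : LBas X univ} (ls : LStd Λ β)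
  (ins : LId (Lm.N σ) N J (hf Lm.M () false) (Lm.N σ).p)
  (con : ∀ x ∈ (Lm.M.sys.w ()).sd false, pm Lm.X.I X.I J.ψ (β.b u) x = (Lm.b σ).b 0 x)

include K ls ins con in
theorem iso_X : Line51.Iso Lm.X.I ⟨(Lm.N σ).p, (Lm.b σ).b 0⟩
    (Ln.pull Lm.X.I X.I J.ψ ⟨N.p, Λ.a0 (u, t)⟩) (Lm.N σ).p ((Lm.M.sys.w ()).sd false) := by
  have h : Ln.On Lm.X.I ⟨(Lm.N σ).p, (Lm.b σ).b 0⟩ univ :=
    ⟨(Lm.N σ).ok.sm, (Lm.N σ).ok.prj, (Lm.N σ).ok.tr, (Lm.b σ).sm 0, (Lm.b σ).dg 0⟩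
  refine ((Line51.Iso.refl isOpen_univ h).mono (subset_univ _)).of_eq (fun _ _ => rfl) (fun _ _ => rfl)
    (fun x hx => lid_p ins (.inl hx)) fun x hx => ?_
  by_cases k : x ∈ range (Lm.M.bn ()).j
  · obtain ⟨q, rfl⟩ := k
    have h0 : q.2 < 0 := by simpa [X212.M.pm] using (Lm.M.bn ()).j_mem_sd.1 hx
    refine Dr59.pm_inj ((Lm.M.bn ()).oe.loc q) ((pm_std (J := J) (a := ()) ht ta ls).trans ?_)
    erw [pm_congr_right (con _ hx)]
    by_cases k : q.2 ≤ -2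
    · simp [chi_eq_zero (s := q.2) (le_abs.2 (.inr (by linarith)))]
    · erw [lid_nA ins (abs_lt.2 ⟨by linarith, by linarith⟩) (.inl hx),
        ← K.flat σ q (by linarith) (by linarith), ← add_smul, sub_add_cancel, one_smul]
  · exact (pm_congr_right (ls.off u t ht _ (off' hs ht ta hi hx k))).trans (con x hx)

end LOK

/-! ### scenes -/

namespace LOK
variable {Lm : LM κ lam} {n : ℕ} (K : LOK Lm n) {S : Scene Lm} (ok : S.OK) (D : S.Dat) (l : S.ls)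
  {c : S.M.Cl} {p : Prm S.A} (hp : p ∈ S.M.Br c.1) (hl : p.2 l ≠ 0)

variable (i : S.L)

omit K in
include ok i in
theorem hs : (Lm.M.sys.w ()).sd false ⊆ (S.I l).ψ.source := fun _ hx => (ok.ins l i).sub (.inl hx)

omit K in
include ok i in
theorem img : (S.I l).ψ '' (Lm.M.sys.w ()).sd false = (S.M.sys.w l).sd false := by
  have e := fun x h => (S.I l).sd () false x h
  rw [ok.wall l] at e
  refine subset_antisymm (image_subset_iff.2 fun x hx => (e x (hs ok l i hx)).2 hx) fun y hy => ?_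
  obtain ⟨x, hx, rfl⟩ := (ok.img l).ge (.inl hy)
  exact ⟨x, (e x ((ok.ins l i).sub hx)).1 hy, rfl⟩

include hp hl

omit K in
include ok i in
theorem src' : (S.I l).ψ '' (Lm.M.sys.w ()).sd false ⊆ (S.M.sys.cores (Sys.inf p.2))ᶜ ∩ (D.W.φ c).source :=
  src (hs ok l i) hp.1 ((ok.wall l).symm ▸ hl) ((ok.wall l).symm ▸ ok.lsi l l.2) hp.2

/-- the disc bundle in `Z c` -/
def DZ : Dsc (D.W.Z c).I (D.W.o c) n (D.W.φ c '' ((S.I l).ψ '' (Lm.M.sys.w ()).sd false)) :=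
  (K.DX (hs ok l i)).push (D.W.φ c) (fun _ h => (src' ok D l hp hl i h).2)
    ((D.W.oφ c).mono fun _ h => (src' ok D l hp hl i h).2)

/-- **the world is the model inside an active lens wall** -/
theorem mo (hN : NeckStmt) (ho : p ∈ S.M.O c.1) (m : S.M.Cl) :
    Mo ((D.Λ i).B m c) ((D.Λ i).G m c p) (K.DZ ok D l hp hl i) K.L.P (K.L.hT (p.2 l)) where
  n0 := K.L.n0
  h4 := (D.W.Z c).dim
  hB := (D.Λ i).B_ok m c
  hG := (D.Λ i).G_ok m ho
  pr := by
    rintro b _ ⟨_, ⟨x, hx, rfl⟩, rfl⟩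
    have k := hs ok l i (K.L.D.sub b hx)
    have e : (K.DZ ok D l hp hl i).w b (D.W.φ c ((S.I l).ψ x)) = K.L.D.w b x :=
      congrArg (K.L.D.w b) ((congrArg (S.I l).ψ.symm ((D.W.φ c).left_inv
        (src' ok D l hp hl i ⟨x, K.L.D.sub b hx, rfl⟩).2)).trans ((S.I l).ψ.left_inv k))
    rw [e]
    exact K.L.pra hN _ hx
  mv := by
    have := K.mv_X (hs ok l i) hp.1 ((ok.wall l).symm ▸ hl) ((ok.wall l).symm ▸ ok.lsi l l.2) hN D.std
      (D.met l p.1)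
    rw [ok.wall l] at this
    refine this.push _ _ fun x hx => ?_
    erw [(D.W.L m c).F_e (Mark.mem_Ω _ ho)]
    exact D.W.co m c p hp x (src' ok D l hp hl i hx).1
  ori y _ a b k r := (congrFun₃ (congrFun₂ ((D.W.L m c).ov_F (Mark.mem_Ω _ ho)) a b) k r y).symm

/-- the frames of the line -/
def sZ (m : S.M.Cl) (b : Bool) (z : (D.W.Z c).M) : Matrix lam Unit ℂ :=
  (D.Λ i).v m c ((D.W.φ c).symm z) * ((Lm.N (S.sg l i)).p ((S.I l).ψ.symm ((D.W.φ c).symm z)) *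
    K.s (S.sg l i) b ((S.I l).ψ.symm ((D.W.φ c).symm z)))

theorem frZ (m : S.M.Cl) (b : Bool) : (((D.Λ i).Λ m c).ln p).Fr (D.W.Z c).I (K.sZ D l i m b)
    (K.L.P.al (D.W.Z c).I (-(K.k (S.sg l i)) / n) ((K.DZ ok D l hp hl i).u b) ((K.DZ ok D l hp hl i).w b))
    ((K.DZ ok D l hp hl i).O b) :=
  fr_push _ _ (fr_push _ _ (K.fr _ b) (K.iso_X (hs ok l i) hp.1 ((ok.wall l).symm ▸ hl)
    ((ok.wall l).symm ▸ ok.lsi l l.2) (D.lstd i) (ok.ins l i) (D.con l i p.1)))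
    (((D.Λ i).iso m c p hp).mono fun _ h => (src' ok D l hp hl i h).2)

variable (hN : NeckStmt) (ho : p ∈ S.M.O c.1) (m : S.M.Cl) {z : (D.W.Z c).M}
  (hz : z ∈ D.W.φ c '' (S.M.sys.w l).sd false)
include K ok hN ho hz

theorem posW : PosW ((D.Λ i).B m c) ((D.Λ i).G m c p) (1 / 2) z :=
  (K.mo ok D l hp hl i hN ho m).posW (img ok l i ▸ hz)

theorem posP (hk : ∀ σ, |K.k σ| ≤ n) : PosP ((D.Λ i).B m c) ((D.Λ i).G m c p) 1 z := by
  have := K.mo ok D l hp hl i hN ho m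
  have n0 : (0 : ℝ) < n := Nat.cast_pos.2 (Nat.pos_of_ne_zero K.L.n0)
  rw [Lns.B, LLay.B_eq _ (Mark.mem_Ω _ ho)] at this ⊢
  refine this.posP (((D.Λ i).Λ m c).ln_on p) ?_ (fun b => ⟨_, K.frZ ok D l hp hl i m b⟩) (img ok l i ▸ hz)
  rw [abs_div, abs_neg, abs_of_pos n0, div_le_one n0]
  exact_mod_cast hk _

end LOK

end Crest.Agent.X212.Lns95
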